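/-
R335/T/Wd: weak derivatives: uniqueness, linearity, closedness
Skeleton by helper48 (row 335); keep the statements unchanged, add any helper lemmas you like.
-/
import Crest.Agent.R335.Defs

set_option autoImplicit false
set_option linter.unusedSectionVars false
set_option linter.unusedVariables false
set_option linter.unusedSimpArgs false

noncomputable section

namespace Crest.Agent.R335

open MeasureTheory Set Filter Topology Metric
open scoped ENNReal

variable {E : Type} [NormedAddCommGroup E] [NormedSpace ℝ E] [FiniteDimensional ℝ E]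
  [MeasureSpace E] [BorelSpace E] [(volume : Measure E).IsAddHaarMeasure]
  {ι : Type} [Fintype ι] {b : ι → E}

variable {v : E} {f f' g g' : E → ℝ}

theorem Tst.cont {φ : E → ℝ} (h : Tst φ) : Continuous φ := h.1.continuous

theorem Tst.dcont {φ : E → ℝ} (h : Tst φ) (v : E) : Continuous fun x => fderiv ℝ φ x v :=
  (h.1.continuous_fderiv one_ne_zero).clm_apply continuous_const

theorem Tst.dsupp {φ : E → ℝ} (h : Tst φ) (v : E) : HasCompactSupport fun x => fderiv ℝ φ x v :=
  h.2.fderiv_apply ℝ v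

theorem wd_int_mul (hf : LocallyIntegrable f volume) {ψ : E → ℝ} (hψ : Continuous ψ)
    (hs : HasCompactSupport ψ) : Integrable fun x => f x * ψ x :=
  hf.integrable_smul_right_of_hasCompactSupport hψ hs

theorem WD.intL (h : WD v f g) {φ : E → ℝ} (hφ : Tst φ) :
    Integrable fun x => f x * fderiv ℝ φ x v :=
  wd_int_mul h.1 (hφ.dcont v) (hφ.dsupp v)

theorem WD.intR (h : WD v f g) {φ : E → ℝ} (hφ : Tst φ) : Integrable fun x => g x * φ x :=
  wd_int_mul h.2.1 hφ.cont hφ.2

theorem measurable_wd (v : E) (f : E → ℝ) : Measurable (wd v f) := by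
  unfold R335.wd
  split_ifs with h
  · exact h.choose_spec.1
  · exact measurable_zero

/-- `ae_eq_of_integral_contDiff_smul_eq`. -/
theorem WD.unique (h : WD v f g) (h' : WD v f g') : g =ᵐ[volume] g' := by
  refine ae_eq_of_integral_contDiff_smul_eq h.2.1 h'.2.1 fun φ h1 h2 => ?_
  have hφ : Tst φ := ⟨h1.of_le (by exact_mod_cast le_top), h2⟩
  have h3 := (h.2.2 φ hφ).symm.trans (h'.2.2 φ hφ)
  simp only [smul_eq_mul, mul_comm (φ _)]
  exact neg_injective h3

theorem WD.congr (h : WD v f g) (hf : f =ᵐ[volume] f') (hg : g =ᵐ[volume] g') : WD v f' g' := by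
  refine ⟨h.1.congr hf, h.2.1.congr hg, fun φ hφ => ?_⟩
  have h1 : ∫ x, f' x * fderiv ℝ φ x v = ∫ x, f x * fderiv ℝ φ x v :=
    integral_congr_ae (hf.mono fun x hx => by simp only [hx])
  have h2 : ∫ x, g' x * φ x = ∫ x, g x * φ x :=
    integral_congr_ae (hg.mono fun x hx => by simp only [hx])
  rw [h1, h2, h.2.2 φ hφ]

/-- Use the measurable version `h.2.1.aestronglyMeasurable.mk`. -/
theorem WD.wd (h : WD v f g) : WD v f (wd v f) := by
  have h1 : ∃ g : E → ℝ, Measurable g ∧ WD v f g :=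
    ⟨h.2.1.aestronglyMeasurable.mk g, h.2.1.aestronglyMeasurable.stronglyMeasurable_mk.measurable,
      h.congr (EventuallyEq.refl _ _) h.2.1.aestronglyMeasurable.ae_eq_mk⟩
  unfold R335.wd
  rw [dif_pos h1]
  exact h1.choose_spec.2

theorem WD.wd_ae (h : WD v f g) : R335.wd v f =ᵐ[volume] g := by
  exact h.wd.unique h

theorem wd_congr (v : E) (hf : f =ᵐ[volume] f') : wd v f =ᵐ[volume] wd v f' := by
  by_cases h : ∃ g : E → ℝ, Measurable g ∧ WD v f g
  · obtain ⟨g, -, hg⟩ := h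
    exact hg.wd_ae.trans (hg.congr hf (EventuallyEq.refl _ _)).wd_ae.symm
  · have h' : ¬∃ g : E → ℝ, Measurable g ∧ WD v f' g := fun ⟨g, h1, h2⟩ =>
      h ⟨g, h1, h2.congr hf.symm (EventuallyEq.refl _ _)⟩
    unfold R335.wd
    rw [dif_neg h, dif_neg h']

/-- `integral_mul_fderiv_eq_neg_fderiv_mul_of_integrable` or the integral of the derivative of a
`C¹` function of compact support vanishes. -/
theorem WD.of_contDiff (v : E) (hf : ContDiff ℝ 1 f) : WD v f fun x => fderiv ℝ f x v := by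
  have hc : Continuous fun x => fderiv ℝ f x v :=
    (hf.continuous_fderiv one_ne_zero).clm_apply continuous_const
  refine ⟨hf.continuous.locallyIntegrable, hc.locallyIntegrable, fun φ hφ => ?_⟩
  exact integral_mul_fderiv_eq_neg_fderiv_mul_of_integrable
    (wd_int_mul hc.locallyIntegrable hφ.cont hφ.2)
    (wd_int_mul hf.continuous.locallyIntegrable (hφ.dcont v) (hφ.dsupp v))
    (wd_int_mul hf.continuous.locallyIntegrable hφ.cont hφ.2)
    (fun x _ => hf.differentiable one_ne_zero x) fun x _ => hφ.1.differentiable one_ne_zero x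

theorem WD.add (h : WD v f g) (h' : WD v f' g') :
    WD v (fun x => f x + f' x) fun x => g x + g' x := by
  refine ⟨h.1.add h'.1, h.2.1.add h'.2.1, fun φ hφ => ?_⟩
  simp only [add_mul]
  rw [integral_add (h.intL hφ) (h'.intL hφ), integral_add (h.intR hφ) (h'.intR hφ), h.2.2 φ hφ,
    h'.2.2 φ hφ, neg_add]

theorem WD.const_mul (h : WD v f g) (c : ℝ) : WD v (fun x => c * f x) fun x => c * g x := by
  refine ⟨h.1.smul c, h.2.1.smul c, fun φ hφ => ?_⟩
  simp only [mul_assoc]
  rw [integral_const_mul, integral_const_mul, h.2.2 φ hφ, mul_neg]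

theorem WD.neg (h : WD v f g) : WD v (fun x => -f x) fun x => -g x := by
  simpa only [neg_mul, one_mul] using h.const_mul (-1)

theorem WD.sub (h : WD v f g) (h' : WD v f' g') :
    WD v (fun x => f x - f' x) fun x => g x - g' x := by
  simpa only [sub_eq_add_neg] using h.add h'.neg

theorem WD.sum {κ : Type} (s : Finset κ) {F G : κ → E → ℝ} (h : ∀ j ∈ s, WD v (F j) (G j)) :
    WD v (fun x => ∑ j ∈ s, F j x) fun x => ∑ j ∈ s, G j x := by
  classical
  induction s using Finset.induction_on with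
  | empty => exact ⟨by simpa using locallyIntegrable_zero, by simpa using locallyIntegrable_zero,
      fun φ _ => by simp⟩
  | insert a s ha ih =>
    simp only [Finset.sum_insert ha]
    exact (h a (Finset.mem_insert_self _ _)).add (ih fun j hj => h j (Finset.mem_insert_of_mem hj))

/-- Test with `χ φ`. -/
theorem WD.mul_contDiff (h : WD v f g) {χ : E → ℝ} (hχ : ContDiff ℝ 1 χ) :
    WD v (fun x => χ x * f x) fun x => χ x * g x + fderiv ℝ χ x v * f x := by
  have hc : Continuous fun x => fderiv ℝ χ x v :=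
    (hχ.continuous_fderiv one_ne_zero).clm_apply continuous_const
  have l1 : LocallyIntegrable (fun x => χ x * g x) volume := h.2.1.continuous_mul hχ.continuous
  have l2 : LocallyIntegrable (fun x => fderiv ℝ χ x v * f x) volume := h.1.continuous_mul hc
  have l3 : LocallyIntegrable (fun x => χ x * f x) volume := h.1.continuous_mul hχ.continuous
  refine ⟨l3, l1.add l2, fun φ hφ => ?_⟩
  have ht : Tst fun x => χ x * φ x := ⟨hχ.mul hφ.1, hφ.2.mul_left⟩
  have h1 := h.2.2 _ ht
  have h2 : ∀ x, f x * fderiv ℝ (fun x => χ x * φ x) x v =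
      χ x * f x * fderiv ℝ φ x v + fderiv ℝ χ x v * f x * φ x := fun x => by
    rw [fderiv_fun_mul (hχ.differentiable one_ne_zero x) (hφ.1.differentiable one_ne_zero x)]
    simp only [add_apply, smul_apply, smul_eq_mul]
    ring
  have h3 : ∀ x, g x * (χ x * φ x) = χ x * g x * φ x := fun x => by ring
  simp only [h2, h3] at h1
  simp only [add_mul]
  rw [integral_add (wd_int_mul l3 (hφ.dcont v) (hφ.dsupp v)) (wd_int_mul l2 hφ.cont hφ.2)] at h1
  rw [integral_add (wd_int_mul l1 hφ.cont hφ.2) (wd_int_mul l2 hφ.cont hφ.2)]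
  linarith

theorem wd_of_lim {F G : ℕ → E → ℝ} (h : ∀ n, WD v (F n) (G n))
    (hf : LocallyIntegrable f volume) (hg : LocallyIntegrable g volume)
    (h1 : ∀ ψ : E → ℝ, Continuous ψ → HasCompactSupport ψ →
      Tendsto (fun n => ∫ x, F n x * ψ x) atTop (𝓝 (∫ x, f x * ψ x)))
    (h2 : ∀ ψ : E → ℝ, Continuous ψ → HasCompactSupport ψ →
      Tendsto (fun n => ∫ x, G n x * ψ x) atTop (𝓝 (∫ x, g x * ψ x))) : WD v f g := by
  refine ⟨hf, hg, fun φ hφ => ?_⟩
  refine tendsto_nhds_unique (h1 _ (hφ.dcont v) (hφ.dsupp v)) ?_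
  simp only [fun n => (h n).2.2 φ hφ]
  exact (h2 φ hφ.cont hφ.2).neg

theorem wd_tendsto_mul {F : ℕ → E → ℝ} (hF : ∀ n, LocallyIntegrable (F n) volume)
    (hf : LocallyIntegrable f volume)
    (h1 : ∀ R : ℝ, Tendsto (fun n => ∫ x in closedBall (0 : E) R, |F n x - f x|) atTop (𝓝 0))
    (ψ : E → ℝ) (hψ : Continuous ψ) (hs : HasCompactSupport ψ) :
    Tendsto (fun n => ∫ x, F n x * ψ x) atTop (𝓝 (∫ x, f x * ψ x)) := by
  obtain ⟨C, hC⟩ := hψ.bounded_above_of_compact_support hs
  obtain ⟨R, hR⟩ := hs.isCompact.isBounded.subset_closedBall (0 : E)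
  rw [tendsto_iff_norm_sub_tendsto_zero]
  have h2 := (h1 R).const_mul C
  rw [mul_zero] at h2
  refine squeeze_zero (fun n => norm_nonneg _) (fun n => ?_) h2
  have hi : IntegrableOn (fun x => |F n x - f x|) (closedBall (0 : E) R) volume :=
    (((hF n).sub hf).integrableOn_isCompact (isCompact_closedBall _ _)).abs
  rw [← integral_sub (wd_int_mul (hF n) hψ hs) (wd_int_mul hf hψ hs), ← integral_const_mul,
    ← integral_indicator measurableSet_closedBall]
  refine norm_integral_le_of_norm_le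
    ((integrable_indicator_iff measurableSet_closedBall).2 (hi.const_mul C)) (.of_forall fun x => ?_)
  by_cases hx : x ∈ closedBall (0 : E) R
  · rw [indicator_of_mem hx, ← sub_mul, norm_mul, mul_comm]
    exact mul_le_mul_of_nonneg_right (hC x) (abs_nonneg _)
  · rw [indicator_of_notMem hx, image_eq_zero_of_notMem_tsupport fun h => hx (hR h)]
    simp

/-- Closedness under local `L¹` convergence. -/
theorem WD.of_tendsto {F G : ℕ → E → ℝ} (h : ∀ n, WD v (F n) (G n))
    (hf : LocallyIntegrable f volume) (hg : LocallyIntegrable g volume)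
    (h1 : ∀ R : ℝ, Tendsto (fun n => ∫ x in closedBall (0 : E) R, |F n x - f x|) atTop (𝓝 0))
    (h2 : ∀ R : ℝ, Tendsto (fun n => ∫ x in closedBall (0 : E) R, |G n x - g x|) atTop (𝓝 0)) :
    WD v f g := by
  exact wd_of_lim h hf hg (wd_tendsto_mul (fun n => (h n).1) hf h1)
    (wd_tendsto_mul (fun n => (h n).2.1) hg h2)

theorem wd_inner (hf : MemLp f 2 volume) (hg : MemLp g 2 volume) :
    inner ℝ (hf.toLp f) (hg.toLp g) = ip f g := by
  rw [L2.inner_def]
  refine integral_congr_ae ?_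
  filter_upwards [hf.coeFn_toLp, hg.coeFn_toLp] with x h1 h2
  rw [h1, h2]
  simp [mul_comm]

theorem wd_L2to {F : ℕ → E → ℝ} (hF : ∀ n, MemLp (F n) 2 volume) (hf : MemLp f 2 volume)
    (h : L2to F f) : Tendsto (fun n => (hF n).toLp (F n)) atTop (𝓝 (hf.toLp f)) := by
  rw [tendsto_iff_norm_sub_tendsto_zero]
  have h1 : ∀ n, ‖(hF n).toLp (F n) - hf.toLp f‖ = √(∫ x, (F n x - f x) ^ 2) := fun n => by
    rw [← MemLp.toLp_sub, norm_eq_sqrt_real_inner, wd_inner]
    simp only [ip, sq, Pi.sub_apply]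
  simp only [h1]
  simpa using h.sqrt

theorem wd_tendsto_ip {F G : ℕ → E → ℝ} (hF : ∀ n, MemLp (F n) 2 volume)
    (hG : ∀ n, MemLp (G n) 2 volume) (hf : MemLp f 2 volume) (hg : MemLp g 2 volume)
    (h1 : L2to F f) (h2 : L2to G g) : Tendsto (fun n => ip (F n) (G n)) atTop (𝓝 (ip f g)) := by
  have h3 := (wd_L2to hF hf h1).inner (𝕜 := ℝ) (wd_L2to hG hg h2)
  simpa only [wd_inner] using h3

theorem wd_L2to_const (f : E → ℝ) : L2to (fun _ => f) f := by
  simp [L2to]

/-- Closedness under `L²` convergence (Cauchy-Schwarz on balls). -/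
theorem WD.of_L2to {F G : ℕ → E → ℝ} (h : ∀ n, WD v (F n) (G n)) (hF : ∀ n, MemLp (F n) 2 volume)
    (hG : ∀ n, MemLp (G n) 2 volume) (hf : MemLp f 2 volume) (hg : MemLp g 2 volume)
    (h1 : L2to F f) (h2 : L2to G g) : WD v f g := by
  refine wd_of_lim h (hf.locallyIntegrable one_le_two) (hg.locallyIntegrable one_le_two)
    (fun ψ hψ hs => ?_) fun ψ hψ hs => ?_
  · have hm : MemLp ψ 2 volume := hψ.memLp_of_hasCompactSupport hs
    exact wd_tendsto_ip hF (fun _ => hm) hf hm h1 (wd_L2to_const ψ)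
  · have hm : MemLp ψ 2 volume := hψ.memLp_of_hasCompactSupport hs
    exact wd_tendsto_ip hG (fun _ => hm) hg hm h2 (wd_L2to_const ψ)

theorem wd_dom_loc {F : ℕ → E → ℝ} {p : E → ℝ} (h : ∀ n, LocallyIntegrable (F n) volume)
    (hp : LocallyIntegrable p volume) (hF : ∀ n, ∀ᵐ x : E, |F n x| ≤ p x)
    (h1 : ∀ᵐ x : E, Tendsto (fun n => F n x) atTop (𝓝 (f x))) : LocallyIntegrable f volume := by
  refine hp.mono (aestronglyMeasurable_of_tendsto_ae atTop (fun n => (h n).aestronglyMeasurable) h1) ?_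
  filter_upwards [ae_all_iff.2 hF, h1] with x h2 h3
  exact (le_of_tendsto' h3.abs h2).trans (le_abs_self _)

theorem wd_dom_mul {F : ℕ → E → ℝ} {p : E → ℝ} (h : ∀ n, LocallyIntegrable (F n) volume)
    (hp : LocallyIntegrable p volume) (hF : ∀ n, ∀ᵐ x : E, |F n x| ≤ p x)
    (h1 : ∀ᵐ x : E, Tendsto (fun n => F n x) atTop (𝓝 (f x)))
    (ψ : E → ℝ) (hψ : Continuous ψ) (hs : HasCompactSupport ψ) :
    Tendsto (fun n => ∫ x, F n x * ψ x) atTop (𝓝 (∫ x, f x * ψ x)) := by
  refine tendsto_integral_of_dominated_convergence (fun x => p x * |ψ x|)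
    (fun n => (wd_int_mul (h n) hψ hs).1) (wd_int_mul hp hψ.abs hs.abs) (fun n => ?_) ?_
  · filter_upwards [hF n] with x hx
    rw [norm_mul]
    exact mul_le_mul_of_nonneg_right hx (abs_nonneg _)
  · filter_upwards [h1] with x hx using hx.mul_const _

/-- Closedness under dominated a.e. convergence. -/
theorem WD.of_dominated {F G : ℕ → E → ℝ} {p q : E → ℝ} (h : ∀ n, WD v (F n) (G n))
    (hp : LocallyIntegrable p volume) (hq : LocallyIntegrable q volume)
    (hF : ∀ n, ∀ᵐ x : E, |F n x| ≤ p x) (hG : ∀ n, ∀ᵐ x : E, |G n x| ≤ q x)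
    (h1 : ∀ᵐ x : E, Tendsto (fun n => F n x) atTop (𝓝 (f x)))
    (h2 : ∀ᵐ x : E, Tendsto (fun n => G n x) atTop (𝓝 (g x))) : WD v f g := by
  exact wd_of_lim h (wd_dom_loc (fun n => (h n).1) hp hF h1) (wd_dom_loc (fun n => (h n).2.1) hq hG h2)
    (wd_dom_mul (fun n => (h n).1) hp hF h1) (wd_dom_mul (fun n => (h n).2.1) hq hG h2)

/-- Locality (`IsOpen.ae_eq_zero_of_integral_contDiff_smul_eq_zero`). -/
theorem WD.local (h : WD v f g) (h' : WD v f' g') {O : Set E} (hO : IsOpen O)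
    (he : ∀ᵐ x : E, x ∈ O → f x = f' x) : ∀ᵐ x : E, x ∈ O → g x = g' x := by
  have h1 := hO.ae_eq_zero_of_integral_contDiff_smul_eq_zero (f := fun x => g x - g' x)
    ((h.2.1.sub h'.2.1).locallyIntegrableOn O) fun φ h1 h2 h3 => by
      have hφ : Tst φ := ⟨h1.of_le (by exact_mod_cast le_top), h2⟩
      have h4 : ∫ x, f x * fderiv ℝ φ x v = ∫ x, f' x * fderiv ℝ φ x v := by
        refine integral_congr_ae (he.mono fun x hx => ?_)
        by_cases hxO : x ∈ O
        · simp only [hx hxO]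
        · simp only [fderiv_of_notMem_tsupport ℝ fun h => hxO (h3 h), zero_apply,
            mul_zero]
      rw [h.2.2 φ hφ, h'.2.2 φ hφ] at h4
      simp only [smul_eq_mul, mul_comm (φ _), sub_mul]
      rw [integral_sub (h.intR hφ) (h'.intR hφ), neg_injective h4, sub_self]
  filter_upwards [h1] with x hx hxO using sub_eq_zero.1 (hx hxO)

/-- Smooth cut-offs at infinity: `χ (x / n)`. -/
theorem exists_cutoff : ∃ (χ : ℕ → E → ℝ) (C : ℝ), (∀ n, ContDiff ℝ 2 (χ n) ∧
    HasCompactSupport (χ n)) ∧ (∀ n x, 0 ≤ χ n x ∧ χ n x ≤ 1) ∧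
    (∀ (n : ℕ) x, ‖x‖ ≤ n → χ n x = 1) ∧ ∀ (n : ℕ) x, ‖fderiv ℝ (χ n) x‖ ≤ C / (n + 1) := by
  let φ : ContDiffBump (0 : E) := ⟨1, 2, one_pos, one_lt_two⟩
  have h1 : ContDiff ℝ 2 φ := φ.contDiff
  obtain ⟨C, hC⟩ := (h1.continuous_fderiv two_ne_zero).bounded_above_of_compact_support
    (φ.hasCompactSupport.fderiv ℝ)
  have hp : ∀ n : ℕ, (0 : ℝ) < n + 1 := fun n => by positivity
  refine ⟨fun n x => φ (((n : ℝ) + 1)⁻¹ • x), C, fun n => ⟨h1.comp (contDiff_const_smul _),
    φ.hasCompactSupport.comp_smul (inv_pos.2 (hp n)).ne'⟩, fun n x => ⟨φ.nonneg, φ.le_one⟩,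
    fun n x hx => φ.one_of_mem_closedBall ?_, fun n x => ?_⟩
  · rw [mem_closedBall_zero_iff, norm_smul, Real.norm_of_nonneg (inv_pos.2 (hp n)).le,
      inv_mul_le_iff₀ (hp n)]
    change ‖x‖ ≤ (n + 1) * 1
    linarith
  · have h2 : HasFDerivAt (fun x : E => φ (((n : ℝ) + 1)⁻¹ • x))
        ((fderiv ℝ φ (((n : ℝ) + 1)⁻¹ • x)).comp (((n : ℝ) + 1)⁻¹ • ContinuousLinearMap.id ℝ E)) x :=
      (h1.differentiable two_ne_zero _).hasFDerivAt.comp x ((hasFDerivAt_id x).const_smul _)
    rw [h2.fderiv, ContinuousLinearMap.comp_smul, ContinuousLinearMap.comp_id, norm_smul,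
      Real.norm_of_nonneg (inv_pos.2 (hp n)).le, div_eq_inv_mul]
    exact mul_le_mul_of_nonneg_left (hC _) (inv_pos.2 (hp n)).le

/-- A subsequence that converges a.e., for finitely many sequences at once. -/
theorem exists_subseq_ae {κ : Type} [Fintype κ] {F : κ → ℕ → E → ℝ} {f : κ → E → ℝ}
    (hF : ∀ j n, MemLp (F j n) 2 volume) (hf : ∀ j, MemLp (f j) 2 volume)
    (h : ∀ j, L2to (F j) (f j)) : ∃ ns : ℕ → ℕ, StrictMono ns ∧
      ∀ᵐ x : E, ∀ j, Tendsto (fun n => F j (ns n) x) atTop (𝓝 (f j x)) := by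
  have hi : ∀ j n, Integrable fun x => (F j n x - f j x) ^ 2 := fun j n =>
    ((hF j n).sub (hf j)).integrable_sq
  have hS : ∀ n, Integrable fun x => ∑ j, (F j n x - f j x) ^ 2 := fun n =>
    integrable_finsetSum _ fun j _ => hi j n
  have h1 : Tendsto (fun n => ∫ x, ∑ j, (F j n x - f j x) ^ 2) atTop (𝓝 0) := by
    simp only [fun n => integral_finsetSum Finset.univ fun j _ => hi j n]
    simpa using tendsto_finsetSum Finset.univ fun j _ => h j
  have h2 : TendstoInMeasure volume (fun n x => ∑ j, (F j n x - f j x) ^ 2) atTop (0 : E → ℝ) := by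
    refine tendstoInMeasure_of_tendsto_eLpNorm one_ne_zero (fun n => (hS n).1)
      aestronglyMeasurable_zero ?_
    have h3 : ∀ n, eLpNorm ((fun x => ∑ j, (F j n x - f j x) ^ 2) - 0) 1 volume =
        ENNReal.ofReal (∫ x, ∑ j, (F j n x - f j x) ^ 2) := fun n => by
      rw [sub_zero, eLpNorm_one_eq_lintegral_enorm, ← ofReal_integral_norm_eq_lintegral_enorm (hS n)]
      congr 1
      refine integral_congr_ae (.of_forall fun x => ?_)
      exact Real.norm_of_nonneg (Finset.sum_nonneg fun j _ => sq_nonneg _)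
    simp only [h3]
    simpa using ENNReal.tendsto_ofReal h1
  obtain ⟨ns, hns, h4⟩ := h2.exists_seq_tendsto_ae
  refine ⟨ns, hns, h4.mono fun x hx j => ?_⟩
  rw [tendsto_iff_norm_sub_tendsto_zero]
  have h5 := hx.sqrt
  simp only [Pi.zero_apply, Real.sqrt_zero] at h5
  refine squeeze_zero (fun n => norm_nonneg _) (fun n => Real.le_sqrt_of_sq_le ?_) h5
  rw [Real.norm_eq_abs, sq_abs]
  exact Finset.single_le_sum (f := fun j => (F j (ns n) x - f j x) ^ 2) (fun j _ => sq_nonneg _)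
    (Finset.mem_univ j)

/-- Cauchy-Schwarz. -/
theorem ip_sq_le (hf : MemLp f 2 volume) (hg : MemLp g 2 volume) :
    ip f g ^ 2 ≤ ip f f * ip g g := by
  rw [← wd_inner hf hg, ← wd_inner hf hf, ← wd_inner hg hg, sq]
  exact real_inner_mul_inner_self_le _ _

theorem tendsto_ip {F G : ℕ → E → ℝ} (hF : ∀ n, MemLp (F n) 2 volume)
    (hG : ∀ n, MemLp (G n) 2 volume) (hf : MemLp f 2 volume) (hg : MemLp g 2 volume)
    (h1 : L2to F f) (h2 : L2to G g) : Tendsto (fun n => ip (F n) (G n)) atTop (𝓝 (ip f g)) := by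
  exact wd_tendsto_ip hF hG hf hg h1 h2

end Crest.Agent.R335
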