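/-
R335/T/Cls: the classes H1, HL, LH, LT: linear structure and integrability
Skeleton by helper48 (row 335); keep the statements unchanged, add any helper lemmas you like.
-/
import Crest.Agent.R335.T.Wd

set_option autoImplicit false
set_option linter.unusedSectionVars false
set_option linter.unusedVariables false
set_option linter.unusedSimpArgs false

noncomputable section

namespace Crest.Agent.R335

open MeasureTheory Set Filter Topology Metric
open scoped ENNReal

variable {E : Type} [NormedAddCommGroup E] [NormedSpace ℝ E] [FiniteDimensional ℝ E]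
  [MeasureSpace E] [BorelSpace E] [(volume : Measure E).IsAddHaarMeasure]
  {ι : Type} [Fintype ι] {b : ι → E}

variable {f f' g φ : E → ℝ}

theorem cls_ae_ball {p : E → Prop} {R : ℝ} (h : ∀ᵐ x : E, ‖x‖ ≤ R → p x) :
    ∀ᵐ x ∂(volume.restrict (closedBall (0 : E) R)), p x :=
  (ae_restrict_iff' measurableSet_closedBall).2 (h.mono fun x hx hm => hx (mem_closedBall_zero_iff.1 hm))

instance cls_fin (R : ℝ) : IsFiniteMeasure (volume.restrict (closedBall (0 : E) R)) :=
  isFiniteMeasure_restrict.2 (isCompact_closedBall (0 : E) R).measure_lt_top.ne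

theorem LocL2.integrableOn (h : LocL2 f) (R : ℝ) : IntegrableOn f (closedBall (0 : E) R) volume :=
  (h R).integrable one_le_two

/-- A function that vanishes outside a ball is the indicator of its restriction. -/
theorem cls_ind {R : ℝ} (hR : ∀ᵐ x : E, R < ‖x‖ → f x = 0) :
    (closedBall (0 : E) R).indicator f =ᵐ[volume] f := by
  filter_upwards [hR] with x hx
  by_cases h : x ∈ closedBall (0 : E) R
  · exact indicator_of_mem h f
  · rw [indicator_of_notMem h, hx (not_le.1 fun h' => h (mem_closedBall_zero_iff.2 h'))]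

theorem LocL2.memLp_of_supp (h : LocL2 f) {R : ℝ} (hR : ∀ᵐ x : E, R < ‖x‖ → f x = 0) :
    MemLp f 2 volume :=
  ((memLp_indicator_iff_restrict measurableSet_closedBall).2 (h R)).ae_eq (cls_ind hR)

theorem integrable_of_supp {R : ℝ} (h : IntegrableOn f (closedBall (0 : E) R) volume)
    (hR : ∀ᵐ x : E, R < ‖x‖ → f x = 0) : Integrable f :=
  ((integrable_indicator_iff measurableSet_closedBall).2 h).congr (cls_ind hR)

theorem LocL2.congr (h : LocL2 f) (he : f =ᵐ[volume] f') : LocL2 f' :=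
  fun R => (h R).ae_eq (ae_restrict_of_ae he)

theorem LocBdd.congr (h : LocBdd f) (he : f =ᵐ[volume] f') : LocBdd f' := fun R => by
  obtain ⟨M, hM⟩ := h R
  exact ⟨M, by filter_upwards [hM, he] with x h1 h2 h3 using h2 ▸ h1 h3⟩

theorem WD.zero (v : E) : WD v (fun _ : E => (0 : ℝ)) fun _ => 0 :=
  ⟨locallyIntegrable_zero, locallyIntegrable_zero, fun φ _ => by simp⟩

theorem WD.zero_outside {v : E} (h : WD v f g) {R : ℝ} (hR : ∀ᵐ x : E, R < ‖x‖ → f x = 0) :
    ∀ᵐ x : E, R < ‖x‖ → g x = 0 :=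
  h.local (WD.zero v) (O := {x | R < ‖x‖}) (isOpen_lt continuous_const continuous_norm) hR

theorem LocL2.locallyIntegrable (h : LocL2 f) : LocallyIntegrable f volume := by
  refine locallyIntegrable_iff.2 fun K hK => ?_
  obtain ⟨R, hR⟩ := hK.isBounded.subset_closedBall (0 : E)
  exact (h.integrableOn R).mono_set hR

theorem LocL2.aesm (h : LocL2 f) : AEStronglyMeasurable f volume := by
  exact h.locallyIntegrable.aestronglyMeasurable

theorem LocL2.of_memLp (h : MemLp f 2 volume) : LocL2 f := by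
  exact fun R => h.restrict _

theorem LocL2.of_locBdd (hm : AEStronglyMeasurable f volume) (h : LocBdd f) : LocL2 f := by
  intro R
  obtain ⟨M, hM⟩ := h R
  exact MemLp.of_bound hm.restrict M (cls_ae_ball hM)

theorem LocL2.of_le (hg : LocL2 g) (hm : AEStronglyMeasurable f volume)
    (h : ∀ R : ℝ, ∃ C : ℝ, ∀ᵐ x : E, ‖x‖ ≤ R → |f x| ≤ C * |g x|) : LocL2 f := by
  intro R
  obtain ⟨C, hC⟩ := h R
  exact (hg R).of_le_mul hm.restrict (cls_ae_ball hC)

theorem LocL2.add (h : LocL2 f) (h' : LocL2 g) : LocL2 fun x => f x + g x := by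
  exact fun R => (h R).add (h' R)

theorem LocL2.mul_locBdd (h : LocL2 f) (hm : AEStronglyMeasurable g volume) (h' : LocBdd g) :
    LocL2 fun x => g x * f x := by
  refine h.of_le (hm.mul h.aesm) fun R => ?_
  obtain ⟨M, hM⟩ := h' R
  refine ⟨M, hM.mono fun x hx hR => ?_⟩
  rw [abs_mul]
  exact mul_le_mul_of_nonneg_right (hx hR) (abs_nonneg _)

theorem LocBdd.of_continuous (h : Continuous f) : LocBdd f := by
  intro R
  obtain ⟨M, hM⟩ := (isCompact_closedBall (0 : E) R).exists_bound_of_continuousOn h.continuousOn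
  exact ⟨M, .of_forall fun x hx => hM x (mem_closedBall_zero_iff.2 hx)⟩

theorem H1.of_wd {G : ι → E → ℝ} (hf : MemLp f 2 volume)
    (h : ∀ i, WD (b i) f (G i) ∧ MemLp (G i) 2 volume) : H1 b f := by
  exact ⟨hf, fun i => ⟨(h i).1.wd, (h i).2.ae_eq (h i).1.wd_ae.symm⟩⟩

theorem HL.of_wd {G : ι → E → ℝ} (hf : LocL2 f) (h : ∀ i, WD (b i) f (G i) ∧ LocL2 (G i)) :
    HL b f := by
  exact ⟨hf, fun i => ⟨(h i).1.wd, (h i).2.congr (h i).1.wd_ae.symm⟩⟩

theorem H1.hl (h : H1 b f) : HL b f := by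
  exact ⟨.of_memLp h.1, fun i => ⟨(h.2 i).1, .of_memLp (h.2 i).2⟩⟩

theorem HL.h1 (h : HL b f) (hf : MemLp f 2 volume) (hd : Integrable (dot b f f)) : H1 b f := by
  refine ⟨hf, fun i => ⟨(h.2 i).1, ?_⟩⟩
  have hm := (measurable_wd (b i) f).aestronglyMeasurable (μ := volume)
  refine (memLp_two_iff_integrable_sq hm).2 (hd.mono' (hm.pow 2) (.of_forall fun x => ?_))
  rw [Real.norm_of_nonneg (sq_nonneg _), sq]
  exact Finset.single_le_sum (f := fun i => wd (b i) f x * wd (b i) f x)
    (fun i _ => mul_self_nonneg _) (Finset.mem_univ i)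

theorem H1.lh (h : H1 b f) {M : ℝ} (hM : ∀ᵐ x : E, |f x| ≤ M) : LH b f := by
  exact ⟨h.hl, fun R => ⟨M, hM.mono fun x hx _ => hx⟩⟩

/-- `HL` and vanishing outside a ball (use `WD.local` for the derivative). -/
theorem HL.h1_of_supp (h : HL b f) {R : ℝ} (hR : ∀ᵐ x : E, R < ‖x‖ → f x = 0) : H1 b f := by
  exact ⟨h.1.memLp_of_supp hR, fun i =>
    ⟨(h.2 i).1, (h.2 i).2.memLp_of_supp ((h.2 i).1.zero_outside hR)⟩⟩

theorem LT.h1 (h : LT b φ) : H1 b φ := by
  obtain ⟨R, hR⟩ := h.2
  exact h.1.1.h1_of_supp hR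

theorem LT.bdd (h : LT b φ) : ∃ M : ℝ, ∀ᵐ x : E, |φ x| ≤ M := by
  obtain ⟨R, hR⟩ := h.2
  obtain ⟨M, hM⟩ := h.1.2 R
  refine ⟨max M 0, ?_⟩
  filter_upwards [hR, hM] with x h1 h2
  rcases le_or_gt ‖x‖ R with h3 | h3
  · exact (h2 h3).trans (le_max_left _ _)
  · rw [h1 h3, abs_zero]
    exact le_max_right _ _

theorem LT.wd_zero (h : LT b φ) : ∃ R : ℝ, ∀ᵐ x : E, R < ‖x‖ → φ x = 0 ∧ ∀ i, wd (b i) φ x = 0 := by
  obtain ⟨R, hR⟩ := h.2
  refine ⟨R, ?_⟩
  filter_upwards [hR, ae_all_iff.2 fun i => (h.1.1.2 i).1.zero_outside hR] with x h1 h2 h3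
  exact ⟨h1 h3, fun i => h2 i h3⟩

theorem LocL2.of_continuous (h : Continuous f) : LocL2 f :=
  .of_locBdd h.aestronglyMeasurable (.of_continuous h)

theorem LH.of_contDiff (h : ContDiff ℝ 1 f) : LH b f := by
  exact ⟨.of_wd (.of_continuous h.continuous) fun i => ⟨.of_contDiff (b i) h,
    .of_continuous ((h.continuous_fderiv one_ne_zero).clm_apply continuous_const)⟩,
    .of_continuous h.continuous⟩

theorem wd_contDiff (h : ContDiff ℝ 1 f) (v : E) : wd v f =ᵐ[volume] fun x => fderiv ℝ f x v := by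
  exact (WD.of_contDiff v h).wd_ae

theorem LT.of_tst (h : Tst φ) : LT b φ := by
  obtain ⟨R, hR⟩ := h.2.isCompact.isBounded.subset_closedBall (0 : E)
  exact ⟨.of_contDiff h.1, R, .of_forall fun x hx => image_eq_zero_of_notMem_tsupport fun h' =>
    not_le.2 hx (mem_closedBall_zero_iff.1 (hR h'))⟩

theorem H1.congr (h : H1 b f) (he : f =ᵐ[volume] f') : H1 b f' := by
  exact .of_wd (h.1.ae_eq he) fun i => ⟨(h.2 i).1.congr he (EventuallyEq.refl _ _), (h.2 i).2⟩

theorem HL.congr (h : HL b f) (he : f =ᵐ[volume] f') : HL b f' := by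
  exact .of_wd (h.1.congr he) fun i => ⟨(h.2 i).1.congr he (EventuallyEq.refl _ _), (h.2 i).2⟩

theorem LH.congr (h : LH b f) (he : f =ᵐ[volume] f') : LH b f' := by
  exact ⟨h.1.congr he, h.2.congr he⟩

theorem LT.congr (h : LT b f) (he : f =ᵐ[volume] f') : LT b f' := by
  obtain ⟨R, hR⟩ := h.2
  exact ⟨h.1.congr he, R, by filter_upwards [hR, he] with x h1 h2 h3 using h2 ▸ h1 h3⟩

theorem dot_congr {g' : E → ℝ} (he : f =ᵐ[volume] f') (he' : g =ᵐ[volume] g') :
    dot b f g =ᵐ[volume] dot b f' g' := by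
  filter_upwards [ae_all_iff.2 fun i => wd_congr (b i) he, ae_all_iff.2 fun i => wd_congr (b i) he']
    with x h1 h2
  simp only [dot, h1, h2]

theorem dir_congr {g' : E → ℝ} (he : f =ᵐ[volume] f') (he' : g =ᵐ[volume] g') :
    dir b f g = dir b f' g' := by
  exact integral_congr_ae (dot_congr he he')

theorem qf_congr {U g' : E → ℝ} (he : f =ᵐ[volume] f') (he' : g =ᵐ[volume] g') :
    qf b U f g = qf b U f' g' := by
  unfold qf
  rw [dir_congr he he']
  congr 1
  refine integral_congr_ae ?_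
  filter_upwards [he, he'] with x h1 h2
  rw [h1, h2]

theorem LocL2.const_mul (h : LocL2 f) (c : ℝ) : LocL2 fun x => c * f x :=
  fun R => (h R).const_mul c

theorem LocL2.neg (h : LocL2 f) : LocL2 fun x => -f x := fun R => (h R).neg

theorem LocL2.sub (h : LocL2 f) (h' : LocL2 g) : LocL2 fun x => f x - g x :=
  fun R => (h R).sub (h' R)

theorem LocL2.sum {κ : Type} (s : Finset κ) {F : κ → E → ℝ} (h : ∀ j ∈ s, LocL2 (F j)) :
    LocL2 fun x => ∑ j ∈ s, F j x :=
  fun R => memLp_finsetSum s fun j hj => h j hj R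

theorem LocBdd.add (h : LocBdd f) (h' : LocBdd g) : LocBdd fun x => f x + g x := fun R => by
  obtain ⟨M, hM⟩ := h R
  obtain ⟨M', hM'⟩ := h' R
  exact ⟨M + M', by
    filter_upwards [hM, hM'] with x h1 h2 h3 using (abs_add_le _ _).trans (add_le_add (h1 h3) (h2 h3))⟩

theorem LocBdd.mul (h : LocBdd f) (h' : LocBdd g) : LocBdd fun x => f x * g x := fun R => by
  obtain ⟨M, hM⟩ := h R
  obtain ⟨M', hM'⟩ := h' R
  refine ⟨M * M', ?_⟩
  filter_upwards [hM, hM'] with x h1 h2 h3
  rw [abs_mul]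
  exact mul_le_mul (h1 h3) (h2 h3) (abs_nonneg _) ((abs_nonneg _).trans (h1 h3))

theorem LocBdd.const (c : ℝ) : LocBdd fun _ : E => c := .of_continuous continuous_const

theorem LocBdd.const_mul (h : LocBdd f) (c : ℝ) : LocBdd fun x => c * f x := (LocBdd.const c).mul h

theorem LocBdd.neg (h : LocBdd f) : LocBdd fun x => -f x := by
  simpa only [neg_mul, one_mul] using h.const_mul (-1)

theorem LocBdd.sub (h : LocBdd f) (h' : LocBdd g) : LocBdd fun x => f x - g x := by
  simpa only [sub_eq_add_neg] using h.add h'.neg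

theorem LocL2.integrableOn_mul (hf : LocL2 f) (hg : LocL2 g) (R : ℝ) :
    IntegrableOn (fun x => f x * g x) (closedBall (0 : E) R) volume :=
  (hf R).integrable_mul (hg R)

theorem HL.add (h : HL b f) (h' : HL b g) : HL b fun x => f x + g x := by
  exact .of_wd (h.1.add h'.1) fun i => ⟨(h.2 i).1.add (h'.2 i).1, (h.2 i).2.add (h'.2 i).2⟩

theorem HL.const_mul (h : HL b f) (c : ℝ) : HL b fun x => c * f x := by
  exact .of_wd (h.1.const_mul c) fun i => ⟨(h.2 i).1.const_mul c, (h.2 i).2.const_mul c⟩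

theorem HL.neg (h : HL b f) : HL b fun x => -f x := by
  exact .of_wd h.1.neg fun i => ⟨(h.2 i).1.neg, (h.2 i).2.neg⟩

theorem HL.sub (h : HL b f) (h' : HL b g) : HL b fun x => f x - g x := by
  exact .of_wd (h.1.sub h'.1) fun i => ⟨(h.2 i).1.sub (h'.2 i).1, (h.2 i).2.sub (h'.2 i).2⟩

theorem HL.sum {κ : Type} (s : Finset κ) {F : κ → E → ℝ} (h : ∀ j ∈ s, HL b (F j)) :
    HL b fun x => ∑ j ∈ s, F j x := by
  exact .of_wd (.sum s fun j hj => (h j hj).1) fun i =>
    ⟨.sum s fun j hj => ((h j hj).2 i).1, .sum s fun j hj => ((h j hj).2 i).2⟩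

theorem HL.wd_add (h : HL b f) (h' : HL b g) (i : ι) :
    wd (b i) (fun x => f x + g x) =ᵐ[volume] fun x => wd (b i) f x + wd (b i) g x := by
  exact ((h.2 i).1.add (h'.2 i).1).wd_ae

theorem HL.wd_const_mul (h : HL b f) (c : ℝ) (i : ι) :
    wd (b i) (fun x => c * f x) =ᵐ[volume] fun x => c * wd (b i) f x := by
  exact ((h.2 i).1.const_mul c).wd_ae

theorem HL.wd_neg (h : HL b f) (i : ι) :
    wd (b i) (fun x => -f x) =ᵐ[volume] fun x => -wd (b i) f x := by
  exact (h.2 i).1.neg.wd_ae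

theorem HL.wd_sub (h : HL b f) (h' : HL b g) (i : ι) :
    wd (b i) (fun x => f x - g x) =ᵐ[volume] fun x => wd (b i) f x - wd (b i) g x := by
  exact ((h.2 i).1.sub (h'.2 i).1).wd_ae

theorem HL.wd_sum {κ : Type} (s : Finset κ) {F : κ → E → ℝ} (h : ∀ j ∈ s, HL b (F j)) (i : ι) :
    wd (b i) (fun x => ∑ j ∈ s, F j x) =ᵐ[volume] fun x => ∑ j ∈ s, wd (b i) (F j) x := by
  exact (WD.sum s fun j hj => ((h j hj).2 i).1).wd_ae

theorem H1.add (h : H1 b f) (h' : H1 b g) : H1 b fun x => f x + g x := by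
  exact .of_wd (h.1.add h'.1) fun i => ⟨(h.2 i).1.add (h'.2 i).1, (h.2 i).2.add (h'.2 i).2⟩

theorem H1.const_mul (h : H1 b f) (c : ℝ) : H1 b fun x => c * f x := by
  exact .of_wd (h.1.const_mul c) fun i => ⟨(h.2 i).1.const_mul c, (h.2 i).2.const_mul c⟩

theorem H1.neg (h : H1 b f) : H1 b fun x => -f x := by
  exact .of_wd h.1.neg fun i => ⟨(h.2 i).1.neg, (h.2 i).2.neg⟩

theorem H1.sub (h : H1 b f) (h' : H1 b g) : H1 b fun x => f x - g x := by
  exact .of_wd (h.1.sub h'.1) fun i => ⟨(h.2 i).1.sub (h'.2 i).1, (h.2 i).2.sub (h'.2 i).2⟩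

theorem H1.sum {κ : Type} (s : Finset κ) {F : κ → E → ℝ} (h : ∀ j ∈ s, H1 b (F j)) :
    H1 b fun x => ∑ j ∈ s, F j x := by
  exact .of_wd (memLp_finsetSum s fun j hj => (h j hj).1) fun i =>
    ⟨.sum s fun j hj => ((h j hj).2 i).1, memLp_finsetSum s fun j hj => ((h j hj).2 i).2⟩

theorem LH.add (h : LH b f) (h' : LH b g) : LH b fun x => f x + g x := by
  exact ⟨h.1.add h'.1, h.2.add h'.2⟩

theorem LH.const_mul (h : LH b f) (c : ℝ) : LH b fun x => c * f x := by
  exact ⟨h.1.const_mul c, h.2.const_mul c⟩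

theorem LH.neg (h : LH b f) : LH b fun x => -f x := by
  exact ⟨h.1.neg, h.2.neg⟩

theorem LH.sub (h : LH b f) (h' : LH b g) : LH b fun x => f x - g x := by
  exact ⟨h.1.sub h'.1, h.2.sub h'.2⟩

theorem LH.const (c : ℝ) : LH b fun _ : E => c := by
  exact .of_contDiff contDiff_const

theorem wd_const (v : E) (c : ℝ) : wd v (fun _ : E => c) =ᵐ[volume] fun _ => 0 := by
  simpa using wd_contDiff (f := fun _ : E => c) contDiff_const v

theorem LT.add (h : LT b f) (h' : LT b g) : LT b fun x => f x + g x := by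
  obtain ⟨R, hR⟩ := h.2
  obtain ⟨R', hR'⟩ := h'.2
  refine ⟨h.1.add h'.1, max R R', ?_⟩
  filter_upwards [hR, hR'] with x h1 h2 h3
  rw [h1 ((le_max_left _ _).trans_lt h3), h2 ((le_max_right _ _).trans_lt h3), add_zero]

theorem LT.const_mul (h : LT b f) (c : ℝ) : LT b fun x => c * f x := by
  obtain ⟨R, hR⟩ := h.2
  exact ⟨h.1.const_mul c, R, hR.mono fun x hx h3 => by simp only [hx h3, mul_zero]⟩

theorem dot_comm (f g : E → ℝ) : dot b f g = dot b g f := by
  funext x
  simp only [dot, mul_comm]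

theorem dot_self_nonneg (f : E → ℝ) (x : E) : 0 ≤ dot b f f x := by
  exact Finset.sum_nonneg fun i _ => mul_self_nonneg _

theorem dir_comm (f g : E → ℝ) : dir b f g = dir b g f := by
  unfold dir
  rw [dot_comm]

theorem dir_self_nonneg (f : E → ℝ) : 0 ≤ dir b f f := by
  exact integral_nonneg (dot_self_nonneg f)

theorem measurable_dot (f g : E → ℝ) : Measurable (dot b f g) := by
  exact Finset.measurable_fun_sum _ fun i _ => (measurable_wd _ _).mul (measurable_wd _ _)

theorem H1.integrable_dot (h : H1 b f) (h' : H1 b g) : Integrable (dot b f g) := by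
  exact integrable_finsetSum _ fun i _ => (h.2 i).2.integrable_mul (h'.2 i).2

theorem H1.dir_eq_sum (h : H1 b f) (h' : H1 b g) :
    dir b f g = ∑ i, ip (wd (b i) f) (wd (b i) g) := by
  exact integral_finsetSum _ fun i _ => (h.2 i).2.integrable_mul (h'.2 i).2

theorem HL.dot_add_left (h : HL b f) (h' : HL b f') (g : E → ℝ) :
    dot b (fun x => f x + f' x) g =ᵐ[volume] fun x => dot b f g x + dot b f' g x := by
  filter_upwards [ae_all_iff.2 fun i => h.wd_add h' i] with x hx
  simp only [dot, hx, add_mul, Finset.sum_add_distrib]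

theorem HL.dot_sub_left (h : HL b f) (h' : HL b f') (g : E → ℝ) :
    dot b (fun x => f x - f' x) g =ᵐ[volume] fun x => dot b f g x - dot b f' g x := by
  filter_upwards [ae_all_iff.2 fun i => h.wd_sub h' i] with x hx
  simp only [dot, hx, sub_mul, Finset.sum_sub_distrib]

theorem HL.dot_const_mul_left (h : HL b f) (c : ℝ) (g : E → ℝ) :
    dot b (fun x => c * f x) g =ᵐ[volume] fun x => c * dot b f g x := by
  filter_upwards [ae_all_iff.2 fun i => h.wd_const_mul c i] with x hx
  simp only [dot, hx, mul_assoc, Finset.mul_sum]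

theorem H1.dir_add_left (h : H1 b f) (h' : H1 b f') (hg : H1 b g) :
    dir b (fun x => f x + f' x) g = dir b f g + dir b f' g := by
  exact (integral_congr_ae (h.hl.dot_add_left h'.hl g)).trans
    (integral_add (h.integrable_dot hg) (h'.integrable_dot hg))

theorem H1.dir_sub_left (h : H1 b f) (h' : H1 b f') (hg : H1 b g) :
    dir b (fun x => f x - f' x) g = dir b f g - dir b f' g := by
  exact (integral_congr_ae (h.hl.dot_sub_left h'.hl g)).trans
    (integral_sub (h.integrable_dot hg) (h'.integrable_dot hg))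

theorem HL.dir_const_mul_left (h : HL b f) (c : ℝ) (g : E → ℝ) :
    dir b (fun x => c * f x) g = c * dir b f g := by
  exact (integral_congr_ae (h.dot_const_mul_left c g)).trans (integral_const_mul _ _)

theorem H1.dir_sq_le (h : H1 b f) (h' : H1 b g) : dir b f g ^ 2 ≤ dir b f f * dir b g g := by
  rw [h.dir_eq_sum h', h.dir_eq_sum h, h'.dir_eq_sum h']
  exact Finset.sum_sq_le_sum_mul_sum_of_sq_le_mul _
    (fun i _ => integral_nonneg fun x => mul_self_nonneg _)
    (fun i _ => integral_nonneg fun x => mul_self_nonneg _) fun i _ => ip_sq_le (h.2 i).2 (h'.2 i).2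

/-- Two `L²_loc` factors and a bounded factor of bounded support. -/
theorem LT.integrable_mul (hφ : LT b φ) (hf : LocL2 f) (hg : LocL2 g) :
    Integrable fun x => f x * g x * φ x := by
  obtain ⟨R, hR⟩ := hφ.2
  refine integrable_of_supp (R := R) ?_ (hR.mono fun x hx h3 => by simp only [hx h3, mul_zero])
  simpa only [mul_assoc, mul_comm (g _)] using
    hf.integrableOn_mul (hg.mul_locBdd hφ.1.1.1.aesm hφ.1.2) R

theorem cls_mul_dot (h : HL b f) {w : E → ℝ} (hw : AEStronglyMeasurable w volume)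
    (hw' : LocBdd w) (hφ : LT b φ) : Integrable fun x => w x * dot b f φ x := by
  obtain ⟨R, hR⟩ := hφ.wd_zero
  refine integrable_of_supp (R := R) ?_
    (hR.mono fun x hx h3 => by simp only [dot, (hx h3).2, mul_zero, Finset.sum_const_zero])
  simp only [dot, Finset.mul_sum, ← mul_assoc]
  exact integrable_finsetSum _ fun i _ =>
    ((h.2 i).2.mul_locBdd hw hw').integrableOn_mul (hφ.1.1.2 i).2 R

theorem HL.integrable_dot (h : HL b f) (hφ : LT b φ) : Integrable (dot b f φ) := by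
  simpa only [one_mul] using cls_mul_dot h aestronglyMeasurable_const (LocBdd.const 1) hφ

/-- `f, g ∈ HL`, `φ ∈ LT`. -/
theorem HL.integrable_dot_mul (h : HL b f) (h' : HL b g) (hφ : LT b φ) :
    Integrable fun x => dot b f g x * φ x := by
  simp only [dot, Finset.sum_mul]
  exact integrable_finsetSum _ fun i _ => hφ.integrable_mul (h.2 i).2 (h'.2 i).2

/-- `f ∈ HL`, `w` locally bounded and measurable, `φ ∈ LT`. -/
theorem HL.integrable_mul_dot (h : HL b f) {w : E → ℝ} (hw : AEStronglyMeasurable w volume)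
    (hw' : LocBdd w) (hφ : LT b φ) : Integrable fun x => w x * dot b f φ x := by
  exact cls_mul_dot h hw hw' hφ

theorem LI.integrable_mul {S : Set E} (hS : MeasurableSet S) {a : E → ℝ} (ha : LI S a)
    (hf : AEStronglyMeasurable f volume) (hf' : LocBdd f) (hφ : LT b φ)
    (h0 : ∀ᵐ x : E, x ∉ S → φ x = 0) : Integrable fun x => a x * f x * φ x := by
  obtain ⟨R, hR⟩ := hφ.2
  obtain ⟨M, hM⟩ := (hf'.mul hφ.1.2) R
  have hm : MeasurableSet (S ∩ closedBall (0 : E) R) := hS.inter measurableSet_closedBall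
  have h1 : IntegrableOn (fun x => a x * (f x * φ x)) (S ∩ closedBall (0 : E) R) volume :=
    Integrable.mul_bdd (c := M) (ha R) (hf.mul hφ.1.1.1.aesm).restrict
      ((ae_restrict_iff' hm).2 (hM.mono fun x hx h2 => hx (mem_closedBall_zero_iff.1 h2.2)))
  refine ((integrable_indicator_iff hm).2 h1).congr ?_
  filter_upwards [hR, h0] with x h2 h3
  by_cases h : x ∈ S ∩ closedBall (0 : E) R
  · rw [indicator_of_mem h, mul_assoc]
  · rw [indicator_of_notMem h]
    have h4 : φ x = 0 := by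
      by_cases h5 : x ∈ S
      · exact h2 (not_le.1 fun h' => h ⟨h5, mem_closedBall_zero_iff.2 h'⟩)
      · exact h3 h5
    rw [h4, mul_zero]

theorem HL.dir_add_left (h : HL b f) (h' : HL b f') (hφ : LT b φ) :
    dir b (fun x => f x + f' x) φ = dir b f φ + dir b f' φ := by
  exact (integral_congr_ae (h.dot_add_left h' φ)).trans
    (integral_add (h.integrable_dot hφ) (h'.integrable_dot hφ))

theorem HL.dir_add_right (h : HL b f) {ψ : E → ℝ} (hφ : LT b φ) (hψ : LT b ψ) :
    dir b f (fun x => φ x + ψ x) = dir b f φ + dir b f ψ := by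
  rw [dir_comm f, dir_comm f, dir_comm f]
  refine (integral_congr_ae (hφ.1.1.dot_add_left hψ.1.1 f)).trans (integral_add ?_ ?_)
  · exact dot_comm (b := b) f φ ▸ h.integrable_dot hφ
  · exact dot_comm (b := b) f ψ ▸ h.integrable_dot hψ

end Crest.Agent.R335
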