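/-
R335/T/Mol: mollifiers on a finite-dimensional space (helper15, row 335)
-/
import Crest.Agent.R335.T.Cls

set_option autoImplicit false
set_option linter.unusedSectionVars false
set_option linter.unusedVariables false
set_option linter.unusedSimpArgs false

noncomputable section

namespace Crest.Agent.R335

open MeasureTheory Set Filter Topology Metric
open scoped ENNReal

variable {E : Type} [NormedAddCommGroup E] [NormedSpace ℝ E] [FiniteDimensional ℝ E]
  [MeasureSpace E] [BorelSpace E] [(volume : Measure E).IsAddHaarMeasure]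

variable {f g : E → ℝ}

/-- A.e. convergence and no loss of norm give `L²` convergence. -/
theorem L2to.of_ae {F : ℕ → E → ℝ} (hF : ∀ n, MemLp (F n) 2 volume) (hf : MemLp f 2 volume)
    (hle : ∀ n, ∫ x, F n x ^ 2 ≤ ∫ x, f x ^ 2)
    (h : ∀ᵐ x : E, Tendsto (fun n => F n x) atTop (𝓝 (f x))) : L2to F f := by
  have i0 : Integrable fun x => 4 * f x ^ 2 := hf.integrable_sq.const_mul 4
  have i1 : ∀ n, Integrable fun x => (F n x + f x) ^ 2 := fun n => ((hF n).add hf).integrable_sq
  have i2 : ∀ n, Integrable fun x => min ((F n x + f x) ^ 2) (4 * f x ^ 2) := fun n => (i1 n).inf i0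
  have h1 : Tendsto (fun n => ∫ x, min ((F n x + f x) ^ 2) (4 * f x ^ 2)) atTop
      (𝓝 (∫ x, 4 * f x ^ 2)) := by
    refine tendsto_integral_of_dominated_convergence _ (fun n => (i2 n).1) i0
      (fun n => .of_forall fun x => ?_) (h.mono fun x hx => ?_)
    · rw [Real.norm_of_nonneg (le_min (sq_nonneg _) (by positivity))]
      exact min_le_right _ _
    · have h2 := ((hx.add_const (f x)).pow 2).min (tendsto_const_nhds (x := 4 * f x ^ 2))
      rwa [show (f x + f x) ^ 2 = 4 * f x ^ 2 by ring, min_self] at h2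
  have h2 := h1.const_sub (∫ x, 4 * f x ^ 2)
  rw [sub_self] at h2
  refine squeeze_zero (fun n => integral_nonneg fun x => sq_nonneg _) (fun n => ?_) h2
  have e : ∀ x, (F n x - f x) ^ 2 = 2 * F n x ^ 2 + 2 * f x ^ 2 - (F n x + f x) ^ 2 := fun x => by ring
  have h3 := integral_mono (i2 n) (i1 n) fun x => min_le_left _ _
  have i3 : Integrable fun x => 2 * F n x ^ 2 + 2 * f x ^ 2 :=
    ((hF n).integrable_sq.const_mul 2).add (hf.integrable_sq.const_mul 2)
  simp only [e]
  rw [integral_sub i3 (i1 n),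
    integral_add ((hF n).integrable_sq.const_mul 2) (hf.integrable_sq.const_mul 2),
    integral_const_mul, integral_const_mul, integral_const_mul]
  linarith [hle n]

theorem L2to.add {F G : ℕ → E → ℝ} (hF : ∀ n, MemLp (F n) 2 volume) (hG : ∀ n, MemLp (G n) 2 volume)
    (hf : MemLp f 2 volume) (hg : MemLp g 2 volume) (h1 : L2to F f) (h2 : L2to G g) :
    L2to (fun n x => F n x + G n x) fun x => f x + g x := by
  have h3 := (h1.const_mul 2).add (h2.const_mul 2)
  rw [mul_zero, add_zero] at h3
  refine squeeze_zero (fun n => integral_nonneg fun x => sq_nonneg _) (fun n => ?_) h3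
  have i1 : Integrable fun x => (F n x - f x) ^ 2 := ((hF n).sub hf).integrable_sq
  have i2 : Integrable fun x => (G n x - g x) ^ 2 := ((hG n).sub hg).integrable_sq
  rw [← integral_const_mul, ← integral_const_mul, ← integral_add (i1.const_mul 2) (i2.const_mul 2)]
  refine integral_mono_of_nonneg (.of_forall fun x => sq_nonneg _)
    ((i1.const_mul 2).add (i2.const_mul 2)) (.of_forall fun x => ?_)
  nlinarith [sq_nonneg (F n x - f x - (G n x - g x))]

theorem L2to.congr {F G : ℕ → E → ℝ} (h : L2to F f) (hF : ∀ n, F n =ᵐ[volume] G n)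
    (hf : f =ᵐ[volume] g) : L2to G g := by
  refine Tendsto.congr (fun n => integral_congr_ae ?_) h
  filter_upwards [hF n, hf] with x h1 h2
  rw [h1, h2]

theorem L2to.subseq {F : ℕ → E → ℝ} (h : L2to F f) {ns : ℕ → ℕ} (hns : StrictMono ns) :
    L2to (fun n => F (ns n)) f :=
  Tendsto.comp (g := fun n => ∫ x, (F n x - f x) ^ 2) h hns.tendsto_atTop

/-- The bump of radius `1 / (n + 1)`. -/
def molB (E : Type) [NormedAddCommGroup E] (n : ℕ) : ContDiffBump (0 : E) :=
  ⟨1 / (2 * (n + 1)), 1 / (n + 1), by positivity,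
    one_div_lt_one_div_of_lt (by positivity) (by linarith [(Nat.cast_nonneg n : (0 : ℝ) ≤ n)])⟩

/-- The mollified function. -/
def mol (n : ℕ) (f : E → ℝ) : E → ℝ :=
  convolution ((molB E n).normed volume) f (ContinuousLinearMap.lsmul ℝ ℝ) volume

theorem mol_contDiff (hf : LocallyIntegrable f volume) (n : ℕ) : ContDiff ℝ 2 (mol n f) :=
  (molB E n).hasCompactSupport_normed.contDiff_convolution_left (n := 2) _ (molB E n).contDiff_normed hf

theorem mol_eq (n : ℕ) (f : E → ℝ) (x : E) :
    mol n f x = ∫ y, f y * (molB E n).normed volume (x - y) := by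
  rw [mol, convolution_lsmul_swap]
  simp only [smul_eq_mul, mul_comm]

theorem mol_tendsto (hf : LocallyIntegrable f volume) :
    ∀ᵐ x : E, Tendsto (fun n => mol n f x) atTop (𝓝 (f x)) :=
  ContDiffBump.ae_convolution_tendsto_right_of_locallyIntegrable (φ := molB E) (K := 2)
    tendsto_one_div_add_atTop_nhds_zero_nat
    (.of_forall fun n => le_of_eq (by simp only [molB]; field_simp)) hf

theorem mol_int (hf : LocallyIntegrable f volume) (n : ℕ) (x : E) :
    Integrable fun y => (molB E n).normed volume y * f (x - y) :=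
  (molB E n).hasCompactSupport_normed.convolutionExists_left (ContinuousLinearMap.lsmul ℝ ℝ)
    (molB E n).continuous_normed hf x

theorem mol_sq_le (hf : MemLp f 2 volume) (n : ℕ) (x : E) :
    mol n f x ^ 2 ≤ mol n (fun y => f y ^ 2) x := by
  have i0 : Integrable ((molB E n).normed volume) volume := (molB E n).integrable_normed
  have i1 := mol_int (hf.locallyIntegrable one_le_two) n x
  have i2 := mol_int hf.integrable_sq.locallyIntegrable n x
  have e1 : mol n f x = ∫ y, (molB E n).normed volume y * f (x - y) := rfl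
  have e2 : mol n (fun y => f y ^ 2) x = ∫ y, (molB E n).normed volume y * f (x - y) ^ 2 := rfl
  have h2 : ∫ y, 2 * mol n f x * ((molB E n).normed volume y * f (x - y)) ≤
      ∫ y, (mol n f x ^ 2 * (molB E n).normed volume y +
        (molB E n).normed volume y * f (x - y) ^ 2) := by
    refine integral_mono (i1.const_mul _) ((i0.const_mul _).add i2) fun y => ?_
    have := mul_nonneg ((molB E n).nonneg_normed (μ := volume) y) (sq_nonneg (mol n f x - f (x - y)))
    nlinarith
  rw [integral_const_mul, integral_add (i0.const_mul _) i2, integral_const_mul,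
    (molB E n).integral_normed, ← e1, ← e2] at h2
  nlinarith

theorem mol_memLp (hf : MemLp f 2 volume) (n : ℕ) :
    MemLp (mol n f) 2 volume ∧ ∫ x, mol n f x ^ 2 ≤ ∫ x, f x ^ 2 := by
  have i0 : Integrable ((molB E n).normed volume) volume := (molB E n).integrable_normed
  have hG : Integrable (mol n fun y => f y ^ 2) :=
    i0.integrable_convolution (ContinuousLinearMap.lsmul ℝ ℝ) hf.integrable_sq
  have hI := integral_convolution (ContinuousLinearMap.lsmul ℝ ℝ) i0 hf.integrable_sq
  rw [(molB E n).integral_normed] at hI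
  simp only [ContinuousLinearMap.lsmul_apply, one_smul] at hI
  have hc := (mol_contDiff (hf.locallyIntegrable one_le_two) n).continuous.aestronglyMeasurable
    (μ := volume)
  have hint : Integrable fun x => mol n f x ^ 2 :=
    hG.mono' (hc.pow 2) (.of_forall fun x => by
      rw [Real.norm_of_nonneg (sq_nonneg _)]
      exact mol_sq_le hf n x)
  exact ⟨(memLp_two_iff_integrable_sq hc).2 hint, (integral_mono hint hG (mol_sq_le hf n)).trans hI.le⟩

theorem mol_abs_le {M : ℝ} (hM : ∀ᵐ x : E, |f x| ≤ M) (n : ℕ) (x : E) : |mol n f x| ≤ M := by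
  have i0 : Integrable ((molB E n).normed volume) volume := (molB E n).integrable_normed
  have h1 : ∫ y, M * (molB E n).normed volume (x - y) = M := by
    rw [integral_const_mul, integral_sub_left_eq_self ((molB E n).normed volume) volume x,
      (molB E n).integral_normed, mul_one]
  rw [mol_eq, ← h1, ← Real.norm_eq_abs]
  refine norm_integral_le_of_norm_le ((i0.comp_sub_left x).const_mul M) (hM.mono fun y hy => ?_)
  rw [norm_mul, Real.norm_of_nonneg ((molB E n).nonneg_normed _)]
  exact mul_le_mul_of_nonneg_right hy ((molB E n).nonneg_normed _)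

theorem mol_nonneg (h : ∀ᵐ x : E, 0 ≤ f x) (n : ℕ) (x : E) : 0 ≤ mol n f x := by
  rw [mol_eq]
  exact integral_nonneg_of_ae (h.mono fun y hy => mul_nonneg hy ((molB E n).nonneg_normed _))

theorem WD.fderiv_mol {v : E} (h : WD v f g) (n : ℕ) (x : E) : fderiv ℝ (mol n f) x v = mol n g x := by
  have h1 : ContDiff ℝ 1 ((molB E n).normed volume) := (molB E n).contDiff_normed
  have hs : HasCompactSupport ((molB E n).normed volume) := (molB E n).hasCompactSupport_normed
  have e : mol n f = convolution f ((molB E n).normed volume) (ContinuousLinearMap.mul ℝ ℝ) volume :=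
    funext (mol_eq n f)
  have hd := hs.hasFDerivAt_convolution_right (ContinuousLinearMap.mul ℝ ℝ) h.1 h1 x
  have ht : Tst fun y => (molB E n).normed volume (x - y) :=
    ⟨h1.comp (contDiff_const.sub contDiff_id), hs.comp_homeomorph (Homeomorph.subLeft x)⟩
  have h2 : ∀ y, fderiv ℝ (fun y => (molB E n).normed volume (x - y)) y v =
      -fderiv ℝ ((molB E n).normed volume) (x - y) v := fun y => by
    have h3 : HasFDerivAt (fun y => (molB E n).normed volume (x - y))
        ((fderiv ℝ ((molB E n).normed volume) (x - y)).comp (-ContinuousLinearMap.id ℝ E)) y :=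
      (h1.differentiable one_ne_zero _).hasFDerivAt.comp y ((hasFDerivAt_id y).const_sub x)
    rw [h3.fderiv]
    simp
  have h4 := h.2.2 _ ht
  simp only [h2, mul_neg, integral_neg, neg_inj] at h4
  rw [e, hd.fderiv, convolution_precompR_apply _ h.1 (hs.fderiv ℝ) (h1.continuous_fderiv one_ne_zero),
    mol_eq, ← h4]
  rfl

theorem mol_L2to (hf : MemLp f 2 volume) : L2to (fun n => mol n f) f :=
  .of_ae (fun n => (mol_memLp hf n).1) hf (fun n => (mol_memLp hf n).2)
    (mol_tendsto (hf.locallyIntegrable one_le_two))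

theorem mol_cut {χ : ℕ → E → ℝ} (h1 : ∀ n, Continuous (χ n)) (h2 : ∀ n x, 0 ≤ χ n x ∧ χ n x ≤ 1)
    (h3 : ∀ (n : ℕ) x, ‖x‖ ≤ n → χ n x = 1) (hf : MemLp f 2 volume) :
    (∀ n, MemLp (fun x => χ n x * mol n f x) 2 volume) ∧ L2to (fun n x => χ n x * mol n f x) f := by
  have h4 : ∀ n x, |χ n x * mol n f x| ≤ |mol n f x| := fun n x => by
    rw [abs_mul, abs_of_nonneg (h2 n x).1]
    exact mul_le_of_le_one_left (abs_nonneg _) (h2 n x).2
  have h5 : ∀ n, MemLp (fun x => χ n x * mol n f x) 2 volume := fun n =>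
    (mol_memLp hf n).1.of_le ((h1 n).aestronglyMeasurable.mul (mol_memLp hf n).1.1)
      (.of_forall (h4 n))
  refine ⟨h5, .of_ae h5 hf (fun n => le_trans (integral_mono (h5 n).integrable_sq
    (mol_memLp hf n).1.integrable_sq fun x => sq_le_sq.2 (h4 n x)) (mol_memLp hf n).2) ?_⟩
  filter_upwards [mol_tendsto (hf.locallyIntegrable one_le_two)] with x hx
  refine hx.congr' ?_
  filter_upwards [tendsto_natCast_atTop_atTop.eventually_ge_atTop ‖x‖] with n hn
  rw [h3 n x hn, one_mul]

/-- `a n * F n → 0` when `|a n| ≤ C / (n + 1)` and `F n` is bounded in `L²`. -/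
theorem L2to.small {a F : ℕ → E → ℝ} {C B : ℝ} (ha : ∀ n, AEStronglyMeasurable (a n) volume)
    (h1 : ∀ (n : ℕ) x, |a n x| ≤ C / (n + 1)) (hF : ∀ n, MemLp (F n) 2 volume)
    (hB : ∀ n, ∫ x, F n x ^ 2 ≤ B) :
    (∀ n, MemLp (fun x => a n x * F n x) 2 volume) ∧ L2to (fun n x => a n x * F n x) fun _ => 0 := by
  have h2 : ∀ n, MemLp (fun x => a n x * F n x) 2 volume := fun n =>
    (hF n).of_le_mul (c := C / (n + 1)) ((ha n).mul (hF n).1) (.of_forall fun x => by
      rw [norm_mul]
      exact mul_le_mul_of_nonneg_right (h1 n x) (norm_nonneg _))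
  refine ⟨h2, ?_⟩
  have h3 := ((tendsto_const_div_atTop_nhds_zero_nat C).comp (tendsto_add_atTop_nat 1)).pow 2
    |>.mul_const B
  rw [zero_pow two_ne_zero, zero_mul] at h3
  refine squeeze_zero (fun n => integral_nonneg fun x => sq_nonneg _) (fun n => ?_) h3
  simp only [sub_zero, Function.comp_apply, Nat.cast_add, Nat.cast_one]
  refine le_trans ?_ (mul_le_mul_of_nonneg_left (hB n) (sq_nonneg _))
  rw [← integral_const_mul]
  refine integral_mono (h2 n).integrable_sq ((hF n).integrable_sq.const_mul _) fun x => ?_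
  simp only [mul_pow]
  exact mul_le_mul_of_nonneg_right (sq_le_sq' (abs_le.1 (h1 n x)).1 (abs_le.1 (h1 n x)).2) (sq_nonneg _)

theorem mol_exists : ∃ Mol : ℕ → (E → ℝ) → E → ℝ,
    (∀ n f, MemLp f 2 volume → ContDiff ℝ 2 (Mol n f) ∧ HasCompactSupport (Mol n f)) ∧
    (∀ f, MemLp f 2 volume → L2to (fun n => Mol n f) f) ∧
    (∀ v f g, MemLp f 2 volume → MemLp g 2 volume → WD v f g →
      L2to (fun n x => fderiv ℝ (Mol n f) x v) g) ∧
    (∀ n f (M : ℝ), MemLp f 2 volume → (∀ᵐ x : E, |f x| ≤ M) → ∀ x, |Mol n f x| ≤ M) ∧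
    (∀ n f, MemLp f 2 volume → (∀ᵐ x : E, 0 ≤ f x) → ∀ x, 0 ≤ Mol n f x) := by
  obtain ⟨χ, C, h1, h2, h3, h4⟩ := exists_cutoff (E := E)
  have hc : ∀ n, Continuous (χ n) := fun n => (h1 n).1.continuous
  refine ⟨fun n f x => χ n x * mol n f x, fun n f hf =>
    ⟨(h1 n).1.mul (mol_contDiff (hf.locallyIntegrable one_le_two) n), (h1 n).2.mul_right⟩,
    fun f hf => (mol_cut hc h2 h3 hf).2, fun v f g hf hg h => ?_, fun n f M hf hM x => ?_,
    fun n f hf h x => mul_nonneg (h2 n x).1 (mol_nonneg h n x)⟩
  · obtain ⟨a1, a2⟩ := mol_cut hc h2 h3 hg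
    obtain ⟨a3, a4⟩ := L2to.small (a := fun n x => fderiv ℝ (χ n) x v) (C := C * ‖v‖)
      (fun n => (((h1 n).1.continuous_fderiv two_ne_zero).clm_apply
        continuous_const).aestronglyMeasurable)
      (fun n x => ((fderiv ℝ (χ n) x).le_opNorm v).trans (by
        rw [mul_div_right_comm]
        exact mul_le_mul_of_nonneg_right (h4 n x) (norm_nonneg _)))
      (fun n => (mol_memLp hf n).1) fun n => (mol_memLp hf n).2
    refine (L2to.add a1 a3 hg MemLp.zero' a2 a4).congr (fun n => .of_forall fun x => ?_)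
      (.of_forall fun x => add_zero _)
    dsimp only
    rw [fderiv_fun_mul ((h1 n).1.differentiable two_ne_zero x)
      ((mol_contDiff h.1 n).differentiable two_ne_zero x)]
    simp only [add_apply, smul_apply, smul_eq_mul, h.fderiv_mol]
    ring
  · rw [abs_mul, abs_of_nonneg (h2 n x).1]
    exact (mul_le_of_le_one_left (abs_nonneg _) (h2 n x).2).trans (mol_abs_le hM n x)

end Crest.Agent.R335
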