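/-
R335/T/Approx: mollification, H = W, integration by parts
Skeleton by helper48 (row 335); keep the statements unchanged, add any helper lemmas you like.
-/
import Crest.Agent.R335.T.Mol

set_option autoImplicit false
set_option linter.unusedSectionVars false
set_option linter.unusedVariables false
set_option linter.unusedSimpArgs false

noncomputable section

namespace Crest.Agent.R335

open MeasureTheory Set Filter Topology Metric
open scoped ENNReal

variable {E : Type} [NormedAddCommGroup E] [NormedSpace ℝ E] [FiniteDimensional ℝ E]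
  [MeasureSpace E] [BorelSpace E] [(volume : Measure E).IsAddHaarMeasure]
  {ι : Type} [Fintype ι] {b : ι → E}

variable {f g φ : E → ℝ}

/-- Recipe: `Mol n f = χ n * (ρ n ⋆ f)` with `exists_cutoff` and a normed bump `ρ n`
(`ContDiffBump.normed`, radius `1/(n+1)`).  `L²` bound of the convolution by Jensen/Cauchy-Schwarz
and Fubini; `L²` convergence by density of continuous functions of compact support
(`MemLp.exists_hasCompactSupport_eLpNorm_sub_le`); `∂(ρ ⋆ f) = (∂ρ) ⋆ f = ρ ⋆ g` from the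
definition of `WD` tested with `y ↦ ρ (x - y)`.  `R80/Mol.lean` does the same on `ℝ³`. -/
theorem exists_mol : ∃ Mol : ℕ → (E → ℝ) → E → ℝ,
    (∀ n f, MemLp f 2 volume → ContDiff ℝ 2 (Mol n f) ∧ HasCompactSupport (Mol n f)) ∧
    (∀ f, MemLp f 2 volume → L2to (fun n => Mol n f) f) ∧
    (∀ v f g, MemLp f 2 volume → MemLp g 2 volume → WD v f g →
      L2to (fun n x => fderiv ℝ (Mol n f) x v) g) ∧
    (∀ n f (M : ℝ), MemLp f 2 volume → (∀ᵐ x : E, |f x| ≤ M) → ∀ x, |Mol n f x| ≤ M) ∧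
    (∀ n f, MemLp f 2 volume → (∀ᵐ x : E, 0 ≤ f x) → ∀ x, 0 ≤ Mol n f x) := by
  exact mol_exists

/-- Approximation of finitely many `H¹` functions by test functions, in `H¹` and a.e. -/
theorem H1.approx_fam {κ : Type} [Fintype κ] {F : κ → E → ℝ} (h : ∀ j, H1 b (F j)) :
    ∃ φ : κ → ℕ → E → ℝ, (∀ j n, Tst (φ j n)) ∧ (∀ j, L2to (φ j) (F j)) ∧
      (∀ j i, L2to (fun n x => fderiv ℝ (φ j n) x (b i)) (wd (b i) (F j))) ∧
      (∀ᵐ x : E, ∀ j, Tendsto (fun n => φ j n x) atTop (𝓝 (F j x))) ∧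
      (∀ j (M : ℝ), (∀ᵐ x : E, |F j x| ≤ M) → ∀ n x, |φ j n x| ≤ M) ∧
      ∀ j, (∀ᵐ x : E, 0 ≤ F j x) → ∀ n x, 0 ≤ φ j n x := by
  obtain ⟨Mol, h1, h2, h3, h4, h5⟩ := exists_mol (E := E)
  have hm : ∀ j n, MemLp (Mol n (F j)) 2 volume := fun j n =>
    (h1 n _ (h j).1).1.continuous.memLp_of_hasCompactSupport (h1 n _ (h j).1).2
  obtain ⟨ns, hns, h6⟩ := exists_subseq_ae (F := fun j n => Mol n (F j)) hm (fun j => (h j).1)
    fun j => h2 _ (h j).1
  exact ⟨fun j n => Mol (ns n) (F j),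
    fun j n => ⟨(h1 _ _ (h j).1).1.of_le one_le_two, (h1 _ _ (h j).1).2⟩,
    fun j => (h2 _ (h j).1).subseq hns,
    fun j i => (h3 _ _ _ (h j).1 ((h j).2 i).2 ((h j).2 i).1).subseq hns, h6,
    fun j M hM n => h4 _ _ M (h j).1 hM, fun j hj n => h5 _ _ (h j).1 hj⟩

theorem H1.approx (h : H1 b f) : ∃ φ : ℕ → E → ℝ, (∀ n, Tst (φ n)) ∧ L2to φ f ∧
    (∀ i, L2to (fun n x => fderiv ℝ (φ n) x (b i)) (wd (b i) f)) ∧
    (∀ᵐ x : E, Tendsto (fun n => φ n x) atTop (𝓝 (f x))) ∧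
    (∀ M : ℝ, (∀ᵐ x : E, |f x| ≤ M) → ∀ n x, |φ n x| ≤ M) ∧
    ((∀ᵐ x : E, 0 ≤ f x) → ∀ n x, 0 ≤ φ n x) := by
  obtain ⟨φ, h1, h2, h3, h4, h5, h6⟩ := H1.approx_fam (κ := Unit) (F := fun _ => f) fun _ => h
  exact ⟨φ (), h1 (), h2 (), h3 (), h4.mono fun x hx => hx (), h5 (), h6 ()⟩

theorem Tst.memLp (h : Tst φ) : MemLp φ 2 volume := h.cont.memLp_of_hasCompactSupport h.2

theorem Tst.memLp_d (h : Tst φ) (v : E) : MemLp (fun x => fderiv ℝ φ x v) 2 volume :=
  (h.dcont v).memLp_of_hasCompactSupport (h.dsupp v)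

theorem Tst.h1 (h : Tst φ) : H1 b φ := by
  exact (LT.of_tst h).h1

theorem Tst.dir_eq (h : Tst φ) {ψ : E → ℝ} (h' : Tst ψ) :
    dir b φ ψ = ∫ x, ∑ i, fderiv ℝ φ x (b i) * fderiv ℝ ψ x (b i) := by
  refine integral_congr_ae ?_
  filter_upwards [ae_all_iff.2 fun i => wd_contDiff h.1 (b i),
    ae_all_iff.2 fun i => wd_contDiff h'.1 (b i)] with x h1 h2
  simp only [dot, h1, h2]

theorem H1.ibp (h : H1 b f) (h' : H1 b g) (i : ι) :
    ∫ x, wd (b i) f x * g x = -∫ x, f x * wd (b i) g x := by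
  obtain ⟨φ, h1, h2, h3, -⟩ := h'.approx
  have a1 := tendsto_ip (fun _ => (h.2 i).2) (fun n => (h1 n).memLp) (h.2 i).2 h'.1
    (wd_L2to_const _) h2
  have a2 := tendsto_ip (fun _ => h.1) (fun n => (h1 n).memLp_d (b i)) h.1 (h'.2 i).2
    (wd_L2to_const _) (h3 i)
  refine tendsto_nhds_unique a1 (a2.neg.congr fun n => ?_)
  exact neg_eq_iff_eq_neg.2 ((h.2 i).1.2.2 _ (h1 n))

/-- Multiplication by a `C¹` function. -/
theorem HL.mul_contDiff (h : HL b f) {χ : E → ℝ} (hχ : ContDiff ℝ 1 χ) :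
    HL b (fun x => χ x * f x) ∧ ∀ i, wd (b i) (fun x => χ x * f x) =ᵐ[volume]
      fun x => χ x * wd (b i) f x + fderiv ℝ χ x (b i) * f x := by
  have hc : ∀ i, Continuous fun x => fderiv ℝ χ x (b i) := fun i =>
    (hχ.continuous_fderiv one_ne_zero).clm_apply continuous_const
  refine ⟨.of_wd (h.1.mul_locBdd hχ.continuous.aestronglyMeasurable (.of_continuous hχ.continuous))
    fun i => ⟨(h.2 i).1.mul_contDiff hχ, ?_⟩, fun i => ((h.2 i).1.mul_contDiff hχ).wd_ae⟩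
  exact ((h.2 i).2.mul_locBdd hχ.continuous.aestronglyMeasurable (.of_continuous hχ.continuous)).add
    (h.1.mul_locBdd (hc i).aestronglyMeasurable (.of_continuous (hc i)))

theorem HL.h1_mul_tst (h : HL b f) {χ : E → ℝ} (hχ : Tst χ) : H1 b fun x => χ x * f x := by
  obtain ⟨R, hR⟩ := (LT.of_tst (b := b) hχ).2
  exact (h.mul_contDiff hχ.1).1.h1_of_supp (R := R)
    (hR.mono fun x hx h1 => by simp only [hx h1, zero_mul])

theorem apx_memLp_mul (hf : MemLp f 2 volume) {a : E → ℝ} (ha : AEStronglyMeasurable a volume)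
    {M : ℝ} (h : ∀ᵐ x : E, |a x| ≤ M) : MemLp (fun x => a x * f x) 2 volume :=
  hf.of_le_mul (c := M) (ha.mul hf.1) (h.mono fun x hx => by
    rw [norm_mul]
    exact mul_le_mul_of_nonneg_right hx (norm_nonneg _))

/-- A `C¹` multiplier that is bounded with its gradient. -/
theorem H1.mul_contDiff (h : H1 b f) {χ : E → ℝ} (hχ : ContDiff ℝ 1 χ) {M : ℝ}
    (h1 : ∀ x, |χ x| ≤ M) (h2 : ∀ x, ‖fderiv ℝ χ x‖ ≤ M) : H1 b fun x => χ x * f x := by
  have hc : ∀ i, Continuous fun x => fderiv ℝ χ x (b i) := fun i =>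
    (hχ.continuous_fderiv one_ne_zero).clm_apply continuous_const
  refine .of_wd (apx_memLp_mul h.1 hχ.continuous.aestronglyMeasurable (.of_forall h1))
    fun i => ⟨(h.2 i).1.mul_contDiff hχ, ?_⟩
  exact (apx_memLp_mul (h.2 i).2 hχ.continuous.aestronglyMeasurable (.of_forall h1)).add
    (apx_memLp_mul h.1 (hc i).aestronglyMeasurable (M := M * ‖b i‖) (.of_forall fun x =>
      ((fderiv ℝ χ x).le_opNorm _).trans (mul_le_mul_of_nonneg_right (h2 x) (norm_nonneg _))))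

/-- A test function that is `1` on a given ball. -/
theorem exists_tst_one (R : ℝ) : ∃ χ : E → ℝ, Tst χ ∧ (∀ x, 0 ≤ χ x ∧ χ x ≤ 1) ∧
    ∀ x, ‖x‖ ≤ R → χ x = 1 := by
  obtain ⟨χ, C, h1, h2, h3, -⟩ := exists_cutoff (E := E)
  exact ⟨χ ⌈R⌉₊, ⟨(h1 _).1.of_le one_le_two, (h1 _).2⟩, h2 _,
    fun x hx => h3 _ x (hx.trans (Nat.le_ceil R))⟩

theorem apx_wd_local (h : HL b f) (h' : HL b g) {R : ℝ} (he : ∀ᵐ x : E, ‖x‖ < R → f x = g x)
    (i : ι) : ∀ᵐ x : E, ‖x‖ < R → wd (b i) f x = wd (b i) g x :=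
  (h.2 i).1.local (h'.2 i).1 (O := {x | ‖x‖ < R}) (isOpen_lt continuous_norm continuous_const) he

/-- Cut `f` off by a test function that is `1` near the support of `g`. -/
theorem HL.ibp (h : HL b f) (h' : HL b g) {R : ℝ} (hR : ∀ᵐ x : E, R < ‖x‖ → g x = 0) (i : ι) :
    ∫ x, wd (b i) f x * g x = -∫ x, f x * wd (b i) g x := by
  obtain ⟨χ, h1, -, h2⟩ := exists_tst_one (E := E) (R + 1)
  have h3 := h.h1_mul_tst h1
  have h4 := h3.ibp (h'.h1_of_supp hR) i
  have h5 : ∀ᵐ x : E, ‖x‖ < R + 1 → χ x * f x = f x :=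
    .of_forall fun x hx => by rw [h2 x hx.le, one_mul]
  have e1 : ∫ x, wd (b i) (fun x => χ x * f x) x * g x = ∫ x, wd (b i) f x * g x := by
    refine integral_congr_ae ?_
    filter_upwards [apx_wd_local h3.hl h h5 i, hR] with x a1 a2
    rcases le_or_gt ‖x‖ R with a3 | a3
    · rw [a1 (by linarith)]
    · rw [a2 a3, mul_zero, mul_zero]
  have e2 : ∫ x, χ x * f x * wd (b i) g x = ∫ x, f x * wd (b i) g x := by
    refine integral_congr_ae ?_
    filter_upwards [h5, (h'.2 i).1.zero_outside hR] with x a1 a2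
    rcases le_or_gt ‖x‖ R with a3 | a3
    · rw [a1 (by linarith)]
    · rw [a2 a3, mul_zero, mul_zero]
  rwa [e1, e2] at h4

/-- A function is in `HL` when all its cut-offs are. -/
theorem HL.of_cutoff (h : ∀ χ : E → ℝ, Tst χ → H1 b fun x => χ x * f x) : HL b f := by
  classical
  obtain ⟨χ, C, h1, -, h3, -⟩ := exists_cutoff (E := E)
  have ht : ∀ n, Tst (χ n) := fun n => ⟨(h1 n).1.of_le one_le_two, (h1 n).2⟩
  have hH : ∀ n, H1 b fun x => χ n x * f x := fun n => h _ (ht n)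
  have he : ∀ (n : ℕ) x, ‖x‖ ≤ n → χ n x * f x = f x := fun n x hx => by rw [h3 n x hx, one_mul]
  have hf : LocL2 f := fun R => ((hH ⌈R⌉₊).1.restrict _).ae_eq
    (cls_ae_ball (.of_forall fun x hx => he _ x (hx.trans (Nat.le_ceil R))))
  -- the derivative, glued from the cut-offs
  have hc : ∀ i, ∀ᵐ x : E, ∀ m n : ℕ, m ≤ n → ‖x‖ < m →
      wd (b i) (fun x => χ m x * f x) x = wd (b i) (fun x => χ n x * f x) x := fun i => by
    refine ae_all_iff.2 fun m => ae_all_iff.2 fun n => ?_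
    by_cases hmn : m ≤ n
    · have := apx_wd_local (hH m).hl (hH n).hl (R := m) (.of_forall fun x hx => by
        rw [he m x hx.le, he n x (hx.le.trans (Nat.cast_le.2 hmn))]) i
      exact this.mono fun x hx _ => hx
    · exact .of_forall fun x h => absurd h hmn
  have hg : ∀ i (n : ℕ), ∀ᵐ x : E, ‖x‖ < n →
      wd (b i) (fun y => χ (⌈‖x‖⌉₊ + 1) y * f y) x = wd (b i) (fun x => χ n x * f x) x := fun i n => by
    filter_upwards [hc i] with x hx hn
    have h4 : ‖x‖ < ((⌈‖x‖⌉₊ + 1 : ℕ) : ℝ) := by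
      push_cast
      linarith [Nat.le_ceil ‖x‖]
    rcases le_total (⌈‖x‖⌉₊ + 1) n with h5 | h5
    · exact hx _ _ h5 h4
    · exact (hx _ _ h5 hn).symm
  have hL : ∀ i, LocL2 fun x => wd (b i) (fun y => χ (⌈‖x‖⌉₊ + 1) y * f y) x := fun i R =>
    (((hH (⌈R⌉₊ + 1)).2 i).2.restrict _).ae_eq (cls_ae_ball ((hg i (⌈R⌉₊ + 1)).mono fun x hx hR =>
      (hx (by push_cast; linarith [Nat.le_ceil R])).symm))
  refine .of_wd hf fun i => ⟨⟨hf.locallyIntegrable, (hL i).locallyIntegrable, fun φ hφ => ?_⟩, hL i⟩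
  obtain ⟨R, hR⟩ := hφ.2.isCompact.isBounded.subset_closedBall (0 : E)
  have hout : ∀ x : E, ¬‖x‖ < ((⌈R⌉₊ + 1 : ℕ) : ℝ) → x ∉ tsupport φ := fun x hx h' => hx (by
    push_cast
    linarith [Nat.le_ceil R, mem_closedBall_zero_iff.1 (hR h')])
  have e := ((hH (⌈R⌉₊ + 1)).2 i).1.2.2 φ hφ
  have e1 : ∫ x, χ (⌈R⌉₊ + 1) x * f x * fderiv ℝ φ x (b i) = ∫ x, f x * fderiv ℝ φ x (b i) := by
    refine integral_congr_ae (.of_forall fun x => ?_)
    by_cases hx : ‖x‖ < ((⌈R⌉₊ + 1 : ℕ) : ℝ)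
    · simp only [he _ x hx.le]
    · simp only [fderiv_of_notMem_tsupport ℝ (hout x hx), zero_apply, mul_zero]
  rw [← e1, e]
  congr 1
  refine integral_congr_ae ((hg i (⌈R⌉₊ + 1)).mono fun x h4 => ?_)
  by_cases hx : ‖x‖ < ((⌈R⌉₊ + 1 : ℕ) : ℝ)
  · simp only [h4 hx]
  · simp only [image_eq_zero_of_notMem_tsupport (hout x hx), mul_zero]

/-- Weak Laplacian of a `C²` function. -/
theorem dir_contDiff {w : E → ℝ} (hw : ContDiff ℝ 2 w) (hφ : LT b φ) :
    dir b w φ = -∫ x, (∑ i, fderiv ℝ (fun y => fderiv ℝ w y (b i)) x (b i)) * φ x := by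
  obtain ⟨R, hR⟩ := hφ.2
  have h1 : ∀ i, ContDiff ℝ 1 fun y => fderiv ℝ w y (b i) := fun i =>
    (hw.fderiv_right (m := 1) le_rfl).clm_apply contDiff_const
  have h2 : ∀ i, LH b fun y => fderiv ℝ w y (b i) := fun i => .of_contDiff (h1 i)
  have h3 : ∀ i, Continuous fun x => fderiv ℝ (fun y => fderiv ℝ w y (b i)) x (b i) := fun i =>
    ((h1 i).continuous_fderiv one_ne_zero).clm_apply continuous_const
  have i1 : ∀ i, Integrable fun x => fderiv ℝ (fun y => fderiv ℝ w y (b i)) x (b i) * φ x := fun i =>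
    integrable_of_supp ((LocL2.of_continuous (h3 i)).integrableOn_mul hφ.1.1.1 R)
      (hR.mono fun x hx h => by simp only [hx h, mul_zero])
  have i2 : ∀ i, Integrable fun x => fderiv ℝ w x (b i) * wd (b i) φ x := fun i =>
    integrable_of_supp ((h2 i).1.1.integrableOn_mul (hφ.1.1.2 i).2 R)
      (((hφ.1.1.2 i).1.zero_outside hR).mono fun x hx h => by simp only [hx h, mul_zero])
  have e1 : dir b w φ = ∫ x, ∑ i, fderiv ℝ w x (b i) * wd (b i) φ x := by
    refine integral_congr_ae ?_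
    filter_upwards [ae_all_iff.2 fun i => wd_contDiff (hw.of_le one_le_two) (b i)] with x hx
    simp only [dot, hx]
  simp only [e1, Finset.sum_mul]
  rw [integral_finsetSum _ fun i _ => i1 i, integral_finsetSum _ fun i _ => i2 i, ← Finset.sum_neg_distrib]
  refine Finset.sum_congr rfl fun i _ => ?_
  rw [eq_neg_iff_add_eq_zero, add_comm, ← eq_neg_iff_add_eq_zero, ← (h2 i).1.ibp hφ.1.1 hR i]
  refine integral_congr_ae ?_
  filter_upwards [wd_contDiff (h1 i) (b i)] with x hx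
  rw [hx]

/-- A linear identity that holds for test functions holds for `H¹` functions. -/
theorem H1.eq_of_tst {G : ι → E → ℝ} {p : E → ℝ} (hG : ∀ i, MemLp (G i) 2 volume)
    (hp : MemLp p 2 volume)
    (h : ∀ φ : E → ℝ, Tst φ → ∑ i, ip (G i) (wd (b i) φ) = ip p φ) (hf : H1 b f) :
    ∑ i, ip (G i) (wd (b i) f) = ip p f := by
  obtain ⟨φ, h1, h2, h3, -⟩ := hf.approx
  have a1 := tendsto_finsetSum Finset.univ fun i _ => tendsto_ip (fun _ => hG i)
    (fun n => (h1 n).memLp_d (b i)) (hG i) (hf.2 i).2 (wd_L2to_const _) (h3 i)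
  have a2 := tendsto_ip (fun _ => hp) (fun n => (h1 n).memLp) hp hf.1 (wd_L2to_const _) h2
  refine tendsto_nhds_unique a1 (a2.congr fun n => ?_)
  rw [← h _ (h1 n)]
  refine Finset.sum_congr rfl fun i _ => integral_congr_ae ?_
  filter_upwards [wd_contDiff (h1 n).1 (b i)] with x hx
  rw [hx]

end Crest.Agent.R335
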