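/-
R335/T/Chain: chain rule and the algebra LH
Skeleton by helper48 (row 335); keep the statements unchanged, add any helper lemmas you like.
-/
import Crest.Agent.R335.T.Approx

set_option autoImplicit false
set_option linter.unusedSectionVars false
set_option linter.unusedVariables false
set_option linter.unusedSimpArgs false

noncomputable section

namespace Crest.Agent.R335

open MeasureTheory Set Filter Topology Metric
open scoped ENNReal

variable {E : Type} [NormedAddCommGroup E] [NormedSpace ℝ E] [FiniteDimensional ℝ E]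
  [MeasureSpace E] [BorelSpace E] [(volume : Measure E).IsAddHaarMeasure]
  {ι : Type} [Fintype ι] {b : ι → E}

variable {f g φ : E → ℝ}

/-- Weak derivatives are local. -/
theorem WD.of_local {v : E} (h : ∀ R : ℝ, ∃ f' g' : E → ℝ, WD v f' g' ∧
    ∀ᵐ x : E, ‖x‖ ≤ R → f x = f' x ∧ g x = g' x) : WD v f g := by
  have hl : ∀ K : Set E, IsCompact K → IntegrableOn f K volume ∧ IntegrableOn g K volume := by
    intro K hK
    obtain ⟨R, hR⟩ := hK.isBounded.subset_closedBall (0 : E)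
    obtain ⟨f', g', h1, h2⟩ := h R
    exact ⟨IntegrableOn.mono_set ((h1.1.integrableOn_isCompact (isCompact_closedBall 0 R)).congr
        ((cls_ae_ball h2).mono fun x hx => hx.1.symm)) hR,
      IntegrableOn.mono_set ((h1.2.1.integrableOn_isCompact (isCompact_closedBall 0 R)).congr
        ((cls_ae_ball h2).mono fun x hx => hx.2.symm)) hR⟩
  refine ⟨locallyIntegrable_iff.2 fun K hK => (hl K hK).1,
    locallyIntegrable_iff.2 fun K hK => (hl K hK).2, fun φ hφ => ?_⟩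
  obtain ⟨R, hR⟩ := hφ.2.isCompact.isBounded.subset_closedBall (0 : E)
  obtain ⟨f', g', h1, h2⟩ := h R
  have hout : ∀ x : E, ¬‖x‖ ≤ R → x ∉ tsupport φ := fun x hx h' =>
    hx (mem_closedBall_zero_iff.1 (hR h'))
  have e1 : ∫ x, f x * fderiv ℝ φ x v = ∫ x, f' x * fderiv ℝ φ x v := by
    refine integral_congr_ae (h2.mono fun x h3 => ?_)
    by_cases hx : ‖x‖ ≤ R
    · simp only [(h3 hx).1]
    · simp only [fderiv_of_notMem_tsupport ℝ (hout x hx), zero_apply, mul_zero]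
  rw [e1, h1.2.2 φ hφ]
  congr 1
  refine integral_congr_ae (h2.mono fun x h3 => ?_)
  by_cases hx : ‖x‖ ≤ R
  · simp only [(h3 hx).2]
  · simp only [image_eq_zero_of_notMem_tsupport (hout x hx), mul_zero]

theorem LocL2.of_local (h : ∀ R : ℝ, ∃ f' : E → ℝ, LocL2 f' ∧ ∀ᵐ x : E, ‖x‖ ≤ R → f x = f' x) :
    LocL2 f := fun R => by
  obtain ⟨f', h1, h2⟩ := h R
  exact (h1 R).ae_eq ((cls_ae_ball h2).mono fun x hx => hx.symm)

/-- On a ball an `HL` function agrees with an `H1` function, with the derivatives. -/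
theorem HL.exists_h1 (h : HL b f) (R : ℝ) : ∃ f' : E → ℝ, H1 b f' ∧
    ∀ᵐ x : E, ‖x‖ ≤ R → f x = f' x ∧ ∀ i, wd (b i) f x = wd (b i) f' x := by
  obtain ⟨χ, h1, -, h2⟩ := exists_tst_one (E := E) (R + 1)
  have h3 := h.h1_mul_tst h1
  have h5 : ∀ᵐ x : E, ‖x‖ < R + 1 → f x = χ x * f x :=
    .of_forall fun x hx => by rw [h2 x hx.le, one_mul]
  refine ⟨_, h3, ?_⟩
  filter_upwards [h5, ae_all_iff.2 fun i => apx_wd_local h h3.hl h5 i] with x a1 a2 a3
  exact ⟨a1 (by linarith), fun i => a2 i (by linarith)⟩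

theorem L2to.sum {κ : Type} (s : Finset κ) {F : κ → ℕ → E → ℝ} {p : κ → E → ℝ}
    (hF : ∀ j n, MemLp (F j n) 2 volume) (hp : ∀ j, MemLp (p j) 2 volume)
    (h : ∀ j, L2to (F j) (p j)) : L2to (fun n x => ∑ j ∈ s, F j n x) fun x => ∑ j ∈ s, p j x := by
  classical
  induction s using Finset.induction_on with
  | empty => simp [L2to]
  | insert a s ha ih =>
    simp only [Finset.sum_insert ha]
    exact L2to.add (hF a) (fun n => memLp_finsetSum s fun j _ => hF j n) (hp a)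
      (memLp_finsetSum s fun j _ => hp j) (h a) ih

/-- Bounded multipliers that converge a.e. -/
theorem L2to.mul_bdd {a F : ℕ → E → ℝ} {a' : E → ℝ} {C : ℝ}
    (ha : ∀ n, AEStronglyMeasurable (a n) volume) (h1 : ∀ n, ∀ᵐ x : E, |a n x| ≤ C)
    (h2 : ∀ᵐ x : E, Tendsto (fun n => a n x) atTop (𝓝 (a' x))) (hF : ∀ n, MemLp (F n) 2 volume)
    (hf : MemLp f 2 volume) (h : L2to F f) : L2to (fun n x => a n x * F n x) fun x => a' x * f x := by
  have ha' := aestronglyMeasurable_of_tendsto_ae atTop ha h2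
  have h3 : ∀ n, ∀ᵐ x : E, |a n x - a' x| ≤ 2 * C := fun n => by
    filter_upwards [ae_all_iff.2 h1, h2] with x a1 a2
    linarith [abs_sub (a n x) (a' x), a1 n, le_of_tendsto' a2.abs a1]
  have i1 : ∀ n, Integrable fun x => ((a n x - a' x) * f x) ^ 2 := fun n =>
    (apx_memLp_mul hf ((ha n).sub ha') (h3 n)).integrable_sq
  have h4 : Tendsto (fun n => ∫ x, ((a n x - a' x) * f x) ^ 2) atTop (𝓝 (∫ x : E, 0)) := by
    refine tendsto_integral_of_dominated_convergence (fun x => (2 * C) ^ 2 * f x ^ 2)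
      (fun n => (i1 n).1) (hf.integrable_sq.const_mul _) (fun n => (h3 n).mono fun x hx => ?_)
      (h2.mono fun x hx => ?_)
    · rw [Real.norm_of_nonneg (sq_nonneg _), mul_pow]
      exact mul_le_mul_of_nonneg_right (sq_le_sq' (abs_le.1 hx).1 (abs_le.1 hx).2) (sq_nonneg _)
    · simpa using ((hx.sub_const (a' x)).mul_const (f x)).pow 2
  have h5 := (h.const_mul (2 * C ^ 2)).add (h4.const_mul 2)
  simp only [integral_zero, mul_zero, add_zero] at h5
  refine squeeze_zero (fun n => integral_nonneg fun x => sq_nonneg _) (fun n => ?_) h5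
  have i2 : Integrable fun x => (F n x - f x) ^ 2 := ((hF n).sub hf).integrable_sq
  rw [← integral_const_mul, ← integral_const_mul,
    ← integral_add (i2.const_mul _) ((i1 n).const_mul _)]
  refine integral_mono_of_nonneg (.of_forall fun x => sq_nonneg _)
    ((i2.const_mul _).add ((i1 n).const_mul _)) ((h1 n).mono fun x hx => ?_)
  have h6 : (a n x * (F n x - f x)) ^ 2 ≤ C ^ 2 * (F n x - f x) ^ 2 := by
    rw [mul_pow]
    exact mul_le_mul_of_nonneg_right (sq_le_sq' (abs_le.1 hx).1 (abs_le.1 hx).2) (sq_nonneg _)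
  nlinarith [sq_nonneg (a n x * (F n x - f x) - (a n x - a' x) * f x)]

theorem chain_lip {κ : Type} [Fintype κ] {Φ : (κ → ℝ) → ℝ} (hΦ : ContDiff ℝ 1 Φ) {C : ℝ}
    (hC : ∀ t, ‖fderiv ℝ Φ t‖ ≤ C) (s t : κ → ℝ) : |Φ s - Φ t| ≤ C * ∑ j, |s j - t j| := by
  have h1 := convex_univ.norm_image_sub_le_of_norm_fderiv_le (𝕜 := ℝ)
    (fun x _ => hΦ.differentiable one_ne_zero x) (fun x _ => hC x) (mem_univ t) (mem_univ s)
  refine h1.trans (mul_le_mul_of_nonneg_left ?_ ((norm_nonneg _).trans (hC 0)))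
  exact (pi_norm_le_iff_of_nonneg (Finset.sum_nonneg fun j _ => abs_nonneg _)).2 fun j =>
    Finset.single_le_sum (f := fun j => |s j - t j|) (fun j _ => abs_nonneg _) (Finset.mem_univ j)

theorem chain_sum {κ : Type} [Fintype κ] [DecidableEq κ] (L : (κ → ℝ) →L[ℝ] ℝ) (w : κ → ℝ) :
    L w = ∑ j, L (Pi.single j 1) * w j := by
  conv_lhs => rw [← Finset.univ_sum_single w, map_sum]
  refine Finset.sum_congr rfl fun j _ => ?_
  rw [mul_comm, ← smul_eq_mul, ← map_smul, ← Pi.single_smul, smul_eq_mul, mul_one]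

theorem chain_aesm {κ : Type} [Fintype κ] {F : κ → E → ℝ}
    (h : ∀ j, AEStronglyMeasurable (F j) volume) {Φ : (κ → ℝ) → ℝ} (hΦ : Continuous Φ) :
    AEStronglyMeasurable (fun x => Φ fun j => F j x) volume :=
  hΦ.comp_aestronglyMeasurable
    (aemeasurable_pi_lambda _ fun j => (h j).aemeasurable).aestronglyMeasurable

theorem chain_h1 {κ : Type} [Fintype κ] [DecidableEq κ] {F : κ → E → ℝ} (h : ∀ j, H1 b (F j))
    {Φ : (κ → ℝ) → ℝ} (hΦ : ContDiff ℝ 1 Φ) {C : ℝ} (hC : ∀ t, ‖fderiv ℝ Φ t‖ ≤ C) (i : ι) :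
    WD (b i) (fun x => Φ fun j => F j x)
      fun x => ∑ j, fderiv ℝ Φ (fun j => F j x) (Pi.single j 1) * wd (b i) (F j) x := by
  obtain ⟨φ, h1, h2, h3, h4, -⟩ := H1.approx_fam h
  have hD : ∀ j : κ, Continuous fun t => fderiv ℝ Φ t (Pi.single j 1) := fun j =>
    (hΦ.continuous_fderiv one_ne_zero).clm_apply continuous_const
  have hB : ∀ (j : κ) t, |fderiv ℝ Φ t (Pi.single j 1)| ≤ C := fun j t =>
    ((fderiv ℝ Φ t).le_opNorm _).trans (by rw [Pi.norm_single, norm_one, mul_one]; exact hC t)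
  have hm : ∀ {G : κ → E → ℝ}, (∀ j, MemLp (G j) 2 volume) →
      MemLp (fun x => (Φ fun j => G j x) - Φ 0) 2 volume := fun {G} hG =>
    (memLp_finsetSum Finset.univ fun j _ => (hG j).abs).of_le_mul (c := C)
      ((chain_aesm (fun j => (hG j).1) hΦ.continuous).sub aestronglyMeasurable_const)
      (.of_forall fun x => (chain_lip hΦ hC _ _).trans (by
        simp only [Pi.zero_apply, sub_zero, Pi.abs_apply]
        exact mul_le_mul_of_nonneg_left (le_abs_self _) ((norm_nonneg _).trans (hC 0))))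
  have hd : ∀ {G G' : κ → E → ℝ}, (∀ j, MemLp (G j) 2 volume) → (∀ j, MemLp (G' j) 2 volume) → ∀ j,
      MemLp (fun x => fderiv ℝ Φ (fun j => G j x) (Pi.single j 1) * G' j x) 2 volume :=
    fun {G G'} hG hG' j => apx_memLp_mul (hG' j) (chain_aesm (fun j => (hG j).1) (hD j))
      (.of_forall fun x => hB j _)
  have hw : WD (b i) (fun x => (Φ fun j => F j x) - Φ 0)
      fun x => ∑ j, fderiv ℝ Φ (fun j => F j x) (Pi.single j 1) * wd (b i) (F j) x := by
    refine WD.of_L2to (F := fun n x => (Φ fun j => φ j n x) - Φ 0)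
      (G := fun n x => ∑ j, fderiv ℝ Φ (fun j => φ j n x) (Pi.single j 1) * fderiv ℝ (φ j n) x (b i))
      (fun n => ?_) (fun n => hm fun j => (h1 j n).memLp)
      (fun n => memLp_finsetSum _ fun j _ =>
        hd (fun j => (h1 j n).memLp) (fun j => (h1 j n).memLp_d (b i)) j)
      (hm fun j => (h j).1)
      (memLp_finsetSum _ fun j _ => hd (fun j => (h j).1) (fun j => ((h j).2 i).2) j) ?_ ?_
    · have hc : ContDiff ℝ 1 fun x j => φ j n x := contDiff_pi.2 fun j => (h1 j n).1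
      refine (WD.of_contDiff (b i) ((hΦ.comp hc).sub contDiff_const)).congr (EventuallyEq.refl _ _)
        (.of_forall fun x => ?_)
      have h5 : HasFDerivAt (fun x => (Φ fun j => φ j n x) - Φ 0) ((fderiv ℝ Φ fun j => φ j n x).comp
          (ContinuousLinearMap.pi fun j => fderiv ℝ (φ j n) x)) x :=
        ((hΦ.differentiable one_ne_zero _).hasFDerivAt.comp x
          (hasFDerivAt_pi.2 fun j => ((h1 j n).1.differentiable one_ne_zero x).hasFDerivAt)).sub_const _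
      exact (congrArg (· (b i)) h5.fderiv).trans (chain_sum _ _)
    · have h5 := (tendsto_finsetSum Finset.univ fun j _ => h2 j).const_mul (C ^ 2 * Fintype.card κ)
      simp only [Finset.sum_const_zero, mul_zero] at h5
      refine squeeze_zero (fun n => integral_nonneg fun x => sq_nonneg _) (fun n => ?_) h5
      have i1 : ∀ j, Integrable fun x => (φ j n x - F j x) ^ 2 := fun j =>
        ((h1 j n).memLp.sub (h j).1).integrable_sq
      rw [← integral_finsetSum _ fun j _ => i1 j, ← integral_const_mul]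
      refine integral_mono_of_nonneg (.of_forall fun x => sq_nonneg _)
        ((integrable_finsetSum _ fun j _ => i1 j).const_mul _) (.of_forall fun x => ?_)
      have h6 := chain_lip hΦ hC (fun j => φ j n x) fun j => F j x
      have h7 := sq_sum_le_card_mul_sum_sq (s := Finset.univ) (f := fun j => |φ j n x - F j x|)
      simp only [sq_abs, Finset.card_univ] at h7
      simp only [sub_sub_sub_cancel_right]
      refine (sq_le_sq' (abs_le.1 h6).1 (abs_le.1 h6).2).trans ?_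
      rw [mul_pow, mul_assoc]
      exact mul_le_mul_of_nonneg_left h7 (sq_nonneg _)
    · refine L2to.sum _ (fun j n => hd (fun j => (h1 j n).memLp) (fun j => (h1 j n).memLp_d (b i)) j)
        (fun j => hd (fun j => (h j).1) (fun j => ((h j).2 i).2) j) fun j => ?_
      exact L2to.mul_bdd (fun n => chain_aesm (fun j => (h1 j n).memLp.1) (hD j))
        (fun n => .of_forall fun x => hB j _)
        (h4.mono fun x hx => ((hD j).tendsto _).comp (tendsto_pi_nhds.2 hx))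
        (fun n => (h1 j n).memLp_d (b i)) ((h j).2 i).2 (h3 j i)
  refine (hw.add (WD.of_contDiff (b i) (contDiff_const (c := Φ 0)))).congr
    (.of_forall fun x => sub_add_cancel _ _) (.of_forall fun x => by simp)

/-- Recipe: first for `H1` functions and `Φ 0 = 0` (`H1.approx_fam`, `WD.of_L2to` or
`WD.of_tendsto`; `|DΦ(φ n) ∂φ n - DΦ(F) G| ≤ C |∂φ n - G| + |DΦ(φ n) - DΦ(F)| |G|`, dominated
convergence); then localise: a test function `ψ` is supported where a cut-off `χ` is `1`, replace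
`F j` by `χ * F j`. -/
theorem HL.chain {κ : Type} [Fintype κ] [DecidableEq κ] {F : κ → E → ℝ} (h : ∀ j, HL b (F j))
    {Φ : (κ → ℝ) → ℝ} (hΦ : ContDiff ℝ 1 Φ) {C : ℝ} (hC : ∀ t, ‖fderiv ℝ Φ t‖ ≤ C) :
    HL b (fun x => Φ fun j => F j x) ∧ ∀ i, wd (b i) (fun x => Φ fun j => F j x) =ᵐ[volume]
      fun x => fderiv ℝ Φ (fun j => F j x) fun j => wd (b i) (F j) x := by
  have hD : ∀ j : κ, Continuous fun t => fderiv ℝ Φ t (Pi.single j 1) := fun j =>
    (hΦ.continuous_fderiv one_ne_zero).clm_apply continuous_const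
  have hB : ∀ (j : κ) t, |fderiv ℝ Φ t (Pi.single j 1)| ≤ C := fun j t =>
    ((fderiv ℝ Φ t).le_opNorm _).trans (by rw [Pi.norm_single, norm_one, mul_one]; exact hC t)
  have hw : ∀ i, WD (b i) (fun x => Φ fun j => F j x)
      fun x => ∑ j, fderiv ℝ Φ (fun j => F j x) (Pi.single j 1) * wd (b i) (F j) x := fun i => by
    refine WD.of_local fun R => ?_
    choose F' h1 h2 using fun j => (h j).exists_h1 R
    refine ⟨_, _, chain_h1 h1 hΦ hC i, (ae_all_iff.2 h2).mono fun x hx hR => ?_⟩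
    simp only [fun j => (hx j hR).1, fun j => (hx j hR).2 i, and_self]
  have h1 : LocL2 fun x => (Φ fun j => F j x) - Φ 0 :=
    (LocL2.sum Finset.univ (F := fun j x => |F j x|) fun j _ R => ((h j).1 R).abs).of_le
      ((chain_aesm (fun j => (h j).1.aesm) hΦ.continuous).sub aestronglyMeasurable_const)
      fun R => ⟨C, .of_forall fun x _ => (chain_lip hΦ hC _ _).trans (by
        simp only [Pi.zero_apply, sub_zero]
        exact mul_le_mul_of_nonneg_left (le_abs_self _) ((norm_nonneg _).trans (hC 0)))⟩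
  refine ⟨.of_wd ((h1.add (.of_continuous (continuous_const (y := Φ 0)))).congr
    (.of_forall fun x => sub_add_cancel _ _)) fun i => ⟨hw i, .sum _ fun j _ =>
      ((h j).2 i).2.mul_locBdd (chain_aesm (fun j => (h j).1.aesm) (hD j))
        fun R => ⟨C, .of_forall fun x _ => hB j _⟩⟩,
    fun i => (hw i).wd_ae.trans (.of_forall fun x => (chain_sum _ _).symm)⟩

theorem HL.chain1 (h : HL b f) {Φ : ℝ → ℝ} (hΦ : ContDiff ℝ 1 Φ) {C : ℝ}
    (hC : ∀ t, |deriv Φ t| ≤ C) : HL b (fun x => Φ (f x)) ∧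
      ∀ i, wd (b i) (fun x => Φ (f x)) =ᵐ[volume] fun x => deriv Φ (f x) * wd (b i) f x := by
  have h1 : ∀ t : Unit → ℝ, HasFDerivAt (fun t : Unit → ℝ => Φ (t ()))
      (deriv Φ (t ()) • ContinuousLinearMap.proj (R := ℝ) (φ := fun _ : Unit => ℝ) ()) t := fun t =>
    (hΦ.differentiable one_ne_zero _).hasDerivAt.comp_hasFDerivAt t (hasFDerivAt_apply () t)
  have h2 := HL.chain (F := fun _ : Unit => f) (fun _ => h) (Φ := fun t => Φ (t ()))
    (hΦ.comp (contDiff_apply ℝ ℝ ())) (C := C) fun t => by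
      rw [(h1 t).fderiv]
      refine ContinuousLinearMap.opNorm_le_bound _ ((abs_nonneg _).trans (hC 0)) fun w => ?_
      simp only [smul_apply, ContinuousLinearMap.proj_apply, smul_eq_mul, norm_mul]
      exact mul_le_mul (hC _) (norm_le_pi_norm w ()) (norm_nonneg _) ((abs_nonneg _).trans (hC 0))
  refine ⟨h2.1, fun i => (h2.2 i).trans (.of_forall fun x => ?_)⟩
  simp only [(h1 _).fderiv, smul_apply, ContinuousLinearMap.proj_apply, smul_eq_mul]

/-- Two variables, partial derivatives `Φ1`, `Φ2`. -/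
theorem HL.chain2 (h : HL b f) (h' : HL b g) {Φ Φ1 Φ2 : ℝ → ℝ → ℝ}
    (hΦ : ContDiff ℝ 1 fun p : ℝ × ℝ => Φ p.1 p.2)
    (h1 : ∀ s t, HasDerivAt (fun s => Φ s t) (Φ1 s t) s)
    (h2 : ∀ s t, HasDerivAt (fun t => Φ s t) (Φ2 s t) t) {C : ℝ}
    (hC : ∀ s t, |Φ1 s t| ≤ C ∧ |Φ2 s t| ≤ C) : HL b (fun x => Φ (f x) (g x)) ∧
      ∀ i, wd (b i) (fun x => Φ (f x) (g x)) =ᵐ[volume]
        fun x => Φ1 (f x) (g x) * wd (b i) f x + Φ2 (f x) (g x) * wd (b i) g x := by
  have hc : ContDiff ℝ 1 fun t : Fin 2 → ℝ => Φ (t 0) (t 1) :=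
    hΦ.comp ((contDiff_apply ℝ ℝ 0).prodMk (contDiff_apply ℝ ℝ 1))
  have hl : ∀ (t : Fin 2 → ℝ) (j : Fin 2), HasDerivAt
      (fun s => Φ (Function.update t j s 0) (Function.update t j s 1))
      (fderiv ℝ (fun t : Fin 2 → ℝ => Φ (t 0) (t 1)) t (Pi.single j 1)) (t j) := fun t j => by
    have h3 := (hc.differentiable one_ne_zero (Function.update t j (t j))).hasFDerivAt.comp_hasDerivAt
      (t j) (hasDerivAt_update t j (t j))
    rwa [Function.update_eq_self] at h3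
  have h3 : ∀ t w : Fin 2 → ℝ, fderiv ℝ (fun t : Fin 2 → ℝ => Φ (t 0) (t 1)) t w =
      Φ1 (t 0) (t 1) * w 0 + Φ2 (t 0) (t 1) * w 1 := fun t w => by
    have a0 := hl t 0
    have a1 := hl t 1
    simp only [Function.update_self, ne_eq, one_ne_zero, zero_ne_one, not_false_eq_true,
      Function.update_of_ne] at a0 a1
    rw [chain_sum, Fin.sum_univ_two, a0.unique (h1 _ _), a1.unique (h2 _ _)]
  have hC0 : 0 ≤ C := (abs_nonneg _).trans (hC 0 0).1
  have h4 := HL.chain (b := b) (F := ![f, g]) (Fin.forall_fin_two.2 ⟨h, h'⟩) hc (C := 2 * C) fun t => by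
    refine ContinuousLinearMap.opNorm_le_bound _ (by positivity) fun w => ?_
    rw [h3]
    refine (norm_add_le _ _).trans ?_
    rw [norm_mul, norm_mul, Real.norm_eq_abs (Φ1 _ _), Real.norm_eq_abs (Φ2 _ _)]
    linarith [mul_le_mul (hC (t 0) (t 1)).1 (norm_le_pi_norm w 0) (norm_nonneg _) hC0,
      mul_le_mul (hC (t 0) (t 1)).2 (norm_le_pi_norm w 1) (norm_nonneg _) hC0]
  exact ⟨h4.1, fun i => (h4.2 i).trans (.of_forall fun x => h3 _ _)⟩

theorem H1.chain1 (h : H1 b f) {Φ : ℝ → ℝ} (hΦ : ContDiff ℝ 1 Φ) {C : ℝ}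
    (hC : ∀ t, |deriv Φ t| ≤ C) (h0 : Φ 0 = 0) : H1 b fun x => Φ (f x) := by
  obtain ⟨h1, h2⟩ := h.hl.chain1 hΦ hC
  refine ⟨h.1.of_le_mul (c := C) h1.1.aesm (.of_forall fun x => ?_), fun i => ⟨(h1.2 i).1,
    (apx_memLp_mul (h.2 i).2 ((hΦ.continuous_deriv le_rfl).comp_aestronglyMeasurable h.1.1)
      (.of_forall fun x => hC _)).ae_eq (h2 i).symm⟩⟩
  simpa only [h0, sub_zero] using convex_univ.norm_image_sub_le_of_norm_deriv_le
    (fun x _ => hΦ.differentiable one_ne_zero x) (fun x _ => hC x) (mem_univ 0) (mem_univ (f x))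

theorem chain_h1_mul (h : H1 b f) (h' : H1 b g) (i : ι) : WD (b i) (fun x => f x * g x)
    fun x => wd (b i) f x * g x + f x * wd (b i) g x := by
  obtain ⟨φ, h1, h2, h3, -⟩ := h.approx
  have hm : ∀ {p ψ : E → ℝ}, MemLp p 2 volume → Continuous ψ → HasCompactSupport ψ →
      MemLp (fun x => p x * ψ x) 2 volume := fun {p ψ} hp hψ hs => by
    obtain ⟨C, hC⟩ := hψ.bounded_above_of_compact_support hs
    simpa only [mul_comm] using apx_memLp_mul hp hψ.aestronglyMeasurable (.of_forall hC)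
  refine wd_of_lim (fun n => (h'.2 i).1.mul_contDiff (h1 n).1)
    (h.1.integrable_mul h'.1).locallyIntegrable
    (((h.2 i).2.integrable_mul h'.1).add (h.1.integrable_mul (h'.2 i).2)).locallyIntegrable
    (fun ψ hψ hs => ?_) fun ψ hψ hs => ?_
  · have a1 := hm h'.1 hψ hs
    simpa only [ip, mul_assoc] using
      tendsto_ip (fun n => (h1 n).memLp) (fun _ => a1) h.1 a1 h2 (wd_L2to_const _)
  · have a1 := hm h'.1 hψ hs
    have a2 := hm (h'.2 i).2 hψ hs
    have a3 := (tendsto_ip (fun n => (h1 n).memLp_d (b i)) (fun _ => a1) (h.2 i).2 a1 (h3 i)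
      (wd_L2to_const _)).add
      (tendsto_ip (fun n => (h1 n).memLp) (fun _ => a2) h.1 a2 h2 (wd_L2to_const _))
    have e : ∀ {p q : E → ℝ}, MemLp p 2 volume → MemLp q 2 volume →
        (ip p fun x => g x * ψ x) + ip q (fun x => wd (b i) g x * ψ x) =
          ∫ x, (p x * g x + q x * wd (b i) g x) * ψ x := fun {p q} hp hq => by
      simp only [add_mul, mul_assoc]
      exact (integral_add (hp.integrable_mul a1) (hq.integrable_mul a2)).symm
    rw [e (h.2 i).2 h.1] at a3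
    refine a3.congr fun n => ?_
    rw [e ((h1 n).memLp_d (b i)) (h1 n).memLp]
    simp only [add_comm]

/-- The product rule in `W^{1,1}_loc`. -/
theorem HL.wd_mul' (h : HL b f) (h' : HL b g) (i : ι) : WD (b i) (fun x => f x * g x)
    fun x => wd (b i) f x * g x + f x * wd (b i) g x := by
  refine WD.of_local fun R => ?_
  obtain ⟨f', a1, a2⟩ := h.exists_h1 R
  obtain ⟨g', a3, a4⟩ := h'.exists_h1 R
  refine ⟨_, _, chain_h1_mul a1 a3 i, ?_⟩
  filter_upwards [a2, a4] with x a5 a6 hR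
  simp only [(a5 hR).1, (a6 hR).1, (a5 hR).2 i, (a6 hR).2 i, and_self]

/-- On a ball both factors are bounded: cut off `(s, t) ↦ s t`, or approximate directly. -/
theorem LH.mul (h : LH b f) (h' : LH b g) : LH b fun x => f x * g x := by
  refine ⟨.of_wd (h'.1.1.mul_locBdd h.1.1.aesm h.2) fun i => ⟨h.1.wd_mul' h'.1 i, ?_⟩, h.2.mul h'.2⟩
  refine LocL2.add ?_ ((h'.1.2 i).2.mul_locBdd h.1.1.aesm h.2)
  simpa only [mul_comm] using (h.1.2 i).2.mul_locBdd h'.1.1.aesm h'.2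

theorem LH.wd_mul (h : LH b f) (h' : LH b g) (i : ι) : wd (b i) (fun x => f x * g x) =ᵐ[volume]
    fun x => wd (b i) f x * g x + f x * wd (b i) g x := by
  exact (h.1.wd_mul' h'.1 i).wd_ae

theorem LH.mul_LT (h : LH b f) (hφ : LT b φ) : LT b fun x => f x * φ x := by
  obtain ⟨R, hR⟩ := hφ.2
  exact ⟨h.mul hφ.1, R, hR.mono fun x hx h1 => by simp only [hx h1, mul_zero]⟩

theorem memLp_wd_of_dot (hd : Integrable (dot b g g)) (i : ι) : MemLp (wd (b i) g) 2 volume := by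
  have hm := (measurable_wd (b i) g).aestronglyMeasurable (μ := volume)
  refine (memLp_two_iff_integrable_sq hm).2 (hd.mono' (hm.pow 2) (.of_forall fun x => ?_))
  rw [Real.norm_of_nonneg (sq_nonneg _), sq]
  exact Finset.single_le_sum (f := fun i => wd (b i) g x * wd (b i) g x)
    (fun i _ => mul_self_nonneg _) (Finset.mem_univ i)

/-- Product of two bounded `H¹` functions, or of a bounded `H¹` function with a bounded `LH`
function of square integrable gradient. -/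
theorem H1.mul_bdd (h : H1 b f) {M : ℝ} (hM : ∀ᵐ x : E, |f x| ≤ M) (h' : HL b g)
    (hM' : ∀ᵐ x : E, |g x| ≤ M) (hd : Integrable (dot b g g)) : H1 b fun x => f x * g x := by
  refine .of_wd ?_ fun i => ⟨h.hl.wd_mul' h' i,
    MemLp.add ?_ (apx_memLp_mul (memLp_wd_of_dot hd i) h.1.1 hM)⟩
  · simpa only [mul_comm] using apx_memLp_mul h.1 h'.1.aesm hM'
  · simpa only [mul_comm] using apx_memLp_mul (h.2 i).2 h'.1.aesm hM'

theorem chain_exists_tst {Φ : ℝ → ℝ} {U : Set ℝ} (hU : IsOpen U) (hΦ : ContDiffOn ℝ 1 Φ U)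
    {m r r' : ℝ} (hr : 0 < r) (hr' : r < r') (hs : closedBall m r' ⊆ U) :
    ∃ Ψ : ℝ → ℝ, Tst Ψ ∧ ∀ t ∈ ball m r, Φ =ᶠ[𝓝 t] Ψ := by
  let χ : ContDiffBump m := ⟨r, r', hr, hr'⟩
  refine ⟨fun t => χ t * Φ t, ⟨contDiff_iff_contDiffAt.2 fun t => ?_,
    χ.hasCompactSupport.mul_right⟩, fun t ht => ?_⟩
  · by_cases ht : t ∈ tsupport χ
    · exact χ.contDiff.contDiffAt.mul (hΦ.contDiffAt (hU.mem_nhds (hs (χ.tsupport_eq ▸ ht :))))
    · refine (contDiffAt_const (c := (0 : ℝ))).congr_of_eventuallyEq ?_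
      filter_upwards [notMem_tsupport_iff_eventuallyEq.1 ht] with s h
      rw [h, Pi.zero_apply, zero_mul]
  · filter_upwards [χ.eventuallyEq_one_of_mem_ball ht] with s h
    rw [h, Pi.one_apply, one_mul]

theorem chain_loc (h : HL b f) {Φ : ℝ → ℝ}
    (H : ∀ R : ℝ, ∃ Ψ : ℝ → ℝ, Tst Ψ ∧ ∀ᵐ x : E, ‖x‖ ≤ R → Φ =ᶠ[𝓝 (f x)] Ψ) :
    LH b (fun x => Φ (f x)) ∧
      ∀ i, wd (b i) (fun x => Φ (f x)) =ᵐ[volume] fun x => deriv Φ (f x) * wd (b i) f x := by
  have key : ∀ R : ℝ, ∃ (f' : E → ℝ) (M : ℝ), HL b f' ∧ ∀ᵐ x : E, ‖x‖ ≤ R → |Φ (f x)| ≤ M ∧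
      Φ (f x) = f' x ∧ ∀ i, deriv Φ (f x) * wd (b i) f x = wd (b i) f' x := fun R => by
    obtain ⟨Ψ, h1, h2⟩ := H R
    obtain ⟨M, hM⟩ := h1.cont.bounded_above_of_compact_support h1.2
    obtain ⟨C, hC⟩ := (h1.1.continuous_deriv le_rfl).bounded_above_of_compact_support h1.2.deriv
    obtain ⟨h3, h4⟩ := h.chain1 h1.1 hC
    refine ⟨_, M, h3, ?_⟩
    filter_upwards [h2, ae_all_iff.2 h4] with x a1 a2 hR
    rw [(a1 hR).eq_of_nhds, (a1 hR).deriv_eq]
    exact ⟨hM _, rfl, fun i => (a2 i).symm⟩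
  have hw : ∀ i, WD (b i) (fun x => Φ (f x)) fun x => deriv Φ (f x) * wd (b i) f x := fun i =>
    WD.of_local fun R => by
      obtain ⟨f', M, h1, h2⟩ := key R
      exact ⟨_, _, (h1.2 i).1, h2.mono fun x hx hR => ⟨(hx hR).2.1, (hx hR).2.2 i⟩⟩
  refine ⟨⟨.of_wd (.of_local fun R => ?_) fun i => ⟨hw i, .of_local fun R => ?_⟩, fun R => ?_⟩,
    fun i => (hw i).wd_ae⟩ <;> obtain ⟨f', M, h1, h2⟩ := key R
  · exact ⟨_, h1.1, h2.mono fun x hx hR => (hx hR).2.1⟩
  · exact ⟨_, (h1.2 i).2, h2.mono fun x hx hR => (hx hR).2.2 i⟩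
  · exact ⟨M, h2.mono fun x hx hR => (hx hR).1⟩

theorem LH.comp (h : LH b f) {Φ : ℝ → ℝ} (hΦ : ContDiff ℝ 1 Φ) : LH b (fun x => Φ (f x)) ∧
    ∀ i, wd (b i) (fun x => Φ (f x)) =ᵐ[volume] fun x => deriv Φ (f x) * wd (b i) f x := by
  refine chain_loc h.1 fun R => ?_
  obtain ⟨M, hM⟩ := h.2 R
  obtain ⟨Ψ, h1, h2⟩ := chain_exists_tst isOpen_univ hΦ.contDiffOn (m := 0) (r := |M| + 1)
    (r' := |M| + 2) (by positivity) (by linarith) (subset_univ _)
  refine ⟨Ψ, h1, hM.mono fun x hx hR => h2 _ ?_⟩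
  rw [mem_ball_zero_iff, Real.norm_eq_abs]
  linarith [hx hR, le_abs_self M]

/-- On a ball `f` takes values in `[c, M]`; modify `Φ` outside. -/
theorem LH.comp_pos (h : LH b f) (hp : LocPos f) {Φ : ℝ → ℝ} (hΦ : ContDiffOn ℝ 1 Φ (Ioi 0)) :
    LH b (fun x => Φ (f x)) ∧
      ∀ i, wd (b i) (fun x => Φ (f x)) =ᵐ[volume] fun x => deriv Φ (f x) * wd (b i) f x := by
  refine chain_loc h.1 fun R => ?_
  obtain ⟨M, hM⟩ := h.2 R
  obtain ⟨c, hc, hc'⟩ := hp R
  obtain ⟨Ψ, h1, h2⟩ := chain_exists_tst isOpen_Ioi hΦ (m := |M| + c) (r := |M| + c / 4)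
    (r' := |M| + c / 2) (by positivity) (by linarith) fun t ht => by
      rw [mem_closedBall, Real.dist_eq, abs_le] at ht
      exact mem_Ioi.2 (by linarith [ht.1])
  refine ⟨Ψ, h1, ?_⟩
  filter_upwards [hM, hc'] with x a1 a2 hR
  refine h2 _ ?_
  rw [mem_ball, Real.dist_eq, abs_lt]
  constructor <;> linarith [a2 hR, (abs_le.1 (a1 hR)).2, le_abs_self M, abs_nonneg M]

theorem LocPos.ae_pos (hp : LocPos f) : ∀ᵐ x : E, 0 < f x := by
  choose c hc hc' using fun n : ℕ => hp n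
  filter_upwards [ae_all_iff.2 hc'] with x hx using (hc _).trans_le (hx _ (Nat.le_ceil ‖x‖))

theorem LocPos.mono (hp : LocPos f) (h : ∀ᵐ x : E, f x ≤ g x) : LocPos g := by
  intro R
  obtain ⟨c, hc, hc'⟩ := hp R
  exact ⟨c, hc, by filter_upwards [hc', h] with x a1 a2 hR using (a1 hR).trans a2⟩

theorem LH.div (h : LH b f) (h' : LH b g) (hp : LocPos g) : LH b (fun x => f x / g x) ∧
    ∀ i, wd (b i) (fun x => f x / g x) =ᵐ[volume]
      fun x => (wd (b i) f x * g x - f x * wd (b i) g x) / g x ^ 2 := by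
  obtain ⟨h1, h2⟩ := h'.comp_pos hp (Φ := fun t => t⁻¹)
    ((contDiffOn_inv ℝ).mono fun t ht => ne_of_gt ht)
  simp only [div_eq_mul_inv (f _)]
  refine ⟨h.mul h1, fun i => ?_⟩
  filter_upwards [h.wd_mul h1 i, h2 i, hp.ae_pos] with x a1 a2 a3
  rw [a1, a2, deriv_inv]
  field_simp
  ring

theorem LH.log (h : LH b f) (hp : LocPos f) : LH b (fun x => Real.log (f x)) ∧
    ∀ i, wd (b i) (fun x => Real.log (f x)) =ᵐ[volume] fun x => wd (b i) f x / f x := by
  obtain ⟨h1, h2⟩ := h.comp_pos hp (Φ := Real.log) (Real.contDiffOn_log.mono fun t ht => ne_of_gt ht)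
  refine ⟨h1, fun i => (h2 i).trans (.of_forall fun x => ?_)⟩
  simp only [Real.deriv_log, div_eq_inv_mul]

theorem LH.exp (h : LH b f) : LH b (fun x => Real.exp (f x)) ∧
    ∀ i, wd (b i) (fun x => Real.exp (f x)) =ᵐ[volume]
      fun x => Real.exp (f x) * wd (b i) f x := by
  simpa only [Real.deriv_exp] using h.comp (Φ := Real.exp) Real.contDiff_exp

theorem LH.sq (h : LH b f) : LH b (fun x => f x ^ 2) ∧
    ∀ i, wd (b i) (fun x => f x ^ 2) =ᵐ[volume] fun x => 2 * f x * wd (b i) f x := by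
  simp only [pow_two]
  exact ⟨h.mul h, fun i => (h.wd_mul h i).trans (.of_forall fun x => by ring)⟩

theorem HL.wd_sq (h : HL b f) (i : ι) :
    WD (b i) (fun x => f x ^ 2) fun x => 2 * f x * wd (b i) f x :=
  (h.wd_mul' h i).congr (.of_forall fun x => (pow_two _).symm) (.of_forall fun x => by ring)

/-- `f² ∈ W^{1,1}` for `f ∈ H¹`. -/
theorem H1.wd_sq (h : H1 b f) (i : ι) :
    WD (b i) (fun x => f x ^ 2) fun x => 2 * f x * wd (b i) f x := by
  exact h.hl.wd_sq i

/-- If `f² + g² = r²` then `f ∇f + g ∇g = r ∇r`. -/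
theorem HL.wd_pyth {r : E → ℝ} (hf : HL b f) (hg : HL b g) (hr : HL b r)
    (h : ∀ᵐ x : E, f x ^ 2 + g x ^ 2 = r x ^ 2) (i : ι) :
    ∀ᵐ x : E, f x * wd (b i) f x + g x * wd (b i) g x = r x * wd (b i) r x := by
  filter_upwards [(((hf.wd_sq i).add (hg.wd_sq i)).congr h (EventuallyEq.refl _ _)).unique
    (hr.wd_sq i)] with x hx
  linarith

/-- Ground-state / IMS / Agmon identity: `|∇(χ f)|² = ∇f·∇(χ² f) + f² |∇χ|²`, `χ ∈ C¹`. -/
theorem H1.dir_mul {χ : E → ℝ} (h : H1 b f) (hχ : ContDiff ℝ 1 χ) {M : ℝ}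
    (h1 : ∀ x, |χ x| ≤ M) (h2 : ∀ x, ‖fderiv ℝ χ x‖ ≤ M) :
    dir b (fun x => χ x * f x) (fun x => χ x * f x) = dir b f (fun x => χ x ^ 2 * f x) +
      ∫ x, (∑ i, fderiv ℝ χ x (b i) ^ 2) * f x ^ 2 := by
  have a1 := h.mul_contDiff hχ h1 h2
  have a2 := a1.mul_contDiff hχ h1 h2
  have e : (fun x => χ x ^ 2 * f x) = fun x => χ x * (χ x * f x) := funext fun x => by ring
  have a3 : ∀ᵐ x : E, dot b (fun x => χ x * f x) (fun x => χ x * f x) x =
      dot b f (fun x => χ x * (χ x * f x)) x + (∑ i, fderiv ℝ χ x (b i) ^ 2) * f x ^ 2 := by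
    filter_upwards [ae_all_iff.2 (h.hl.mul_contDiff hχ).2, ae_all_iff.2 (a1.hl.mul_contDiff hχ).2]
      with x a4 a5
    simp only [dot, a4, a5, Finset.sum_mul, ← Finset.sum_add_distrib]
    exact Finset.sum_congr rfl fun i _ => by ring
  rw [e]
  exact (integral_congr_ae a3).trans (integral_add (h.integrable_dot a2)
    (((a1.integrable_dot a1).sub (h.integrable_dot a2)).congr
      (a3.mono fun x hx => by simp only [Pi.sub_apply, hx, add_sub_cancel_left])))

/-- The same pointwise in the algebra `LH`. -/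
theorem LH.dot_mul (h : LH b f) (hφ : LH b φ) : ∀ᵐ x : E,
    dot b (fun x => f x * φ x) (fun x => f x * φ x) x =
      dot b f (fun x => f x * φ x ^ 2) x + f x ^ 2 * dot b φ φ x := by
  filter_upwards [ae_all_iff.2 (h.wd_mul hφ), ae_all_iff.2 (h.wd_mul hφ.sq.1), ae_all_iff.2 hφ.sq.2]
    with x a1 a2 a3
  simp only [dot, a1, a2, a3, Finset.mul_sum, ← Finset.sum_add_distrib]
  exact Finset.sum_congr rfl fun i _ => by ring

end Crest.Agent.R335
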