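/-
R335/T/Cov: changes of variables
Skeleton by helper48 (row 335); keep the statements unchanged, add any helper lemmas you like.
-/
import Crest.Agent.R335.T.Cls

set_option autoImplicit false
set_option linter.unusedSectionVars false
set_option linter.unusedVariables false
set_option linter.unusedSimpArgs false

noncomputable section

namespace Crest.Agent.R335

open MeasureTheory Set Filter Topology Metric
open scoped ENNReal

variable {E : Type} [NormedAddCommGroup E] [NormedSpace ℝ E] [FiniteDimensional ℝ E]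
  [MeasureSpace E] [BorelSpace E] [(volume : Measure E).IsAddHaarMeasure]
  {ι : Type} [Fintype ι] {b : ι → E}
  {E' : Type} [NormedAddCommGroup E'] [NormedSpace ℝ E'] [FiniteDimensional ℝ E']
  [MeasureSpace E'] [BorelSpace E'] [(volume : Measure E').IsAddHaarMeasure]
  {ι' : Type} [Fintype ι'] {b' : ι' → E'}

variable {f g : E → ℝ}

/-- general affine change of variables -/
theorem cov_wd (T : E' ≃ₜ E) (L : E' ≃L[ℝ] E) (a : E) (hT : ∀ x, T x = L x + a) {k : ℝ≥0∞} (hk : k ≠ ⊤)
    (hm : Measure.map T volume = k • volume) {v : E'} (h : WD (L v) f g) :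
    WD v (fun x => f (T x)) fun x => g (T x) := by
  have hl : ∀ {u : E → ℝ}, LocallyIntegrable u volume → LocallyIntegrable (fun x => u (T x)) volume := fun {u} hu => by
    refine (locallyIntegrable_map_homeomorph T (f := u)).1 fun x => ?_
    obtain ⟨s, hs, h1⟩ := hu x
    refine ⟨s, hs, ?_⟩
    rw [hm, IntegrableOn, Measure.restrict_smul]
    exact h1.smul_measure hk
  have hi : ∀ u : E → ℝ, ∫ x, u (T x) = k.toReal * ∫ y, u y := fun u => by
    rw [← T.measurableEmbedding.integral_map, hm, integral_smul_measure, smul_eq_mul]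
  refine ⟨hl h.1, hl h.2.1, fun φ hφ => ?_⟩
  have e : (T.symm : E → E') = fun y => L.symm (y - a) := funext fun y => by
    rw [T.symm_apply_eq, hT, L.apply_symm_apply, sub_add_cancel]
  have hψ : Tst fun y => φ (T.symm y) := ⟨hφ.1.comp (by rw [e]; fun_prop), hφ.2.comp_homeomorph T.symm⟩
  have hd : ∀ x, fderiv ℝ (fun y => φ (T.symm y)) (T x) (L v) = fderiv ℝ φ x v := fun x => by
    have h1 : HasFDerivAt (T.symm : E → E') (L.symm : E →L[ℝ] E') (T x) := by
      rw [e]
      exact (L.symm.hasFDerivAt.comp _ ((hasFDerivAt_id _).sub_const a)).congr_fderiv (by simp)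
    have h2 := (hφ.1.differentiable one_ne_zero _).hasFDerivAt.comp (T x) h1
    erw [h2.fderiv]
    simp
  have h3 := congrArg (k.toReal * ·) (h.2.2 _ hψ)
  simpa only [mul_neg, ← hi, hd, T.symm_apply_apply] using h3

theorem WD.comp_equiv (T : E' ≃L[ℝ] E) (hT : MeasurePreserving T volume volume) {v : E'}
    (h : WD (T v) f g) : WD v (fun x => f (T x)) fun x => g (T x) := by
  exact cov_wd T.toHomeomorph T 0 (fun x => (add_zero _).symm) ENNReal.one_ne_top
    (hT.map_eq.trans (one_smul _ _).symm) h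

theorem WD.smul_dir {v : E} (h : WD v f g) (c : ℝ) : WD (c • v) f fun x => c * g x := by
  refine ⟨h.1, h.2.1.smul c, fun φ hφ => ?_⟩
  simp only [map_smul, smul_eq_mul, mul_left_comm _ c, mul_assoc]
  rw [integral_const_mul, integral_const_mul, h.2.2 φ hφ, mul_neg]

/-- A measure preserving linear map that permutes the directions up to signs. -/
structure Sym (b' : ι' → E') (b : ι → E) (T : E' → E) : Prop where
  ex : ∃ (L : E' ≃L[ℝ] E) (σ : ι' ≃ ι) (s : ι' → ℝ), (∀ x, L x = T x) ∧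
    MeasurePreserving L volume volume ∧ (∀ i, s i = 1 ∨ s i = -1) ∧ ∀ i, L (b' i) = s i • b (σ i)

variable {T : E' → E}

theorem Sym.mp (hT : Sym b' b T) : MeasurePreserving T volume volume := by
  obtain ⟨L, σ, s, h1, h2, -⟩ := hT.ex
  exact funext h1 ▸ h2

theorem Sym.integral (hT : Sym b' b T) (f : E → ℝ) : ∫ x, f (T x) = ∫ x, f x := by
  obtain ⟨L, σ, s, h1, h2, -⟩ := hT.ex
  simp only [← h1]
  exact h2.integral_comp L.toHomeomorph.measurableEmbedding f

theorem Sym.integrable (hT : Sym b' b T) : Integrable (fun x => f (T x)) ↔ Integrable f := by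
  obtain ⟨L, σ, s, h1, h2, -⟩ := hT.ex
  simp only [← h1]
  exact h2.integrable_comp_emb L.toHomeomorph.measurableEmbedding

theorem Sym.ae (hT : Sym b' b T) {p : E → Prop} (h : ∀ᵐ x : E, p x) : ∀ᵐ x : E', p (T x) := by
  exact hT.mp.quasiMeasurePreserving.ae h

theorem cov_bd (hT : Sym b' b T) (R : ℝ) : (∃ R', ∀ x, ‖x‖ ≤ R → ‖T x‖ ≤ R') ∧ ∃ R', ∀ x, ‖T x‖ ≤ R → ‖x‖ ≤ R' := by
  obtain ⟨L, σ, s, h1, -⟩ := hT.ex
  simp only [← h1]
  exact ⟨⟨_, fun x hx => (L : E' →L[ℝ] E).le_opNorm_of_le hx⟩,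
    _, fun x hx => (L.symm_apply_apply x ▸ (L.symm : E →L[ℝ] E').le_opNorm_of_le hx : ‖x‖ ≤ _)⟩

theorem cov_locL2 (hT : Sym b' b T) (h : LocL2 f) : LocL2 fun x => f (T x) := fun R => by
  obtain ⟨R', hR⟩ := (cov_bd hT R).1
  have h1 := (h R').comp_measurePreserving (hT.mp.restrict_preimage measurableSet_closedBall)
  exact h1.mono_measure (Measure.restrict_mono (fun x hx => mem_preimage.2
    (mem_closedBall_zero_iff.2 (hR x (mem_closedBall_zero_iff.1 hx)))) le_rfl)

theorem cov_sym_wd (hT : Sym b' b T) : ∃ (σ : ι' ≃ ι) (s : ι' → ℝ), (∀ i, s i * s i = 1) ∧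
    ∀ i (f g : E → ℝ), WD (b (σ i)) f g → WD (b' i) (fun x => f (T x)) fun x => s i * g (T x) := by
  obtain ⟨L, σ, s, h1, h2, h3, h4⟩ := hT.ex
  refine ⟨σ, s, fun i => by rcases h3 i with h | h <;> simp [h], fun i f g h => ?_⟩
  simp only [← h1]
  exact WD.comp_equiv L h2 (g := fun x => s i * g x) (h4 i ▸ h.smul_dir (s i))

theorem Sym.h1 (hT : Sym b' b T) (h : H1 b f) : H1 b' fun x => f (T x) := by
  obtain ⟨σ, s, -, h1⟩ := cov_sym_wd hT
  exact .of_wd (h.1.comp_measurePreserving hT.mp) fun i =>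
    ⟨h1 i _ _ (h.2 _).1, ((h.2 _).2.comp_measurePreserving hT.mp).const_mul _⟩

theorem Sym.hl (hT : Sym b' b T) (h : HL b f) : HL b' fun x => f (T x) := by
  obtain ⟨σ, s, -, h1⟩ := cov_sym_wd hT
  exact .of_wd (cov_locL2 hT h.1) fun i => ⟨h1 i _ _ (h.2 _).1, (cov_locL2 hT (h.2 _).2).const_mul _⟩

theorem Sym.lh (hT : Sym b' b T) (h : LH b f) : LH b' fun x => f (T x) := by
  refine ⟨hT.hl h.1, fun R => ?_⟩
  obtain ⟨R', hR⟩ := (cov_bd hT R).1
  obtain ⟨M, hM⟩ := h.2 R'
  exact ⟨M, (hT.ae hM).mono fun x hx h' => hx (hR x h')⟩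

theorem Sym.lt (hT : Sym b' b T) (h : LT b f) : LT b' fun x => f (T x) := by
  obtain ⟨R, hR⟩ := h.2
  obtain ⟨R', hR'⟩ := (cov_bd hT R).2
  exact ⟨hT.lh h.1, R', (hT.ae hR).mono fun x hx h' => hx (not_le.1 fun h'' => h'.not_ge (hR' x h''))⟩

theorem Sym.dot (hT : Sym b' b T) (h : HL b f) (h' : HL b g) :
    R335.dot b' (fun x => f (T x)) (fun x => g (T x)) =ᵐ[volume] fun x => R335.dot b f g (T x) := by
  obtain ⟨σ, s, hs, h1⟩ := cov_sym_wd hT
  filter_upwards [ae_all_iff.2 fun i => (h1 i _ _ (h.2 _).1).wd_ae, ae_all_iff.2 fun i => (h1 i _ _ (h'.2 _).1).wd_ae]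
    with x hx hx'
  simp only [R335.dot, hx, hx', ← σ.sum_comp]
  exact Finset.sum_congr rfl fun i _ => by rw [mul_mul_mul_comm, hs, one_mul]

theorem Sym.dir (hT : Sym b' b T) (h : HL b f) (h' : HL b g) :
    R335.dir b' (fun x => f (T x)) (fun x => g (T x)) = R335.dir b f g := by
  exact (integral_congr_ae (hT.dot h h')).trans (hT.integral _)

theorem Sym.ip (hT : Sym b' b T) (f g : E → ℝ) :
    R335.ip (fun x => f (T x)) (fun x => g (T x)) = R335.ip f g := by
  exact hT.integral fun x => f x * g x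

theorem Sym.qf (hT : Sym b' b T) (U : E → ℝ) (h : HL b f) (h' : HL b g) :
    R335.qf b' (fun x => U (T x)) (fun x => f (T x)) (fun x => g (T x)) = R335.qf b U f g := by
  unfold R335.qf
  rw [hT.dir h h', hT.integral fun x => U x * f x * g x]

/-- Scaling. -/
theorem H1.scale (h : H1 b f) {c : ℝ} (hc : 0 < c) : H1 b (fun x => f (c • x)) ∧
    dir b (fun x => f (c • x)) (fun x => f (c • x)) =
      c ^ 2 * (c ^ Module.finrank ℝ E)⁻¹ * dir b f f := by
  have hm := Measure.map_addHaar_smul (volume : Measure E) hc.ne'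
  have h1 : ∀ i, WD (b i) (fun x => f (c • x)) fun x => c * wd (b i) f (c • x) := fun i =>
    cov_wd (Homeomorph.smulOfNeZero c hc.ne') (LinearEquiv.smulOfNeZero ℝ E c hc.ne').toContinuousLinearEquiv 0
      (fun x => (add_zero _).symm) ENNReal.ofReal_ne_top hm (g := fun x => c * wd (b i) f x) ((h.2 i).1.smul_dir c)
  have h2 : ∀ {u : E → ℝ}, MemLp u 2 volume → MemLp (fun x => u (c • x)) 2 volume := fun {u} hu =>
    MemLp.comp_of_map (g := u) (hm ▸ hu.smul_measure ENNReal.ofReal_ne_top) (measurable_const_smul c).aemeasurable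
  refine ⟨.of_wd (h2 h.1) fun i => ⟨h1 i, (h2 (h.2 i).2).const_mul c⟩, ?_⟩
  have h3 : dot b (fun x => f (c • x)) (fun x => f (c • x)) =ᵐ[volume] fun x => c ^ 2 * dot b f f (c • x) := by
    filter_upwards [ae_all_iff.2 fun i => (h1 i).wd_ae] with x hx
    simp only [dot, hx, Finset.mul_sum]
    exact Finset.sum_congr rfl fun i _ => by ring
  rw [dir, integral_congr_ae h3, integral_const_mul, Measure.integral_comp_smul_of_nonneg volume (dot b f f) c (hR := hc.le),
    smul_eq_mul, mul_assoc, dir]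

/-- Translation. -/
theorem H1.translate (h : H1 b f) (a : E) : H1 b (fun x => f (x + a)) ∧
    ∀ i, wd (b i) (fun x => f (x + a)) =ᵐ[volume] fun x => wd (b i) f (x + a) := by
  have hm := measurePreserving_add_right (volume : Measure E) a
  have h1 : ∀ i, WD (b i) (fun x => f (x + a)) fun x => wd (b i) f (x + a) := fun i =>
    cov_wd (Homeomorph.addRight a) (.refl ℝ E) a (fun x => rfl) ENNReal.one_ne_top
      (hm.map_eq.trans (one_smul _ _).symm) (h.2 i).1
  exact ⟨.of_wd (h.1.comp_measurePreserving hm) fun i => ⟨h1 i, (h.2 i).2.comp_measurePreserving hm⟩,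
    fun i => (h1 i).wd_ae⟩

/-! ### The concrete symmetries -/

theorem rf_rf (x : X) : rf (rf x) = x := by
  ext c
  by_cases h : c = 2 <;> simp [rf, h]

theorem rf_two (x : X) : rf x 2 = -x 2 := by
  simp [rf]

theorem norm_rf (x : X) : ‖rf x‖ = ‖x‖ := by
  simp [EuclideanSpace.norm_eq, Fin.sum_univ_three, rf]

theorem rf_sub (x y : X) : rf (x - y) = rf x - rf y := by
  ext c
  by_cases h : c = 2 <;> simp [rf, h]
  ring

theorem sx_rf (x : X) : sx (rf x) = sx x := by
  simp [sx, rf]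

theorem cov_rf_nuc (D : ℝ) : rf (nuc D) = -nuc D := by
  ext c
  by_cases h : c = 2 <;> simp [rf, nuc, h]

theorem tp_rf (D : ℝ) (x : X) : tp D (rf x) = tm D x := by
  rw [tp, tm, ← norm_rf, rf_sub, rf_rf, cov_rf_nuc, sub_neg_eq_add]

theorem tm_rf (D : ℝ) (x : X) : tm D (rf x) = tp D x := by
  rw [← tp_rf, rf_rf]

theorem V_rf (D : ℝ) (x : X) : V D (rf x) = V D x := by
  rw [V, V, tp_rf, tm_rf]
  ring

theorem U2_rf (D l : ℝ) (y : Y) : U2 D l (rfY y) = U2 D l y := by
  simp only [U2, rfY, V_rf, ← rf_sub, norm_rf]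

theorem U2_swap (D l : ℝ) (y : Y) : U2 D l y.swap = U2 D l y := by
  simp only [U2, Prod.fst_swap, Prod.snd_swap, norm_sub_rev y.2 y.1]
  ring

theorem U3_rf (D l : ℝ) (p : Z) : U3 D l (rfZ p) = U3 D l p := by
  simp only [U3, rfZ, U2_rf, V_rf, Wx, rfY, ← rf_sub, norm_rf, U2]

theorem U3_swap12 (D l : ℝ) (x y z : X) : U3 D l (y, (x, z)) = U3 D l (x, (y, z)) := by
  simp only [U3, U2, Wx, norm_sub_rev y x]
  ring

theorem U3_swap23 (D l : ℝ) (x y z : X) : U3 D l (x, (z, y)) = U3 D l (x, (y, z)) := by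
  simp only [U3, U2, Wx, norm_sub_rev z y]
  ring

/-- the reflection as an isometry -/
def cov_rfL : X ≃ₗᵢ[ℝ] X where
  toFun := rf
  invFun := rf
  map_add' x y := by
    ext c
    by_cases h : c = 2 <;> simp [rf, h]
    ring
  map_smul' a x := by
    ext c
    by_cases h : c = 2 <;> simp [rf, h]
  left_inv := rf_rf
  right_inv := rf_rf
  norm_map' := norm_rf

theorem cov_rf_eX (i : Fin 3) : rf (eX i) = (if i = 2 then -1 else 1 : ℝ) • eX i := by
  ext c
  fin_cases i <;> fin_cases c <;> simp [rf, eX]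

section cov
variable {F : Type} [NormedAddCommGroup F] [NormedSpace ℝ F] [FiniteDimensional ℝ F]
  [MeasureSpace F] [BorelSpace F] [(volume : Measure F).IsAddHaarMeasure]
  {κ : Type} [Fintype κ] {c : κ → F}
  {F' : Type} [NormedAddCommGroup F'] [NormedSpace ℝ F'] [FiniteDimensional ℝ F']
  [MeasureSpace F'] [BorelSpace F'] [(volume : Measure F').IsAddHaarMeasure]
  {κ' : Type} [Fintype κ'] {c' : κ' → F'}

theorem cov_id (b : ι → E) : Sym b b fun x => x :=
  ⟨ContinuousLinearEquiv.refl ℝ E, Equiv.refl ι, fun _ => 1, fun _ => rfl, MeasurePreserving.id _,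
    fun _ => Or.inl rfl, fun i => by simp⟩

theorem cov_comp {S : F → E'} (hS : Sym c b' S) (hT : Sym b' b T) : Sym c b fun x => T (S x) := by
  obtain ⟨L, σ, s, h1, h2, h3, h4⟩ := hS
  obtain ⟨L', σ', s', h1', h2', h3', h4'⟩ := hT
  refine ⟨L.trans L', σ.trans σ', fun i => s i * s' (σ i), fun x => by simp [h1, h1'], h2'.comp h2,
    fun i => ?_, fun i => by simp [h4, h4', smul_smul]⟩
  rcases h3 i with h | h <;> rcases h3' (σ i) with h' | h' <;> simp [h, h']

theorem cov_prod {S : F' → F} (hT : Sym b' b T) (hS : Sym c' c S) :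
    Sym (pb b' c') (pb b c) fun p => (T p.1, S p.2) := by
  obtain ⟨L, σ, s, h1, h2, h3, h4⟩ := hT
  obtain ⟨L', σ', s', h1', h2', h3', h4'⟩ := hS
  refine ⟨L.prodCongr L', σ.sumCongr σ', Sum.elim s s', fun x => ?_, h2.prod h2', ?_, ?_⟩
  · rw [← h1, ← h1']; rfl
  · rintro (i | i)
    exacts [h3 i, h3' i]
  · rintro (i | i) <;> simp [pb, h4, h4']

theorem cov_swap (b : ι → E) (c : κ → F) : Sym (pb b c) (pb c b) Prod.swap := by
  refine ⟨ContinuousLinearEquiv.prodComm ℝ E F, Equiv.sumComm ι κ, fun _ => 1, fun _ => rfl,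
    Measure.measurePreserving_swap, fun _ => Or.inl rfl, ?_⟩
  rintro (i | i) <;> simp [pb]

theorem cov_assoc (b : ι → E) (c : κ → F) (c' : κ' → F') :
    Sym (pb (pb b c) c') (pb b (pb c c')) fun p => (p.1.1, (p.1.2, p.2)) := by
  refine ⟨ContinuousLinearEquiv.prodAssoc ℝ E F F', Equiv.sumAssoc ι κ κ', fun _ => 1, fun _ => rfl,
    volume_preserving_prodAssoc, fun _ => Or.inl rfl, ?_⟩
  rintro ((i | i) | i) <;> simp [pb]

theorem cov_assoc' (b : ι → E) (c : κ → F) (c' : κ' → F') :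
    Sym (pb b (pb c c')) (pb (pb b c) c') fun p => ((p.1, p.2.1), p.2.2) := by
  refine ⟨(ContinuousLinearEquiv.prodAssoc ℝ E F F').symm, (Equiv.sumAssoc ι κ κ').symm, fun _ => 1,
    fun _ => rfl, volume_preserving_prodAssoc.symm, fun _ => Or.inl rfl, ?_⟩
  rintro (i | (i | i)) <;> simp [pb] <;> rfl

end cov

theorem sym_rf : Sym eX eX rf := by
  refine ⟨cov_rfL.toContinuousLinearEquiv, Equiv.refl _, fun i => if i = 2 then -1 else 1, fun _ => rfl,
    cov_rfL.measurePreserving, fun i => ?_, cov_rf_eX⟩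
  by_cases h : i = 2 <;> simp [h]

/-- The derivative of the reflected function. -/
theorem wd_rf {f : X → ℝ} (h : HL eX f) (i : Fin 3) : wd (eX i) (fun x => f (rf x)) =ᵐ[volume]
    fun x => (if i = 2 then -1 else 1) * wd (eX i) f (rf x) := by
  have h1 := (h.2 i).1.smul_dir (if i = 2 then -1 else 1)
  rw [← cov_rf_eX] at h1
  exact (WD.comp_equiv cov_rfL.toContinuousLinearEquiv cov_rfL.measurePreserving h1).wd_ae

theorem sym_rfY : Sym eY eY rfY := by
  exact cov_prod sym_rf sym_rf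

theorem sym_rfZ : Sym eZ eZ rfZ := by
  exact cov_prod sym_rf sym_rfY

theorem sym_swap : Sym eY eY Prod.swap := by
  exact cov_swap eX eX

/-- Reflection of the two last electrons only. -/
theorem sym_rf23 : Sym eZ eZ fun p : Z => (p.1, rfY p.2) := by
  exact cov_prod (cov_id eX) sym_rfY

/-- Reflection of the first electron only. -/
theorem sym_rf1 : Sym eZ eZ fun p : Z => (rf p.1, p.2) := by
  exact cov_prod sym_rf (cov_id eY)

theorem sym_12 : Sym eZ eZ fun p : Z => (p.2.1, (p.1, p.2.2)) := by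
  exact cov_comp (cov_comp (cov_assoc' eX eX eX) (cov_prod sym_swap (cov_id eX))) (cov_assoc eX eX eX)

theorem sym_23 : Sym eZ eZ fun p : Z => (p.1, (p.2.2, p.2.1)) := by
  exact cov_prod (cov_id eX) sym_swap

theorem sym_13 : Sym eZ eZ fun p : Z => (p.2.2, (p.2.1, p.1)) := by
  exact cov_comp (cov_comp sym_12 sym_23) sym_12

theorem sym_cyc : Sym eZ eZ fun p : Z => (p.2.1, (p.2.2, p.1)) := by
  exact cov_comp sym_12 sym_23

theorem ae_ne_plane : ∀ᵐ x : X, x 2 ≠ 0 := by
  have h := Measure.addHaar_submodule (volume : Measure X)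
    (LinearMap.ker (EuclideanSpace.proj (2 : Fin 3) : X →L[ℝ] ℝ).toLinearMap) (by
      intro h
      have : eX 2 ∈ LinearMap.ker (EuclideanSpace.proj (2 : Fin 3) : X →L[ℝ] ℝ).toLinearMap := h ▸ trivial
      simp [eX] at this)
  rw [ae_iff]
  convert h using 2
  ext x
  simp

/-- The integral of an even function is twice the integral over the upper half space. -/
theorem integral_even {f : X → ℝ} (hi : Integrable f) (he : ∀ᵐ x : X, f (rf x) = f x) :
    ∫ x, f x = 2 * ∫ x in Hs, f x := by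
  have hm : MeasurableSet Hs := (isOpen_lt continuous_const (by fun_prop)).measurableSet
  have hmp := cov_rfL.measurePreserving
  have h1 : ∫ x, Hsᶜ.indicator f x = ∫ x, Hs.indicator f x := by
    rw [← hmp.integral_comp cov_rfL.toHomeomorph.measurableEmbedding (Hsᶜ.indicator f)]
    refine integral_congr_ae ?_
    filter_upwards [he, ae_ne_plane] with x h1 h2
    change Hsᶜ.indicator f (rf x) = _
    by_cases hx : x ∈ Hs
    · rw [indicator_of_mem hx, indicator_of_mem, h1]
      have : 0 < x 2 := hx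
      simp only [Hs, mem_compl_iff, mem_ofPred_eq, rf_two]
      linarith
    · rw [indicator_of_notMem hx, indicator_of_notMem]
      have : x 2 < 0 := lt_of_le_of_ne (not_lt.1 hx) h2
      simp only [Hs, mem_compl_iff, mem_ofPred_eq, rf_two, not_not]
      linarith
  rw [integral_indicator hm.compl, integral_indicator hm] at h1
  rw [← integral_add_compl hm hi, h1]
  ring

theorem integral_odd {f : X → ℝ} (he : ∀ᵐ x : X, f (rf x) = -f x) : ∫ x, f x = 0 := by
  have h1 := cov_rfL.measurePreserving.integral_comp cov_rfL.toHomeomorph.measurableEmbedding f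
  have h2 : ∫ x, f (cov_rfL x) = -∫ x, f x := by
    rw [← integral_neg]
    exact integral_congr_ae he
  linarith

/-- An a.e. statement that is invariant under the reflection. -/
theorem ae_of_half {p : X → Prop} (h : ∀ᵐ x : X, 0 < x 2 → p x)
    (hp : ∀ᵐ x : X, p (rf x) → p x) : ∀ᵐ x : X, p x := by
  have h1 : ∀ᵐ x : X, 0 < rf x 2 → p (rf x) := cov_rfL.measurePreserving.quasiMeasurePreserving.ae h
  filter_upwards [h, hp, h1, ae_ne_plane] with x a1 a2 a3 a4
  rcases lt_or_gt_of_ne a4 with h' | h'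
  · exact a2 (a3 (by rw [rf_two]; linarith))
  · exact a1 h'

theorem cov_sq (y : X) : ∑ i, y i ^ 2 = ‖y‖ ^ 2 := by
  rw [EuclideanSpace.norm_sq_eq]
  simp

theorem cov_span (y : X) : ∑ i, y i • eX i = y := by
  ext c
  simp [eX, Finset.sum_apply, Pi.single_apply]

theorem cov_max {G H : Type} [NormedAddCommGroup G] [NormedAddCommGroup H] (p : G × H) :
    ‖p‖ ^ 2 ≤ ‖p.1‖ ^ 2 + ‖p.2‖ ^ 2 ∧ ‖p.1‖ ^ 2 ≤ ‖p‖ ^ 2 ∧ ‖p.2‖ ^ 2 ≤ ‖p‖ ^ 2 := by
  refine ⟨?_, pow_le_pow_left₀ (norm_nonneg _) (norm_fst_le p) 2,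
    pow_le_pow_left₀ (norm_nonneg _) (norm_snd_le p) 2⟩
  rw [Prod.norm_def]
  rcases le_total ‖p.1‖ ‖p.2‖ with h | h
  · rw [max_eq_right h]; nlinarith [sq_nonneg ‖p.1‖]
  · rw [max_eq_left h]; nlinarith [sq_nonneg ‖p.2‖]

def frameX : Frame eX := by
  refine ⟨fun i => EuclideanSpace.proj i, fun i => by simp [eX], fun i j h => by simp [eX, h], cov_span,
    fun y => (cov_sq y).ge, fun y => (cov_sq y).le.trans ?_⟩
  nlinarith [sq_nonneg ‖y‖]

def frameY : Frame eY := by
  refine ⟨Sum.elim (fun i => (EuclideanSpace.proj i).comp (ContinuousLinearMap.fst ℝ X X))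
    (fun i => (EuclideanSpace.proj i).comp (ContinuousLinearMap.snd ℝ X X)), ?_, ?_, fun y => ?_,
    fun y => ?_, fun y => ?_⟩
  · rintro (i | i) <;> simp [eY, pb, eX]
  · rintro (i | i) (j | j) h <;> simp_all [eY, pb, eX]
  · refine Prod.ext ?_ ?_ <;> simp [eY, pb, Fintype.sum_sum_type, Prod.fst_sum, Prod.snd_sum, cov_span]
  · simpa [Fintype.sum_sum_type, cov_sq] using (cov_max y).1
  · have := cov_max y
    simp only [Fintype.sum_sum_type, Sum.elim_inl, Sum.elim_inr, ContinuousLinearMap.comp_apply,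
      ContinuousLinearMap.coe_fst', ContinuousLinearMap.coe_snd', PiLp.proj_apply, cov_sq]
    nlinarith [sq_nonneg ‖y‖]

def frameZ : Frame eZ := by
  refine ⟨Sum.elim (fun i => (EuclideanSpace.proj i).comp (ContinuousLinearMap.fst ℝ X Y))
    (Sum.elim (fun i => (EuclideanSpace.proj i).comp ((ContinuousLinearMap.fst ℝ X X).comp
      (ContinuousLinearMap.snd ℝ X Y))) fun i => (EuclideanSpace.proj i).comp
      ((ContinuousLinearMap.snd ℝ X X).comp (ContinuousLinearMap.snd ℝ X Y))), ?_, ?_, fun y => ?_,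
    fun y => ?_, fun y => ?_⟩
  · rintro (i | i | i) <;> simp [eZ, eY, pb, eX]
  · rintro (i | i | i) (j | j | j) h <;> simp_all [eZ, eY, pb, eX]
  · refine Prod.ext ?_ (Prod.ext ?_ ?_) <;>
      simp [eZ, eY, pb, Fintype.sum_sum_type, Prod.fst_sum, Prod.snd_sum, cov_span]
  · have := cov_max y
    have := cov_max y.2
    simp only [Fintype.sum_sum_type, Sum.elim_inl, Sum.elim_inr, ContinuousLinearMap.comp_apply,
      ContinuousLinearMap.coe_fst', ContinuousLinearMap.coe_snd', PiLp.proj_apply, cov_sq]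
    linarith
  · have := cov_max y
    have := cov_max y.2
    simp only [Fintype.sum_sum_type, Sum.elim_inl, Sum.elim_inr, ContinuousLinearMap.comp_apply,
      ContinuousLinearMap.coe_fst', ContinuousLinearMap.coe_snd', PiLp.proj_apply, cov_sq]
    linarith

end Crest.Agent.R335
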