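/-
R335/T/Lsc: completeness, convex combinations, lower semicontinuity
Skeleton by helper48 (row 335); keep the statements unchanged, add any helper lemmas you like.
-/
import Crest.Agent.R335.T.Approx

set_option autoImplicit false
set_option linter.unusedSectionVars false
set_option linter.unusedVariables false
set_option linter.unusedSimpArgs false

noncomputable section

namespace Crest.Agent.R335

open MeasureTheory Set Filter Topology Metric
open scoped ENNReal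

variable {E : Type} [NormedAddCommGroup E] [NormedSpace ℝ E] [FiniteDimensional ℝ E]
  [MeasureSpace E] [BorelSpace E] [(volume : Measure E).IsAddHaarMeasure]
  {ι : Type} [Fintype ι] {b : ι → E}

variable {f : E → ℝ}

theorem lsc_norm {g : E → ℝ} (hf : MemLp f 2 volume) (hg : MemLp g 2 volume) :
    ‖hf.toLp f - hg.toLp g‖ ^ 2 = ∫ x, (f x - g x) ^ 2 := by
  rw [← MemLp.toLp_sub, ← real_inner_self_eq_norm_sq, wd_inner]
  simp only [ip, sq, Pi.sub_apply]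

theorem lsc_of_Lp {Y : ℕ → Lp ℝ 2 (volume : Measure E)} {y : Lp ℝ 2 (volume : Measure E)}
    (h : Tendsto Y atTop (𝓝 y)) : L2to (fun n => Y n) y := by
  have h1 := (tendsto_iff_norm_sub_tendsto_zero.1 h).pow 2
  rw [zero_pow two_ne_zero] at h1
  refine h1.congr fun n => ?_
  rw [← lsc_norm (Lp.memLp (Y n)) (Lp.memLp y), Lp.toLp_coeFn, Lp.toLp_coeFn]

theorem lsc_ip_nonneg (f : E → ℝ) : 0 ≤ ip f f := integral_nonneg fun x => mul_self_nonneg _

theorem lsc_ip_le (h : H1 b f) (i : ι) : ip (wd (b i) f) (wd (b i) f) ≤ dir b f f := by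
  rw [h.dir_eq_sum h]
  exact Finset.single_le_sum (f := fun i => ip (wd (b i) f) (wd (b i) f)) (fun i _ => lsc_ip_nonneg _)
    (Finset.mem_univ i)

/-- Completeness of `L²` (pass to `Lp`). -/
theorem exists_L2to {F : ℕ → E → ℝ} (hF : ∀ n, MemLp (F n) 2 volume)
    (hc : ∀ ε : ℝ, 0 < ε → ∃ N, ∀ m ≥ N, ∀ n ≥ N, ∫ x, (F m x - F n x) ^ 2 ≤ ε) :
    ∃ f : E → ℝ, Measurable f ∧ MemLp f 2 volume ∧ L2to F f := by
  have h1 : CauchySeq fun n => (hF n).toLp (F n) := by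
    refine Metric.cauchySeq_iff.2 fun ε hε => ?_
    obtain ⟨N, hN⟩ := hc (ε ^ 2 / 2) (by positivity)
    refine ⟨N, fun m hm n hn => ?_⟩
    rw [dist_eq_norm]
    refine lt_of_pow_lt_pow_left₀ 2 hε.le ?_
    rw [lsc_norm]
    exact (hN m hm n hn).trans_lt (half_lt_self (by positivity))
  obtain ⟨y, hy⟩ := cauchySeq_tendsto_of_complete h1
  exact ⟨y, (Lp.stronglyMeasurable y).measurable, Lp.memLp y,
    (lsc_of_Lp hy).congr (fun n => (hF n).coeFn_toLp) EventuallyEq.rfl⟩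

/-- Completeness of `H¹`. -/
theorem H1.complete {F : ℕ → E → ℝ} (hF : ∀ n, H1 b (F n))
    (hc : ∀ ε : ℝ, 0 < ε → ∃ N, ∀ m ≥ N, ∀ n ≥ N, ∫ x, (F m x - F n x) ^ 2 ≤ ε ∧
      dir b (fun x => F m x - F n x) (fun x => F m x - F n x) ≤ ε) :
    ∃ f : E → ℝ, Measurable f ∧ H1 b f ∧ L2to F f ∧
      ∀ i, L2to (fun n => wd (b i) (F n)) (wd (b i) f) := by
  obtain ⟨f, hm, hf, hl⟩ := exists_L2to (fun n => (hF n).1) fun ε hε =>
    (hc ε hε).imp fun N hN m hm n hn => (hN m hm n hn).1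
  have h1 : ∀ i, ∃ g : E → ℝ, Measurable g ∧ MemLp g 2 volume ∧ L2to (fun n => wd (b i) (F n)) g := fun i =>
    exists_L2to (fun n => ((hF n).2 i).2) fun ε hε => (hc ε hε).imp fun N hN m hm n hn => by
      refine le_trans (le_of_eq ?_) ((lsc_ip_le ((hF m).sub (hF n)) i).trans (hN m hm n hn).2)
      refine integral_congr_ae ?_
      filter_upwards [(hF m).hl.wd_sub (hF n).hl i] with x hx
      rw [hx, sq]
  choose G _ hG hGl using h1
  have h2 : ∀ i, WD (b i) f (G i) := fun i =>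
    WD.of_L2to (fun n => ((hF n).2 i).1) (fun n => (hF n).1) (fun n => ((hF n).2 i).2) hf (hG i) hl (hGl i)
  exact ⟨f, hm, H1.of_wd hf fun i => ⟨h2 i, hG i⟩, hl, fun i =>
    (hGl i).congr (fun n => EventuallyEq.rfl) (h2 i).wd_ae.symm⟩

/-- Forward convex combinations of a bounded sequence in a Hilbert space converge.  Recipe: let
`a n` be the infimum of the norm on the convex hull of `{x k | k ≥ n}`; it increases and is
bounded; pick `y n` in the hull with `‖y n‖² ≤ a n ^ 2 + 1/(n+1)`; parallelogram law. -/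
theorem exists_convex_limit {H : Type} [NormedAddCommGroup H] [InnerProductSpace ℝ H]
    [CompleteSpace H] (x : ℕ → H) {C : ℝ} (hC : ∀ n, ‖x n‖ ≤ C) :
    ∃ (s : ℕ → Finset ℕ) (w : ℕ → ℕ → ℝ) (y : H), (∀ n, ∀ k ∈ s n, n ≤ k) ∧ (∀ n k, 0 ≤ w n k) ∧
      (∀ n, ∑ k ∈ s n, w n k = 1) ∧ Tendsto (fun n => ∑ k ∈ s n, w n k • x k) atTop (𝓝 y) := by
  set L : (ℕ →₀ ℝ) →ₗ[ℝ] H := Finsupp.linearCombination ℝ x with hL
  set M : (ℕ →₀ ℝ) →ₗ[ℝ] ℝ := Finsupp.linearCombination ℝ fun _ => (1 : ℝ) with hM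
  set T : ℕ → Set (ℕ →₀ ℝ) := fun n => {w | (∀ k, 0 ≤ w k) ∧ (∀ k < n, w k = 0) ∧ M w = 1} with hT
  have hone : ∀ n, Finsupp.single n (1 : ℝ) ∈ T n := fun n =>
    ⟨fun k => by rw [Finsupp.single_apply]; split_ifs <;> norm_num,
      fun k hk => Finsupp.single_eq_of_ne hk.ne, by simp [hM]⟩
  have hanti : ∀ N n, N ≤ n → T n ⊆ T N := fun N n h w hw =>
    ⟨hw.1, fun k hk => hw.2.1 k (hk.trans_le h), hw.2.2⟩
  have hmid : ∀ N, ∀ w ∈ T N, ∀ w' ∈ T N, (1 / 2 : ℝ) • (w + w') ∈ T N := fun N w hw w' hw' =>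
    ⟨fun k => by
      rw [Finsupp.smul_apply, Finsupp.add_apply]
      exact smul_nonneg (by norm_num) (add_nonneg (hw.1 k) (hw'.1 k)),
    fun k hk => by rw [Finsupp.smul_apply, Finsupp.add_apply, hw.2.1 k hk, hw'.2.1 k hk, add_zero, smul_zero],
    by rw [map_smul, map_add, hw.2.2, hw'.2.2]; norm_num⟩
  set a : ℕ → ℝ := fun n => sInf ((fun w => ‖L w‖ ^ 2) '' T n) with ha
  have hne : ∀ n, ((fun w => ‖L w‖ ^ 2) '' T n).Nonempty := fun n => ⟨_, _, hone n, rfl⟩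
  have hbd : ∀ n, BddBelow ((fun w => ‖L w‖ ^ 2) '' T n) := fun n =>
    ⟨0, by rintro _ ⟨w, -, rfl⟩; exact sq_nonneg _⟩
  have hle : ∀ n, ∀ w ∈ T n, a n ≤ ‖L w‖ ^ 2 := fun n w hw => csInf_le (hbd n) ⟨w, hw, rfl⟩
  have hmono : Monotone a := fun N n h => csInf_le_csInf (hbd N) (hne n) (image_mono (hanti N n h))
  have hab : BddAbove (range a) := ⟨C ^ 2, by
    rintro _ ⟨n, rfl⟩
    refine (hle n _ (hone n)).trans ?_
    rw [hL, Finsupp.linearCombination_single, one_smul]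
    exact pow_le_pow_left₀ (norm_nonneg _) (hC n) 2⟩
  have hlim := tendsto_atTop_ciSup hmono hab
  have hex : ∀ n : ℕ, ∃ w ∈ T n, ‖L w‖ ^ 2 < a n + 1 / ((n : ℝ) + 1) := fun n => by
    obtain ⟨_, ⟨w, hw, rfl⟩, h⟩ := exists_lt_of_csInf_lt (hne n)
      (lt_add_of_pos_right (a n) (Nat.one_div_pos_of_nat (α := ℝ) (n := n)))
    exact ⟨w, hw, h⟩
  choose w hw hwl using hex
  have hc : CauchySeq fun n => L (w n) := by
    refine cauchySeq_of_le_tendsto_0 (fun N => √(4 * ((⨆ n, a n) - a N) + 4 * (1 / ((N : ℝ) + 1))))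
      (fun n m N hn hm => Real.le_sqrt_of_sq_le ?_) ?_
    · have h1 := hle N _ (hmid N _ (hanti N n hn (hw n)) _ (hanti N m hm (hw m)))
      rw [map_smul, map_add, norm_smul, mul_pow, Real.norm_eq_abs, sq_abs] at h1
      have h2 := parallelogram_law_with_norm ℝ (L (w n)) (L (w m))
      have h3 := Nat.one_div_le_one_div (α := ℝ) hn
      have h4 := Nat.one_div_le_one_div (α := ℝ) hm
      rw [dist_eq_norm]
      linarith [hwl n, hwl m, le_ciSup hab n, le_ciSup hab m]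
    · have h1 := (((tendsto_const_nhds (x := ⨆ n, a n)).sub hlim).const_mul 4).add
        ((tendsto_one_div_add_atTop_nhds_zero_nat (𝕜 := ℝ)).const_mul 4)
      simpa using h1.sqrt
  obtain ⟨y, hy⟩ := cauchySeq_tendsto_of_complete hc
  refine ⟨fun n => (w n).support, fun n => w n, y, fun n k hk => ?_, fun n => (hw n).1, fun n => ?_, hy⟩
  · by_contra h
    exact Finsupp.mem_support_iff.1 hk ((hw n).2.1 k (not_le.1 h))
  · have := (hw n).2.2
    simpa [hM, Finsupp.linearCombination_apply, Finsupp.sum] using this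

theorem lsc_coe_sum {F : ℕ → E → ℝ} (hF : ∀ n, MemLp (F n) 2 volume) (s : Finset ℕ) (w : ℕ → ℝ) :
    ⇑(∑ k ∈ s, w k • (hF k).toLp (F k)) =ᵐ[volume] fun x => ∑ k ∈ s, w k * F k x := by
  induction s using Finset.induction_on with
  | empty => exact Lp.coeFn_zero ℝ 2 (volume : Measure E)
  | insert k s hk ih =>
    rw [Finset.sum_insert hk]
    filter_upwards [ih, Lp.coeFn_add (w k • (hF k).toLp (F k)) (∑ k ∈ s, w k • (hF k).toLp (F k)),
      Lp.coeFn_smul (w k) ((hF k).toLp (F k)), (hF k).coeFn_toLp] with x h1 h2 h3 h4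
    rw [h2, Pi.add_apply, h1, h3, Pi.smul_apply, h4, Finset.sum_insert hk, smul_eq_mul]

/-- The same for finitely many sequences of `L²` functions (`PiLp 2 fun _ => Lp ℝ 2`). -/
theorem exists_convex_L2to {κ : Type} [Fintype κ] {F : κ → ℕ → E → ℝ}
    (hF : ∀ j n, MemLp (F j n) 2 volume) {C : ℝ} (hC : ∀ j n, ip (F j n) (F j n) ≤ C) :
    ∃ (s : ℕ → Finset ℕ) (w : ℕ → ℕ → ℝ) (f : κ → E → ℝ), (∀ n, ∀ k ∈ s n, n ≤ k) ∧
      (∀ n k, 0 ≤ w n k) ∧ (∀ n, ∑ k ∈ s n, w n k = 1) ∧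
      ∀ j, Measurable (f j) ∧ MemLp (f j) 2 volume ∧
        L2to (fun n x => ∑ k ∈ s n, w n k * F j k x) (f j) := by
  obtain ⟨s, w, y, h1, h2, h3, h4⟩ := exists_convex_limit (H := PiLp 2 fun _ : κ => Lp ℝ 2 (volume : Measure E))
    (fun n => WithLp.toLp 2 fun j => (hF j n).toLp (F j n)) (C := √(∑ _j : κ, C)) fun n => by
      refine Real.le_sqrt_of_sq_le ?_
      rw [PiLp.norm_sq_eq_of_L2]
      refine Finset.sum_le_sum fun j _ => ?_
      rw [← real_inner_self_eq_norm_sq]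
      exact (wd_inner (hF j n) (hF j n)).trans_le (hC j n)
  refine ⟨s, w, fun j => y j, h1, h2, h3, fun j => ⟨(Lp.stronglyMeasurable _).measurable, Lp.memLp _, ?_⟩⟩
  have h5 := ((PiLp.proj (𝕜 := ℝ) 2 (fun _ : κ => Lp ℝ 2 (volume : Measure E)) j).continuous.tendsto y).comp h4
  simp only [Function.comp_def, map_sum, map_smul, PiLp.proj_apply] at h5
  exact (lsc_of_Lp h5).congr (fun n => lsc_coe_sum (hF j) (s n) (w n)) EventuallyEq.rfl

theorem lsc_memLp {F : ℕ → E → ℝ} (hF : ∀ n, MemLp (F n) 2 volume) (s : Finset ℕ) (w : ℕ → ℝ) :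
    MemLp (fun x => ∑ k ∈ s, w k * F k x) 2 volume :=
  memLp_finsetSum s fun k _ => (hF k).const_mul (w k)

theorem lsc_jensen {F : ℕ → E → ℝ} (hF : ∀ n, MemLp (F n) 2 volume) {s : Finset ℕ} {w : ℕ → ℝ}
    (h0 : ∀ k, 0 ≤ w k) (h1 : ∑ k ∈ s, w k = 1) :
    ∫ x, (∑ k ∈ s, w k * F k x) ^ 2 ≤ ∑ k ∈ s, w k * ∫ x, F k x ^ 2 := by
  have i : ∀ k ∈ s, Integrable fun x => w k * F k x ^ 2 := fun k _ => (hF k).integrable_sq.const_mul _
  simp only [← integral_const_mul]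
  rw [← integral_finsetSum s i]
  exact integral_mono_of_nonneg (Eventually.of_forall fun x => sq_nonneg _) (integrable_finsetSum s i)
    (Eventually.of_forall fun x => Real.pow_arith_mean_le_arith_mean_pow_of_even s w _ (fun k _ => h0 k) h1 even_two)

theorem lsc_ev {c : ℕ → ℝ} {s : ℕ → Finset ℕ} {w : ℕ → ℕ → ℝ} (hs : ∀ n, ∀ k ∈ s n, n ≤ k)
    (h0 : ∀ n k, 0 ≤ w n k) (h1 : ∀ n, ∑ k ∈ s n, w n k = 1) {A : ℝ} (h : ∀ᶠ n in atTop, c n ≤ A) :
    ∀ᶠ n in atTop, ∑ k ∈ s n, w n k * c k ≤ A := by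
  obtain ⟨N, hN⟩ := eventually_atTop.1 h
  filter_upwards [eventually_ge_atTop N] with n hn
  refine (Finset.sum_le_sum fun k hk =>
    mul_le_mul_of_nonneg_left (hN k (hn.trans (hs n k hk))) (h0 n k)).trans_eq ?_
  rw [← Finset.sum_mul, h1, one_mul]

theorem lsc_conv {F : ℕ → E → ℝ} (hF : ∀ n, MemLp (F n) 2 volume) (hf : MemLp f 2 volume) (h : L2to F f)
    {s : ℕ → Finset ℕ} {w : ℕ → ℕ → ℝ} (hs : ∀ n, ∀ k ∈ s n, n ≤ k) (h0 : ∀ n k, 0 ≤ w n k)
    (h1 : ∀ n, ∑ k ∈ s n, w n k = 1) : L2to (fun n x => ∑ k ∈ s n, w n k * F k x) f := by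
  refine tendsto_order.2 ⟨fun a ha => Eventually.of_forall fun n =>
    ha.trans_le (integral_nonneg fun x => sq_nonneg _), fun a ha => ?_⟩
  filter_upwards [lsc_ev hs h0 h1 ((h.eventually (gt_mem_nhds (half_pos ha))).mono fun n hn => hn.le)] with n hn
  refine lt_of_le_of_lt (le_trans (le_of_eq ?_) ((lsc_jensen (F := fun k x => F k x - f x)
    (fun k => (hF k).sub hf) (h0 n) (h1 n)).trans hn)) (half_lt_self ha)
  simp only [mul_sub, Finset.sum_sub_distrib, ← Finset.sum_mul, h1, one_mul]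

theorem lsc_fam {κ : Type} [Fintype κ] {F : κ → ℕ → E → ℝ} {f : κ → E → ℝ} (hF : ∀ j n, H1 b (F j n))
    (hf : ∀ j, MemLp (f j) 2 volume) (h : ∀ j, L2to (F j) (f j)) {a : ℝ}
    (ha : ∀ ε : ℝ, 0 < ε → ∀ᶠ n in atTop, ∑ j, dir b (F j n) (F j n) ≤ a + ε) :
    (∀ j, H1 b (f j)) ∧ ∑ j, dir b (f j) (f j) ≤ a := by
  obtain ⟨C, hC⟩ := IsBoundedUnder.bddAbove_range (f := fun n => ∑ j, dir b (F j n) (F j n)) ⟨a + 1, ha 1 one_pos⟩
  obtain ⟨s, w, g, hs, h0, h1, hg⟩ := exists_convex_L2to (κ := κ × ι) (F := fun p n => wd (b p.2) (F p.1 n))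
    (fun p n => ((hF p.1 n).2 p.2).2) (C := C) fun p n => (lsc_ip_le (hF p.1 n) p.2).trans
      ((Finset.single_le_sum (f := fun j => dir b (F j n) (F j n)) (fun j _ => dir_self_nonneg _)
        (Finset.mem_univ p.1)).trans (hC ⟨n, rfl⟩))
  have hm : ∀ j i n, MemLp (fun x => ∑ k ∈ s n, w n k * wd (b i) (F j k) x) 2 volume := fun j i n =>
    lsc_memLp (fun k => ((hF j k).2 i).2) _ _
  have h2 : ∀ j i, WD (b i) (f j) (g (j, i)) := fun j i =>
    WD.of_L2to (fun n => WD.sum (s n) fun k _ => ((hF j k).2 i).1.const_mul (w n k))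
      (fun n => lsc_memLp (fun k => (hF j k).1) _ _) (hm j i) (hf j) (hg (j, i)).2.1
      (lsc_conv (fun k => (hF j k).1) (hf j) (h j) hs h0 h1) (hg (j, i)).2.2
  have h3 : ∀ j, H1 b (f j) := fun j => H1.of_wd (hf j) fun i => ⟨h2 j i, (hg (j, i)).2.1⟩
  refine ⟨h3, le_of_forall_pos_le_add fun ε hε => ?_⟩
  have h4 : ∑ j, dir b (f j) (f j) = ∑ j, ∑ i, ip (g (j, i)) (g (j, i)) := by
    refine Finset.sum_congr rfl fun j _ => ?_
    rw [(h3 j).dir_eq_sum (h3 j)]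
    exact Finset.sum_congr rfl fun i _ => integral_congr_ae ((h2 j i).wd_ae.mul (h2 j i).wd_ae)
  rw [h4]
  refine le_of_tendsto (tendsto_finsetSum _ fun j _ => tendsto_finsetSum _ fun i _ =>
    tendsto_ip (hm j i) (hm j i) (hg (j, i)).2.1 (hg (j, i)).2.1 (hg (j, i)).2.2 (hg (j, i)).2.2) ?_
  filter_upwards [lsc_ev hs h0 h1 (ha ε hε)] with n hn
  refine le_trans ?_ hn
  simp only [Finset.mul_sum]
  rw [Finset.sum_comm (s := s n)]
  refine Finset.sum_le_sum fun j _ => ?_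
  simp only [fun k => (hF j k).dir_eq_sum (hF j k), Finset.mul_sum]
  rw [Finset.sum_comm (s := s n)]
  refine Finset.sum_le_sum fun i _ => ?_
  simpa only [ip, sq] using lsc_jensen (fun k => ((hF j k).2 i).2) (h0 n) (h1 n)

/-- Lower semicontinuity of the Dirichlet integral (convex combinations of the gradients). -/
theorem H1.lsc {F : ℕ → E → ℝ} (hF : ∀ n, H1 b (F n)) (hf : MemLp f 2 volume) (h : L2to F f)
    {a : ℝ} (ha : ∀ ε : ℝ, 0 < ε → ∀ᶠ n in atTop, dir b (F n) (F n) ≤ a + ε) :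
    H1 b f ∧ dir b f f ≤ a := by
  have := lsc_fam (b := b) (κ := Unit) (F := fun _ => F) (f := fun _ => f) (fun _ => hF) (fun _ => hf) (fun _ => h)
    (a := a) (by simpa using ha)
  simpa using this

/-- The same for a pair. -/
theorem H1.lsc2 {F G : ℕ → E → ℝ} {g : E → ℝ} (hF : ∀ n, H1 b (F n)) (hG : ∀ n, H1 b (G n))
    (hf : MemLp f 2 volume) (hg : MemLp g 2 volume) (h : L2to F f) (h' : L2to G g) {a : ℝ}
    (ha : ∀ ε : ℝ, 0 < ε → ∀ᶠ n in atTop, dir b (F n) (F n) + dir b (G n) (G n) ≤ a + ε) :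
    H1 b f ∧ H1 b g ∧ dir b f f + dir b g g ≤ a := by
  have := lsc_fam (b := b) (κ := Bool) (F := fun j => bif j then F else G) (f := fun j => bif j then f else g)
    (by rintro (_ | _); exacts [hG, hF]) (by rintro (_ | _); exacts [hg, hf]) (by rintro (_ | _); exacts [h', h])
    (a := a) (by simpa using ha)
  exact ⟨this.1 true, this.1 false, by simpa using this.2⟩

end Crest.Agent.R335
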