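/-
R335/T/Pos: positive part, absolute value, Euclidean norm of a family
Skeleton by helper48 (row 335); keep the statements unchanged, add any helper lemmas you like.
-/
import Crest.Agent.R335.T.Chain

set_option autoImplicit false
set_option linter.unusedSectionVars false
set_option linter.unusedVariables false
set_option linter.unusedSimpArgs false

noncomputable section

namespace Crest.Agent.R335

open MeasureTheory Set Filter Topology Metric
open scoped ENNReal

variable {E : Type} [NormedAddCommGroup E] [NormedSpace ℝ E] [FiniteDimensional ℝ E]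
  [MeasureSpace E] [BorelSpace E] [(volume : Measure E).IsAddHaarMeasure]
  {ι : Type} [Fintype ι] {b : ι → E}

variable {f g : E → ℝ}

theorem pos_eps : Tendsto (fun n : ℕ => (1 : ℝ) / (n + 1)) atTop (𝓝 0) :=
  tendsto_one_div_add_atTop_nhds_zero_nat

theorem pos_eps_pos (n : ℕ) : (0 : ℝ) < 1 / (n + 1) := Nat.one_div_pos_of_nat

theorem pos_eps_le (n : ℕ) : (1 : ℝ) / (n + 1) ≤ 1 :=
  div_le_one_of_le₀ (by linarith [n.cast_nonneg (α := ℝ)]) (by positivity)

theorem LocL2.abs (h : LocL2 f) : LocL2 fun x => |f x| := fun R => (h R).abs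

theorem pos_sign (t : ℝ) : t / √(t ^ 2) = SignType.sign t := by
  rw [Real.sqrt_sq_eq_abs]
  rcases lt_trichotomy t 0 with h | rfl | h
  · rw [abs_of_neg h, sign_neg h, div_neg, div_self h.ne]; simp
  · simp
  · rw [abs_of_pos h, sign_pos h, div_self h.ne']; simp

theorem pos_abs_sign (t : ℝ) : |(SignType.sign t : ℝ)| ≤ 1 := by
  rcases lt_trichotomy t 0 with h | rfl | h
  · simp [sign_neg h]
  · simp
  · simp [sign_pos h]

theorem pos_div_le {u ε : ℝ} (hε : 0 < ε) : |u / √(u ^ 2 + ε ^ 2)| ≤ 1 := by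
  rw [abs_div, abs_of_nonneg (Real.sqrt_nonneg _)]
  exact div_le_one_of_le₀ (Real.abs_le_sqrt (by nlinarith)) (Real.sqrt_nonneg _)

theorem pos_der (c : ℝ) {ε : ℝ} (hε : 0 < ε) (t : ℝ) :
    HasDerivAt (fun t => √((t - c) ^ 2 + ε ^ 2)) ((t - c) / √((t - c) ^ 2 + ε ^ 2)) t := by
  have h1 : HasDerivAt (fun t : ℝ => (t - c) ^ 2 + ε ^ 2) _ t :=
    (((hasDerivAt_id' t).sub_const c).fun_pow 2).add_const _
  refine (h1.sqrt (by positivity)).congr_deriv ?_
  have : 0 < √((t - c) ^ 2 + ε ^ 2) := Real.sqrt_pos.2 (by positivity)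
  simp only [Nat.cast_ofNat, Nat.add_one_sub_one, pow_one, mul_one]
  field_simp

/-- the weak derivative of `|f|`, with a free parameter on the zero set -/
theorem pos_abs_aux (h : HL b f) (a : ℝ) (i : ι) : WD (b i) (fun x => |f x|) fun x =>
    (if f x = 0 then -a / √(a ^ 2 + 1) else SignType.sign (f x)) * wd (b i) f x := by
  have key : ∀ n : ℕ, WD (b i) (fun x => √((f x - a * (1 / (n + 1))) ^ 2 + (1 / (n + 1)) ^ 2)) fun x =>
      (f x - a * (1 / (n + 1))) / √((f x - a * (1 / (n + 1))) ^ 2 + (1 / (n + 1)) ^ 2) *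
        wd (b i) f x := by
    intro n
    have hε := pos_eps_pos n
    have h1 := h.chain1 (Φ := fun t => √((t - a * (1 / (n + 1))) ^ 2 + (1 / (n + 1)) ^ 2)) (C := 1)
      (ContDiff.sqrt (by fun_prop) fun t => by positivity) fun t => by
        rw [(pos_der _ hε t).deriv]; exact pos_div_le hε
    refine (h1.1.2 i).1.congr EventuallyEq.rfl ((h1.2 i).trans (Eventually.of_forall fun x => ?_))
    simp only [(pos_der _ hε _).deriv]
  refine WD.of_dominated key (p := fun x => |f x| + (|a| + 1)) (q := fun x => |wd (b i) f x|)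
    (h.1.abs.locallyIntegrable.add (locallyIntegrable_const _)) (h.2 i).2.abs.locallyIntegrable
    (fun n => Eventually.of_forall fun x => ?_) (fun n => Eventually.of_forall fun x => ?_)
    (Eventually.of_forall fun x => ?_) (Eventually.of_forall fun x => ?_)
  · have h0 := pos_eps_pos n
    have h1 := pos_eps_le n
    generalize (1 : ℝ) / (n + 1) = ε at h0 h1
    rw [abs_of_nonneg (Real.sqrt_nonneg _)]
    have h2 : |f x - a * ε| ≤ |f x| + |a| := by
      refine (abs_sub _ _).trans ?_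
      rw [abs_mul, abs_of_pos h0]
      nlinarith [abs_nonneg a]
    refine Real.sqrt_le_iff.2 ⟨by positivity, ?_⟩
    rw [← sq_abs (f x - a * ε)]
    nlinarith [abs_nonneg (f x - a * ε), abs_nonneg (f x), abs_nonneg a]
  · rw [abs_mul]
    exact mul_le_of_le_one_left (abs_nonneg _) (pos_div_le (pos_eps_pos n))
  · have hc : Continuous fun ε : ℝ => √((f x - a * ε) ^ 2 + ε ^ 2) := by fun_prop
    have := (hc.tendsto 0).comp pos_eps
    simpa [Real.sqrt_sq_eq_abs, Function.comp_def] using this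
  · refine Tendsto.mul_const _ ?_
    split_ifs with h0
    · refine tendsto_const_nhds.congr fun n => ?_
      have hε := pos_eps_pos n
      generalize (1 : ℝ) / (n + 1) = ε at hε
      rw [h0, show (0 - a * ε) ^ 2 + ε ^ 2 = (a ^ 2 + 1) * ε ^ 2 by ring, Real.sqrt_mul (by positivity),
        Real.sqrt_sq hε.le]
      have : 0 < √(a ^ 2 + 1) := Real.sqrt_pos.2 (by positivity)
      field_simp
      ring
    · have hc : ContinuousAt (fun ε : ℝ => (f x - a * ε) / √((f x - a * ε) ^ 2 + ε ^ 2)) 0 :=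
        ContinuousAt.div (by fun_prop) (by fun_prop) (Real.sqrt_ne_zero'.2 (by simpa [sq_pos_iff] using h0))
      have := hc.tendsto.comp pos_eps
      rw [← pos_sign]
      simpa [Function.comp_def] using this

theorem pos_abs (h : HL b f) : HL b (fun x => |f x|) ∧
    ∀ i, wd (b i) (fun x => |f x|) =ᵐ[volume] fun x => SignType.sign (f x) * wd (b i) f x := by
  have key : ∀ i, WD (b i) (fun x => |f x|) fun x => SignType.sign (f x) * wd (b i) f x := fun i =>
    (pos_abs_aux h 0 i).congr EventuallyEq.rfl (Eventually.of_forall fun x => by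
      by_cases h0 : f x = 0 <;> simp [h0])
  refine ⟨HL.of_wd h.1.abs fun i => ⟨key i, (h.2 i).2.of_le (key i).2.1.aestronglyMeasurable
    fun R => ⟨1, Eventually.of_forall fun x _ => ?_⟩⟩, fun i => (key i).wd_ae⟩
  rw [abs_mul]
  exact mul_le_mul_of_nonneg_right (pos_abs_sign _) (abs_nonneg _)

theorem pos_zero (h : HL b f) (i : ι) : ∀ᵐ x : E, f x = 0 → wd (b i) f x = 0 := by
  filter_upwards [(pos_abs_aux h 0 i).unique (pos_abs_aux h 1 i)] with x hx h0
  simp only [h0, if_true, neg_zero, zero_div, zero_mul] at hx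
  have : 0 < √((1 : ℝ) ^ 2 + 1) := Real.sqrt_pos.2 (by positivity)
  exact (mul_eq_zero.1 hx.symm).resolve_left (div_ne_zero (by norm_num) this.ne')

theorem pos_max (t : ℝ) : max t 0 = 1 / 2 * (t + |t|) := by
  rcases le_total t 0 with h | h
  · rw [max_eq_right h, abs_of_nonpos h]; ring
  · rw [max_eq_left h, abs_of_nonneg h]; ring

theorem pos_abs_max (t : ℝ) : |max t 0| ≤ |t| := by
  rw [abs_of_nonneg (le_max_right _ _)]
  exact max_le (le_abs_self _) (abs_nonneg _)

/-- Recipe: `Φ_ε t = √(t₊² + ε²) - ε` is `C¹`, `HL.chain1`, `WD.of_dominated`. -/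
theorem HL.posPart (h : HL b f) : HL b (fun x => max (f x) 0) ∧
    ∀ i, wd (b i) (fun x => max (f x) 0) =ᵐ[volume]
      fun x => if 0 < f x then wd (b i) f x else 0 := by
  have ha := pos_abs h
  simp only [pos_max]
  refine ⟨(h.add ha.1).const_mul _, fun i => ?_⟩
  filter_upwards [(h.add ha.1).wd_const_mul (1 / 2) i, h.wd_add ha.1 i, ha.2 i, pos_zero h i]
    with x h1 h2 h3 h4
  rw [h1, h2, h3]
  rcases lt_trichotomy (f x) 0 with h0 | h0 | h0
  · simp [sign_neg h0, h0.not_gt]
  · simp [h4 h0]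
  · simp only [sign_pos h0, h0, if_true, SignType.coe_one]; ring

/-- Stampacchia: `f = f₊ - (-f)₊`. -/
theorem HL.wd_zero (h : HL b f) (i : ι) : ∀ᵐ x : E, f x = 0 → wd (b i) f x = 0 :=
  pos_zero h i

theorem HL.wd_eq_of_eq (h : HL b f) (h' : HL b g) (i : ι) :
    ∀ᵐ x : E, f x = g x → wd (b i) f x = wd (b i) g x := by
  filter_upwards [(h.sub h').wd_zero i, h.wd_sub h' i] with x h1 h2 h0
  exact sub_eq_zero.1 (h2 ▸ h1 (sub_eq_zero.2 h0))

/-- domination of the gradient gives `H¹` -/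
theorem pos_h1 {p : E → ℝ} (h : HL b f) (hf : MemLp f 2 volume) (hp : Integrable p)
    (hle : ∀ᵐ x : E, dot b f f x ≤ p x) : H1 b f :=
  h.h1 hf (hp.mono' (measurable_dot f f).aestronglyMeasurable (hle.mono fun x hx => by
    rwa [Real.norm_eq_abs, abs_of_nonneg (dot_self_nonneg f x)]))

theorem H1.posPart (h : H1 b f) : H1 b fun x => max (f x) 0 := by
  refine pos_h1 h.hl.posPart.1 h.1.pos_part (h.integrable_dot h) ?_
  filter_upwards [ae_all_iff.2 h.hl.posPart.2] with x hx
  refine Finset.sum_le_sum fun i _ => ?_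
  rw [hx i]
  split_ifs
  · exact le_rfl
  · rw [mul_zero]; exact mul_self_nonneg _

theorem LH.posPart (h : LH b f) : LH b fun x => max (f x) 0 :=
  ⟨h.1.posPart.1, fun R => let ⟨M, hM⟩ := h.2 R
    ⟨M, hM.mono fun x hx hR => (pos_abs_max _).trans (hx hR)⟩⟩

theorem HL.abs (h : HL b f) : HL b (fun x => |f x|) ∧
    ∀ i, wd (b i) (fun x => |f x|) =ᵐ[volume] fun x => SignType.sign (f x) * wd (b i) f x :=
  pos_abs h

theorem H1.abs (h : H1 b f) : H1 b (fun x => |f x|) ∧
    dot b (fun x => |f x|) (fun x => |f x|) =ᵐ[volume] dot b f f := by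
  have e : dot b (fun x => |f x|) (fun x => |f x|) =ᵐ[volume] dot b f f := by
    filter_upwards [ae_all_iff.2 h.hl.abs.2, ae_all_iff.2 h.hl.wd_zero] with x h1 h2
    refine Finset.sum_congr rfl fun i _ => ?_
    rw [h1 i]
    rcases lt_trichotomy (f x) 0 with h0 | h0 | h0
    · simp [sign_neg h0]
    · simp [h2 i h0]
    · simp [sign_pos h0]
  exact ⟨h.hl.abs.1.h1 h.1.abs ((h.integrable_dot h).congr e.symm), e⟩

theorem LH.max (h : LH b f) (h' : LH b g) : LH b fun x => max (f x) (g x) := by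
  refine (h'.add (h.sub h').posPart).congr (Eventually.of_forall fun x => ?_)
  rcases le_total (f x) (g x) with h0 | h0
  · simp only [max_eq_right h0, max_eq_right (sub_nonpos.2 h0), add_zero]
  · simp only [max_eq_left h0, max_eq_left (sub_nonneg.2 h0), add_sub_cancel]

theorem LH.min (h : LH b f) (h' : LH b g) : LH b fun x => min (f x) (g x) := by
  refine (h.sub (h.sub h').posPart).congr (Eventually.of_forall fun x => ?_)
  rcases le_total (f x) (g x) with h0 | h0
  · simp only [min_eq_left h0, max_eq_right (sub_nonpos.2 h0), sub_zero]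
  · simp only [min_eq_right h0, max_eq_left (sub_nonneg.2 h0), sub_sub_cancel]

theorem pos_fder {κ : Type} [Fintype κ] {ε : ℝ} (hε : 0 < ε) (t v : κ → ℝ) :
    fderiv ℝ (fun t : κ → ℝ => √(∑ j, t j ^ 2 + ε ^ 2)) t v = (∑ j, t j * v j) / √(∑ j, t j ^ 2 + ε ^ 2) := by
  have h1 : HasFDerivAt (fun t : κ → ℝ => ∑ j, t j ^ 2 + ε ^ 2) _ t :=
    (HasFDerivAt.fun_sum (u := Finset.univ) fun j _ => (hasFDerivAt_apply (𝕜 := ℝ) j t).pow 2).add_const _
  rw [(h1.sqrt (by positivity)).fderiv]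
  have : 0 < √(∑ j, t j ^ 2 + ε ^ 2) := Real.sqrt_pos.2 (by positivity)
  simp only [smul_apply, sum_apply, ContinuousLinearMap.proj_apply, smul_eq_mul, nsmul_eq_mul,
    Nat.cast_ofNat, Nat.add_one_sub_one, pow_one, mul_assoc, ← Finset.mul_sum]
  field_simp

theorem pos_quot {κ : Type} [Fintype κ] (t v : κ → ℝ) {S : ℝ} (hS : ∑ j, t j ^ 2 ≤ S) :
    |(∑ j, t j * v j) / √S| ≤ ∑ j, |v j| := by
  rw [abs_div, abs_of_nonneg (Real.sqrt_nonneg _)]
  refine div_le_of_le_mul₀ (Real.sqrt_nonneg _) (Finset.sum_nonneg fun j _ => abs_nonneg _) ?_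
  rw [Finset.sum_mul]
  refine (Finset.abs_sum_le_sum_abs _ _).trans (Finset.sum_le_sum fun j _ => ?_)
  rw [abs_mul, mul_comm]
  exact mul_le_mul_of_nonneg_left (Real.abs_le_sqrt ((Finset.single_le_sum
    (f := fun j => t j ^ 2) (fun j _ => sq_nonneg _) (Finset.mem_univ j)).trans hS)) (abs_nonneg _)

theorem pos_sqrt_le {κ : Type} [Fintype κ] (t : κ → ℝ) {ε : ℝ} (hε : 0 ≤ ε) :
    √(∑ j, t j ^ 2 + ε ^ 2) ≤ ∑ j, |t j| + ε := by
  have h0 : 0 ≤ ∑ j, |t j| := Finset.sum_nonneg fun j _ => abs_nonneg _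
  have h1 : ∑ j, t j ^ 2 ≤ (∑ j, |t j|) ^ 2 := by
    simpa only [sq_abs] using Finset.sum_sq_le_sq_sum_of_nonneg (s := Finset.univ)
      (f := fun j => |t j|) fun j _ => abs_nonneg _
  exact Real.sqrt_le_iff.2 ⟨by positivity, by nlinarith [mul_nonneg h0 hε]⟩

/-- Recipe: `√(∑ t_j² + ε²) - ε`, `HL.chain`, `WD.of_dominated`.  (Division by zero gives zero.) -/
theorem HL.norm {κ : Type} [Fintype κ] {F : κ → E → ℝ} (h : ∀ j, HL b (F j)) :
    HL b (fun x => √(∑ j, F j x ^ 2)) ∧ ∀ i, wd (b i) (fun x => √(∑ j, F j x ^ 2)) =ᵐ[volume]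
      fun x => (∑ j, F j x * wd (b i) (F j) x) / √(∑ j, F j x ^ 2) := by
  classical
  have hp : LocL2 fun x => ∑ j, |F j x| := LocL2.sum _ fun j _ => (h j).1.abs
  have hq : ∀ i, LocL2 fun x => ∑ j, |wd (b i) (F j) x| := fun i =>
    LocL2.sum _ fun j _ => ((h j).2 i).2.abs
  have key : ∀ i, WD (b i) (fun x => √(∑ j, F j x ^ 2))
      fun x => (∑ j, F j x * wd (b i) (F j) x) / √(∑ j, F j x ^ 2) := by
    intro i
    have k1 : ∀ n : ℕ, WD (b i) (fun x => √(∑ j, F j x ^ 2 + (1 / (n + 1)) ^ 2)) fun x =>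
        (∑ j, F j x * wd (b i) (F j) x) / √(∑ j, F j x ^ 2 + (1 / (n + 1)) ^ 2) := by
      intro n
      have hε := pos_eps_pos n
      have h1 := HL.chain h (Φ := fun t => √(∑ j, t j ^ 2 + (1 / (n + 1)) ^ 2)) (C := Fintype.card κ)
        (ContDiff.sqrt (by fun_prop) fun t => by positivity) fun t =>
          ContinuousLinearMap.opNorm_le_bound _ (Nat.cast_nonneg _) fun v => by
            rw [pos_fder hε, Real.norm_eq_abs]
            refine (pos_quot t v (le_add_of_nonneg_right (sq_nonneg _))).trans ?_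
            simpa using Finset.sum_le_card_nsmul Finset.univ (fun j => |v j|) ‖v‖
              fun j _ => norm_le_pi_norm v j
      refine (h1.1.2 i).1.congr EventuallyEq.rfl ((h1.2 i).trans (Eventually.of_forall fun x => ?_))
      simp only [pos_fder hε]
    refine WD.of_dominated k1 (p := fun x => ∑ j, |F j x| + 1) (q := fun x => ∑ j, |wd (b i) (F j) x|)
      (hp.locallyIntegrable.add (locallyIntegrable_const _)) (hq i).locallyIntegrable
      (fun n => Eventually.of_forall fun x => ?_) (fun n => Eventually.of_forall fun x => ?_)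
      (Eventually.of_forall fun x => ?_) (Eventually.of_forall fun x => ?_)
    · rw [abs_of_nonneg (Real.sqrt_nonneg _)]
      exact (pos_sqrt_le (fun j => F j x) (pos_eps_pos n).le).trans (by linarith [pos_eps_le n])
    · exact pos_quot (fun j => F j x) _ (le_add_of_nonneg_right (sq_nonneg _))
    · have hc : Continuous fun ε : ℝ => √(∑ j, F j x ^ 2 + ε ^ 2) := by fun_prop
      have := (hc.tendsto 0).comp pos_eps
      simpa [Function.comp_def] using this
    · by_cases h0 : ∑ j, F j x ^ 2 = 0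
      · have h1 : ∀ j, F j x = 0 := fun j => pow_eq_zero_iff two_ne_zero |>.1
          ((Finset.sum_eq_zero_iff_of_nonneg fun j _ => sq_nonneg _).1 h0 j (Finset.mem_univ j))
        simp [h1]
      · have h1 : 0 < ∑ j, F j x ^ 2 :=
          lt_of_le_of_ne (Finset.sum_nonneg fun j _ => sq_nonneg _) (Ne.symm h0)
        have hc : ContinuousAt (fun ε : ℝ => (∑ j, F j x * wd (b i) (F j) x) /
            √(∑ j, F j x ^ 2 + ε ^ 2)) 0 :=
          ContinuousAt.div (by fun_prop) (by fun_prop) (Real.sqrt_ne_zero'.2 (by simpa using h1))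
        have := hc.tendsto.comp pos_eps
        simpa [Function.comp_def] using this
  have hm : AEStronglyMeasurable (fun x => √(∑ j, F j x ^ 2)) volume :=
    Real.continuous_sqrt.comp_aestronglyMeasurable
      (Finset.aestronglyMeasurable_fun_sum _ fun j _ => (h j).1.aesm.pow 2)
  refine ⟨HL.of_wd (hp.of_le hm fun R => ⟨1, Eventually.of_forall fun x _ => ?_⟩) fun i =>
    ⟨key i, (hq i).of_le (key i).2.1.aestronglyMeasurable
      fun R => ⟨1, Eventually.of_forall fun x _ => ?_⟩⟩, fun i => (key i).wd_ae⟩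
  · rw [abs_of_nonneg (Real.sqrt_nonneg _), one_mul]
    refine le_trans ?_ (le_abs_self _)
    simpa using pos_sqrt_le (fun j => F j x) le_rfl
  · rw [one_mul]
    exact (pos_quot (fun j => F j x) _ le_rfl).trans (le_abs_self _)

theorem HL.norm2 (h : HL b f) (h' : HL b g) : HL b (fun x => √(f x ^ 2 + g x ^ 2)) ∧
    ∀ i, wd (b i) (fun x => √(f x ^ 2 + g x ^ 2)) =ᵐ[volume]
      fun x => (f x * wd (b i) f x + g x * wd (b i) g x) / √(f x ^ 2 + g x ^ 2) := by
  have := HL.norm (b := b) (F := ![f, g]) (Fin.forall_fin_two.2 ⟨h, h'⟩)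
  simpa only [Fin.sum_univ_two, Matrix.cons_val_zero, Matrix.cons_val_one] using this

theorem H1.norm2 (h : H1 b f) (h' : H1 b g) : H1 b (fun x => √(f x ^ 2 + g x ^ 2)) ∧
    dir b (fun x => √(f x ^ 2 + g x ^ 2)) (fun x => √(f x ^ 2 + g x ^ 2)) ≤
      dir b f f + dir b g g := by
  have hn := h.hl.norm2 h'.hl
  have hle : ∀ᵐ x : E, dot b (fun x => √(f x ^ 2 + g x ^ 2)) (fun x => √(f x ^ 2 + g x ^ 2)) x ≤
      dot b f f x + dot b g g x := by
    filter_upwards [ae_all_iff.2 hn.2] with x hx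
    unfold dot
    rw [← Finset.sum_add_distrib]
    refine Finset.sum_le_sum fun i _ => ?_
    rw [hx i, ← sq, div_pow, Real.sq_sqrt (by positivity)]
    refine div_le_of_le_mul₀ (by positivity) (add_nonneg (mul_self_nonneg _) (mul_self_nonneg _)) ?_
    nlinarith [sq_nonneg (f x * wd (b i) g x - g x * wd (b i) f x)]
  have hi := (h.integrable_dot h).add (h'.integrable_dot h')
  have hH : H1 b fun x => √(f x ^ 2 + g x ^ 2) := by
    refine pos_h1 hn.1 ((h.1.abs.add h'.1.abs).of_le hn.1.1.aesm (Eventually.of_forall fun x => ?_)) hi hle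
    rw [Real.norm_eq_abs, abs_of_nonneg (Real.sqrt_nonneg _)]
    refine le_trans ?_ (le_abs_self _)
    simp only [Pi.add_apply, Pi.abs_apply]
    refine Real.sqrt_le_iff.2 ⟨by positivity, ?_⟩
    nlinarith [sq_abs (f x), sq_abs (g x), mul_nonneg (abs_nonneg (f x)) (abs_nonneg (g x))]
  refine ⟨hH, ?_⟩
  unfold dir
  rw [← integral_add (h.integrable_dot h) (h'.integrable_dot h')]
  exact integral_mono_ae (hH.integrable_dot hH) hi hle

theorem pos_theta {ε : ℝ} (hε : 0 < ε) (t : ℝ) :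
    0 ≤ deriv (fun t => t / √(t ^ 2 + ε ^ 2)) t ∧ deriv (fun t => t / √(t ^ 2 + ε ^ 2)) t ≤ 1 / ε := by
  have h1 := pos_der 0 hε t
  simp only [sub_zero] at h1
  have hS : 0 < √(t ^ 2 + ε ^ 2) := Real.sqrt_pos.2 (by positivity)
  have h2 : ε ≤ √(t ^ 2 + ε ^ 2) := Real.le_sqrt_of_sq_le (by nlinarith)
  have h3 : √(t ^ 2 + ε ^ 2) ^ 2 = t ^ 2 + ε ^ 2 := Real.sq_sqrt (by positivity)
  have h4 : HasDerivAt (fun t => t / √(t ^ 2 + ε ^ 2)) _ t := (hasDerivAt_id' t).div h1 hS.ne'
  rw [h4.deriv]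
  generalize √(t ^ 2 + ε ^ 2) = S at hS h2 h3
  have e : (1 * S - t * (t / S)) / S ^ 2 = ε ^ 2 / S ^ 3 := by
    field_simp
    linarith
  rw [e]
  refine ⟨by positivity, ?_⟩
  rw [div_le_div_iff₀ (by positivity) hε]
  calc ε ^ 2 * ε = ε ^ 3 := by ring
    _ ≤ S ^ 3 := by gcongr
    _ = 1 * S ^ 3 := by ring

theorem pos_theta_lim (t : ℝ) :
    Tendsto (fun n : ℕ => t / √(t ^ 2 + (1 / (n + 1)) ^ 2)) atTop (𝓝 (SignType.sign t)) := by
  by_cases h0 : t = 0
  · simp [h0]
  · have hc : ContinuousAt (fun ε : ℝ => t / √(t ^ 2 + ε ^ 2)) 0 :=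
      ContinuousAt.div (by fun_prop) (by fun_prop) (Real.sqrt_ne_zero'.2 (by simpa [sq_pos_iff] using h0))
    have := hc.tendsto.comp pos_eps
    rw [← pos_sign]
    simpa [Function.comp_def] using this

theorem pos_dct (hf : AEStronglyMeasurable f volume) {w : E → ℝ} (hw : Integrable w) :
    Tendsto (fun n : ℕ => ∫ x, f x / √(f x ^ 2 + (1 / (n + 1)) ^ 2) * w x) atTop
      (𝓝 (∫ x, SignType.sign (f x) * w x)) := by
  refine tendsto_integral_of_dominated_convergence (fun x => ‖w x‖) (fun n => ?_) hw.norm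
    (fun n => Eventually.of_forall fun x => ?_)
    (Eventually.of_forall fun x => (pos_theta_lim (f x)).mul_const _)
  · have hε := pos_eps_pos n
    have hc : Continuous fun t : ℝ => t / √(t ^ 2 + (1 / (n + 1)) ^ 2) :=
      Continuous.div (by fun_prop) (by fun_prop) fun t => Real.sqrt_ne_zero'.2 (by positivity)
    exact (hc.comp_aestronglyMeasurable hf).mul hw.aestronglyMeasurable
  · rw [norm_mul]
    exact mul_le_of_le_one_left (norm_nonneg _) (pos_div_le (pos_eps_pos n))

/-- Kato's inequality for `|f|`: test the equation with `φ f / √(f² + ε²)`. -/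
theorem H1.kato {s : E → ℝ} (h : H1 b f) (hs : MemLp s 2 volume)
    (he : ∀ ψ : E → ℝ, H1 b ψ → dir b f ψ = ip s ψ) {φ : E → ℝ} (hφ : Tst φ) (h0 : ∀ x, 0 ≤ φ x) :
    dir b (fun x => |f x|) φ ≤ ∫ x, SignType.sign (f x) * s x * φ x := by
  have hd := h.integrable_dot (hφ.h1 (b := b))
  have e1 : dir b (fun x => |f x|) φ = ∫ x, SignType.sign (f x) * dot b f φ x := by
    refine integral_congr_ae ?_
    filter_upwards [ae_all_iff.2 h.hl.abs.2] with x hx
    simp only [dot, hx, Finset.mul_sum, mul_assoc]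
  have e2 : ∫ x, SignType.sign (f x) * s x * φ x = ∫ x, SignType.sign (f x) * (s x * φ x) := by
    simp only [mul_assoc]
  rw [e1, e2]
  refine le_of_tendsto_of_tendsto' (pos_dct h.1.1 hd) (pos_dct h.1.1 (hs.integrable_mul hφ.memLp))
    fun n => ?_
  have hε := pos_eps_pos n
  generalize (1 : ℝ) / (n + 1) = ε at hε
  have hc : ContDiff ℝ 1 fun t : ℝ => t / √(t ^ 2 + ε ^ 2) :=
    ContDiff.div contDiff_id (ContDiff.sqrt (by fun_prop) fun t => by positivity)
      fun t => Real.sqrt_ne_zero'.2 (by positivity)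
  have h1 := h.hl.chain1 hc (C := 1 / ε) fun t => by
    rw [abs_of_nonneg (pos_theta hε t).1]; exact (pos_theta hε t).2
  have h2 := h1.1.mul_contDiff hφ.1
  have h3 := h1.1.h1_mul_tst hφ
  have h4 := he _ h3
  calc ∫ x, f x / √(f x ^ 2 + ε ^ 2) * dot b f φ x
      ≤ dir b f fun x => φ x * (f x / √(f x ^ 2 + ε ^ 2)) := by
        refine integral_mono_ae (hd.bdd_mul (c := 1) h1.1.1.aesm
          (Eventually.of_forall fun x => pos_div_le hε)) (h.integrable_dot h3) ?_
        filter_upwards [ae_all_iff.2 h1.2, ae_all_iff.2 h2.2,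
          ae_all_iff.2 fun i => wd_contDiff hφ.1 (b i)] with x k1 k2 k3
        simp only [dot, Finset.mul_sum]
        refine Finset.sum_le_sum fun i _ => ?_
        rw [k2 i, k1 i, k3 i]
        have := mul_nonneg (mul_nonneg (h0 x) (pos_theta hε (f x)).1) (mul_self_nonneg (wd (b i) f x))
        linarith
    _ = ∫ x, f x / √(f x ^ 2 + ε ^ 2) * (s x * φ x) := by
        rw [h4, ip]
        exact integral_congr_ae (Eventually.of_forall fun x => by ring)

end Crest.Agent.R335
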