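/-
R335/T/PotD: integrals of Coulomb kernels and exponentials (helper77)
-/
import Crest.Agent.R335.T.Pos
import Crest.Agent.R338.Kern

set_option autoImplicit false
set_option linter.unusedSectionVars false
set_option linter.unusedVariables false
set_option linter.unusedSimpArgs false

noncomputable section

namespace Crest.Agent.R335

open MeasureTheory Set Filter Topology Metric
open scoped ENNReal

theorem potd_int (p : X) {s : Set X} (hs : Bornology.IsBounded s) :
    IntegrableOn (fun y : X => 1 / ‖y - p‖) s volume := by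
  simpa only [R338.Kn, norm_sub_rev p] using R338.integrableOn_Kn p hs

theorem potd_li_inv (p : X) : LI univ fun x : X => 1 / ‖x - p‖ := fun R =>
  potd_int p (isBounded_closedBall.subset inter_subset_right)

theorem potd_li_V (D : ℝ) : LI univ (V D) := fun R => by
  refine ((potd_li_inv (nuc D) R).neg.sub (potd_li_inv (-nuc D) R)).congr (.of_forall fun x => ?_)
  simp only [Pi.sub_apply, Pi.neg_apply, V, tp, tm, sub_neg_eq_add, neg_div]

theorem potd_translate (h : X → ℝ) (x : X) (t : ℝ) :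
    ∫ y in ball x t, h y = ∫ w in ball (0 : X) t, h (w + x) := by
  rw [← (measurePreserving_add_right (volume : Measure X) x).setIntegral_preimage_emb
    (measurableEmbedding_addRight x)]
  congr 2
  ext w
  simp [mem_ball_iff_norm]

theorem potd_ball_inv : ∃ C : ℝ, 0 < C ∧ ∀ (x p : X) (t : ℝ), 0 < t →
    IntegrableOn (fun y : X => 1 / ‖y - p‖) (ball x t) ∧
      ∫ y in ball x t, 1 / ‖y - p‖ ≤ C * t ^ 2 := by
  obtain ⟨C, hC⟩ := R338.int_ball_one
  refine ⟨max C 1, lt_max_of_lt_right one_pos, fun x p t ht => ⟨potd_int p isBounded_ball, ?_⟩⟩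
  rw [potd_translate]
  refine le_trans (le_of_eq ?_) ((hC (p - x) t ht).trans
    (mul_le_mul_of_nonneg_right (le_max_left _ _) (sq_nonneg _)))
  refine integral_congr_ae (.of_forall fun w => ?_)
  simp only [R338.Kn]
  rw [norm_sub_rev]
  congr 2
  abel

theorem potd_ex {a : ℝ} (ha : 0 < a) (p : X) (k : ℕ) :
    Integrable fun x : X => ‖x - p‖ ^ k * Real.exp (-a * ‖x - p‖) := by
  refine Integrable.comp_sub_right (f := fun x : X => ‖x‖ ^ k * Real.exp (-a * ‖x‖)) ?_ p
  have h1 := (integrable_one_add_norm (E := X) (μ := volume) (r := 4) (by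
    rw [R338.Kern_finrank]; norm_num)).const_mul ((k + 4).factorial / a ^ (k + 4) * Real.exp a)
  refine h1.mono' (by fun_prop) (.of_forall fun x => ?_)
  have h2 : 0 < 1 + ‖x‖ := by positivity
  have h3 := Real.pow_div_factorial_le_exp (a * (1 + ‖x‖)) (by positivity) (k + 4)
  have h4 : ‖x‖ ^ k ≤ (1 + ‖x‖) ^ k := pow_le_pow_left₀ (norm_nonneg _) (by linarith) k
  rw [Real.norm_of_nonneg (by positivity), Real.rpow_neg h2.le,
    show (4 : ℝ) = ((4 : ℕ) : ℝ) by norm_num, Real.rpow_natCast, ← div_eq_mul_inv,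
    le_div_iff₀ (by positivity), neg_mul, Real.exp_neg]
  rw [div_le_iff₀ (by positivity), mul_pow, mul_add, mul_one, Real.exp_add, pow_add (1 + ‖x‖)] at h3
  have h5 : 0 < Real.exp (a * ‖x‖) := Real.exp_pos _
  calc ‖x‖ ^ k * (Real.exp (a * ‖x‖))⁻¹ * (1 + ‖x‖) ^ 4
      ≤ (1 + ‖x‖) ^ k * (Real.exp (a * ‖x‖))⁻¹ * (1 + ‖x‖) ^ 4 := by gcongr
    _ = a ^ (k + 4) * ((1 + ‖x‖) ^ k * (1 + ‖x‖) ^ 4) * ((Real.exp (a * ‖x‖))⁻¹ / a ^ (k + 4)) := by
        field_simp
    _ ≤ Real.exp a * Real.exp (a * ‖x‖) * (k + 4).factorial *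
        ((Real.exp (a * ‖x‖))⁻¹ / a ^ (k + 4)) := by gcongr
    _ = _ := by field_simp

theorem potd_exp_inv_sq {a : ℝ} (ha : 0 < a) : ∃ C : ℝ, 0 < C ∧ ∀ x : X,
    (Integrable fun y : X => Real.exp (-a * ‖y‖) * (1 / ‖x - y‖) ^ 2) ∧
      ∫ y : X, Real.exp (-a * ‖y‖) * (1 / ‖x - y‖) ^ 2 ≤ C := by
  obtain ⟨C, hC⟩ := R338.int_ball_two
  have i1 : Integrable fun y : X => Real.exp (-a * ‖y‖) := by simpa using potd_ex ha 0 0
  refine ⟨max (C + ∫ y : X, Real.exp (-a * ‖y‖)) 1, lt_max_of_lt_right one_pos, fun x => ?_⟩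
  have i2 : Integrable ((ball x 1).indicator fun y : X => (1 / ‖x - y‖) ^ 2) :=
    (R338.integrableOn_Kn_sq x isBounded_ball).integrable_indicator measurableSet_ball
  have hle : ∀ y : X, Real.exp (-a * ‖y‖) * (1 / ‖x - y‖) ^ 2 ≤
      (ball x 1).indicator (fun y : X => (1 / ‖x - y‖) ^ 2) y + Real.exp (-a * ‖y‖) := fun y => by
    by_cases hy : y ∈ ball x 1
    · rw [indicator_of_mem hy]
      refine le_add_of_le_of_nonneg (mul_le_of_le_one_left (sq_nonneg _) ?_) (Real.exp_pos _).le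
      exact Real.exp_le_one_iff.2 (mul_nonpos_of_nonpos_of_nonneg (by linarith) (norm_nonneg _))
    · rw [indicator_of_notMem hy, zero_add]
      rw [mem_ball_iff_norm', not_lt] at hy
      exact mul_le_of_le_one_right (Real.exp_pos _).le
        (pow_le_one₀ (by positivity) (div_le_one_of_le₀ hy (norm_nonneg _)))
  have i3 : Integrable fun y : X => Real.exp (-a * ‖y‖) * (1 / ‖x - y‖) ^ 2 :=
    (i2.add i1).mono' (Measurable.aestronglyMeasurable (by fun_prop)) (.of_forall fun y => by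
      rw [Real.norm_of_nonneg (by positivity)]
      exact hle y)
  refine ⟨i3, (integral_mono i3 (i2.add i1) hle).trans (le_trans ?_ (le_max_left _ _))⟩
  simp only [Pi.add_apply]
  rw [integral_add i2 i1, integral_indicator measurableSet_ball, potd_translate]
  refine add_le_add_left (le_trans (le_of_eq ?_) ((hC 0 1 one_pos).trans_eq (mul_one C))) _
  refine integral_congr_ae (.of_forall fun w => ?_)
  simp only [R338.Kn]
  congr 3
  abel

theorem potd_lh_norm (p : X) : LH eX (fun x => ‖x - p‖) ∧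
    ∀ i, wd (eX i) (fun x => ‖x - p‖) =ᵐ[volume] fun x => (x - p) i / ‖x - p‖ := by
  have cd : ∀ j : Fin 3, ContDiff ℝ 1 fun x : X => (x - p) j := fun j =>
    (EuclideanSpace.proj j : X →L[ℝ] ℝ).contDiff.comp (contDiff_id.sub contDiff_const)
  have fd : ∀ (i j : Fin 3) (x : X), fderiv ℝ (fun x : X => (x - p) j) x (eX i) = eX i j :=
    fun i j x => by
      have a1 : HasFDerivAt (fun x : X => (x - p) j) _ x :=
        (EuclideanSpace.proj j : X →L[ℝ] ℝ).hasFDerivAt.comp x ((hasFDerivAt_id x).sub_const p)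
      rw [a1.fderiv]
      rfl
  obtain ⟨h1, h2⟩ := HL.norm (b := eX) (F := fun j (x : X) => (x - p) j)
    fun j => (LH.of_contDiff (cd j)).1
  have e : ∀ x : X, √(∑ j, (x - p) j ^ 2) = ‖x - p‖ := fun x => by
    simp only [EuclideanSpace.norm_eq, Real.norm_eq_abs, sq_abs]
  simp only [e] at h1 h2
  refine ⟨⟨h1, .of_continuous (by fun_prop)⟩, fun i => ?_⟩
  filter_upwards [h2 i, ae_all_iff.2 fun j => wd_contDiff (cd j) (eX i)] with x a1 a2
  simp only [a1, a2, fd]
  simp [eX, Pi.single_apply]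

end Crest.Agent.R335
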