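/-
R335/T/Slice: product spaces: slices, tensor products, partial integrals
Skeleton by helper48 (row 335); keep the statements unchanged, add any helper lemmas you like.
-/
import Crest.Agent.R335.T.Chain
import Crest.Agent.R335.T.Cov

set_option autoImplicit false
set_option linter.unusedSectionVars false
set_option linter.unusedVariables false
set_option linter.unusedSimpArgs false

noncomputable section

namespace Crest.Agent.R335

open MeasureTheory Set Filter Topology Metric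
open scoped ENNReal

variable {E : Type} [NormedAddCommGroup E] [NormedSpace ℝ E] [FiniteDimensional ℝ E]
  [MeasureSpace E] [BorelSpace E] [(volume : Measure E).IsAddHaarMeasure]
  {ι : Type} [Fintype ι] {b : ι → E}
  {E' : Type} [NormedAddCommGroup E'] [NormedSpace ℝ E'] [FiniteDimensional ℝ E']
  [MeasureSpace E'] [BorelSpace E'] [(volume : Measure E').IsAddHaarMeasure]
  {ι' : Type} [Fintype ι'] {b' : ι' → E'}

variable {F G : E × E' → ℝ}

theorem ip_prod (hF : MemLp F 2 volume) (hG : MemLp G 2 volume) :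
    (Integrable fun x => ∫ y, F (x, y) * G (x, y)) ∧ ip F G = ∫ x, ∫ y, F (x, y) * G (x, y) := by
  have h : Integrable (fun p => F p * G p) ((volume : Measure E).prod (volume : Measure E')) :=
    hF.integrable_mul hG
  exact ⟨h.integral_prod_left, integral_prod _ h⟩

theorem ip_prod' (hF : MemLp F 2 volume) (hG : MemLp G 2 volume) :
    (Integrable fun y => ∫ x, F (x, y) * G (x, y)) ∧ ip F G = ∫ y, ∫ x, F (x, y) * G (x, y) := by
  have h : Integrable (fun p => F p * G p) ((volume : Measure E).prod (volume : Measure E')) :=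
    hF.integrable_mul hG
  exact ⟨h.integral_prod_right, integral_prod_symm _ h⟩

theorem memLp_slice (hF : MemLp F 2 volume) : ∀ᵐ x : E, MemLp (fun y => F (x, y)) 2 volume := by
  have h : Integrable (fun p => F p ^ 2) ((volume : Measure E).prod (volume : Measure E')) :=
    hF.integrable_sq
  filter_upwards [h.prod_right_ae, AEStronglyMeasurable.prodMk_left (μ := volume) (ν := volume) hF.1]
    with x h1 h2 using (memLp_two_iff_integrable_sq h2).2 h1

theorem memLp_slice' (hF : MemLp F 2 volume) : ∀ᵐ y : E', MemLp (fun x => F (x, y)) 2 volume := by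
  have h : Integrable (fun p => F p ^ 2) ((volume : Measure E).prod (volume : Measure E')) :=
    hF.integrable_sq
  filter_upwards [h.prod_left_ae, AEStronglyMeasurable.prodMk_right (μ := volume) (ν := volume) hF.1]
    with x h1 h2 using (memLp_two_iff_integrable_sq h2).2 h1

theorem slice_ae {p : E × E' → Prop} (h : ∀ᵐ z : E × E', p z) : ∀ᵐ x : E, ∀ᵐ y : E', p (x, y) :=
  Measure.ae_ae_of_ae_prod h

theorem slice_mp : MeasurePreserving (Prod.swap : E' × E → E × E') volume volume :=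
  Measure.measurePreserving_swap

theorem slice_ae' {p : E × E' → Prop} (h : ∀ᵐ z : E × E', p z) : ∀ᵐ y : E', ∀ᵐ x : E, p (x, y) :=
  slice_ae (slice_mp.quasiMeasurePreserving.ae h)

theorem slice_fst {p : E → Prop} (h : ∀ᵐ x : E, p x) : ∀ᵐ z : E × E', p z.1 :=
  Measure.quasiMeasurePreserving_fst.ae h

theorem slice_snd {p : E' → Prop} (h : ∀ᵐ x : E', p x) : ∀ᵐ z : E × E', p z.2 :=
  Measure.quasiMeasurePreserving_snd.ae h

/-- Along a subsequence almost all slices converge in `L²`. -/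
theorem slice_subseq {κ : Type} [Fintype κ] {Φ : κ → ℕ → E × E' → ℝ} {f : κ → E × E' → ℝ}
    (hΦ : ∀ j n, MemLp (Φ j n) 2 volume) (hf : ∀ j, MemLp (f j) 2 volume)
    (h : ∀ j, L2to (Φ j) (f j)) : ∃ ns : ℕ → ℕ, StrictMono ns ∧
      ∀ᵐ x : E, ∀ j, L2to (fun n y => Φ j (ns n) (x, y)) fun y => f j (x, y) := by
  have hi : ∀ j n, Integrable (fun p => (Φ j n p - f j p) ^ 2)
      ((volume : Measure E).prod (volume : Measure E')) := fun j n =>
    ((hΦ j n).sub (hf j)).integrable_sq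
  have e : ∀ j n x, √(∫ y, (Φ j n (x, y) - f j (x, y)) ^ 2) ^ 2 =
      ∫ y, (Φ j n (x, y) - f j (x, y)) ^ 2 := fun j n x =>
    Real.sq_sqrt (integral_nonneg fun y => sq_nonneg _)
  obtain ⟨ns, h1, h2⟩ := exists_subseq_ae
    (F := fun j n x => √(∫ y, (Φ j n (x, y) - f j (x, y)) ^ 2)) (f := fun _ _ => 0)
    (fun j n => (memLp_two_iff_integrable_sq (Real.continuous_sqrt.comp_aestronglyMeasurable
      (hi j n).integral_prod_left.1)).2 (by simpa only [e] using (hi j n).integral_prod_left))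
    (fun _ => MemLp.zero') fun j => by
      refine Tendsto.congr (fun n => ?_) (h j)
      simp only [sub_zero, e]
      exact integral_prod _ (hi j n)
  refine ⟨ns, h1, h2.mono fun x hx j => ?_⟩
  simpa only [e, zero_pow two_ne_zero, L2to] using (hx j).pow 2

theorem slice_fderiv {φ : E × E' → ℝ} (h : ContDiff ℝ 1 φ) (x : E) (y v : E') :
    fderiv ℝ (fun y => φ (x, y)) y v = fderiv ℝ φ (x, y) (0, v) := by
  exact congrArg (· v)
    ((h.differentiable one_ne_zero _).hasFDerivAt.comp y (hasFDerivAt_prodMk_right x y)).fderiv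

theorem slice_tst {φ : E × E' → ℝ} (h : Tst φ) (x : E) : Tst fun y => φ (x, y) := by
  refine ⟨h.1.comp (contDiff_prodMk_right x), ?_⟩
  obtain ⟨R, hR⟩ := h.2.isCompact.isBounded.subset_closedBall (0 : E × E')
  refine HasCompactSupport.intro (isCompact_closedBall (0 : E') R) fun y hy =>
    image_eq_zero_of_notMem_tsupport fun h' => hy ?_
  exact mem_closedBall_zero_iff.2 ((norm_snd_le (x, y)).trans (mem_closedBall_zero_iff.1 (hR h')))

theorem slice_swap_wd {v : E × E'} {W W' : E × E' → ℝ} (h : WD v W W') :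
    WD v.swap (fun p : E' × E => W p.swap) fun p => W' p.swap :=
  WD.comp_equiv (ContinuousLinearEquiv.prodComm ℝ E' E) slice_mp (v := v.swap) h

theorem slice_swap (h : H1 (pb b b') F) : H1 (pb b' b) (fun p => F p.swap) ∧
    (∀ i, wd (pb b' b (.inr i)) (fun p => F p.swap) =ᵐ[volume]
      fun p => wd (pb b b' (.inl i)) F p.swap) :=
  ⟨(cov_swap b' b).h1 h, fun i => (slice_swap_wd (h.2 (.inl i)).1).wd_ae⟩

/-- Recipe: `H1.approx`; along a subsequence the slices of the approximations converge in `L²`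
for a.e. `x` (the integrals over `y` tend to zero in `L¹(dx)`); `WD.of_L2to`. -/
theorem H1.slice_right (h : H1 (pb b b') F) : ∀ᵐ x : E, H1 b' (fun y => F (x, y)) ∧
    ∀ j, wd (b' j) (fun y => F (x, y)) =ᵐ[volume] fun y => wd (pb b b' (.inr j)) F (x, y) := by
  obtain ⟨φ, h1, h2, h3, -⟩ := h.approx
  obtain ⟨ns, hns, h4⟩ := slice_subseq (κ := Option ι')
    (Φ := fun j n => j.elim (φ n) fun j p => fderiv ℝ (φ n) p (pb b b' (.inr j)))
    (f := fun j => j.elim F fun j => wd (pb b b' (.inr j)) F)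
    (fun j n => by cases j; exacts [(h1 n).memLp, (h1 n).memLp_d _])
    (fun j => by cases j; exacts [h.1, (h.2 _).2]) fun j => by cases j; exacts [h2, h3 _]
  filter_upwards [h4, memLp_slice h.1, ae_all_iff.2 fun j => memLp_slice (h.2 (.inr j)).2]
    with x a1 a2 a3
  have hw : ∀ j, WD (b' j) (fun y => F (x, y)) fun y => wd (pb b b' (.inr j)) F (x, y) := fun j =>
    WD.of_L2to (fun n => WD.of_contDiff (b' j) (slice_tst (h1 (ns n)) x).1)
      (fun n => (slice_tst (h1 (ns n)) x).memLp) (fun n => (slice_tst (h1 (ns n)) x).memLp_d _) a2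
      (a3 j) (a1 none) ((a1 (some j)).congr
        (fun n => .of_forall fun y => (slice_fderiv (h1 _).1 x y _).symm) (EventuallyEq.refl _ _))
  exact ⟨.of_wd a2 fun j => ⟨hw j, a3 j⟩, fun j => (hw j).wd_ae⟩

theorem H1.slice_left (h : H1 (pb b b') F) : ∀ᵐ y : E', H1 b (fun x => F (x, y)) ∧
    ∀ i, wd (b i) (fun x => F (x, y)) =ᵐ[volume] fun x => wd (pb b b' (.inl i)) F (x, y) := by
  obtain ⟨h1, h2⟩ := slice_swap h
  filter_upwards [h1.slice_right, ae_all_iff.2 fun i => slice_ae (h2 i)] with y a1 a2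
  exact ⟨a1.1, fun i => (a1.2 i).trans (a2 i)⟩

/-- The part of the Dirichlet form in the first variable. -/
def dirx (b : ι → E) (b' : ι' → E') (F G : E × E' → ℝ) : ℝ :=
  ∑ i, ip (wd (pb b b' (.inl i)) F) (wd (pb b b' (.inl i)) G)

theorem H1.dir_pb (h : H1 (pb b b') F) (h' : H1 (pb b b') G) :
    (Integrable fun x => dir b' (fun y => F (x, y)) fun y => G (x, y)) ∧
    dir (pb b b') F G = dirx b b' F G + ∫ x, dir b' (fun y => F (x, y)) fun y => G (x, y) := by
  have e : ∀ᵐ x : E, ∑ j, ∫ y, wd (pb b b' (.inr j)) F (x, y) * wd (pb b b' (.inr j)) G (x, y) =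
      dir b' (fun y => F (x, y)) fun y => G (x, y) := by
    filter_upwards [h.slice_right, h'.slice_right] with x a1 a2
    rw [a1.1.dir_eq_sum a2.1]
    refine Finset.sum_congr rfl fun j _ => integral_congr_ae ?_
    filter_upwards [a1.2 j, a2.2 j] with y b1 b2
    rw [b1, b2]
  have i1 := fun j => ip_prod (h.2 (.inr j)).2 (h'.2 (.inr j)).2
  refine ⟨(integrable_finsetSum _ fun j _ => (i1 j).1).congr e, ?_⟩
  rw [h.dir_eq_sum h', Fintype.sum_sum_type, ← integral_congr_ae e,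
    integral_finsetSum _ fun j _ => (i1 j).1]
  simp only [dirx, fun j => (i1 j).2]

theorem H1.dirx_eq (h : H1 (pb b b') F) (h' : H1 (pb b b') G) :
    (Integrable fun y => dir b (fun x => F (x, y)) fun x => G (x, y)) ∧
    dirx b b' F G = ∫ y, dir b (fun x => F (x, y)) fun x => G (x, y) := by
  have e : ∀ᵐ y : E', ∑ i, ∫ x, wd (pb b b' (.inl i)) F (x, y) * wd (pb b b' (.inl i)) G (x, y) =
      dir b (fun x => F (x, y)) fun x => G (x, y) := by
    filter_upwards [h.slice_left, h'.slice_left] with x a1 a2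
    rw [a1.1.dir_eq_sum a2.1]
    refine Finset.sum_congr rfl fun j _ => integral_congr_ae ?_
    filter_upwards [a1.2 j, a2.2 j] with y b1 b2
    rw [b1, b2]
  have i1 := fun j => ip_prod' (h.2 (.inl j)).2 (h'.2 (.inl j)).2
  refine ⟨(integrable_finsetSum _ fun j _ => (i1 j).1).congr e, ?_⟩
  rw [← integral_congr_ae e, integral_finsetSum _ fun j _ => (i1 j).1]
  simp only [dirx, fun j => (i1 j).2]

theorem memLp_tensor {f : E → ℝ} {g : E' → ℝ} (hf : MemLp f 2 volume) (hg : MemLp g 2 volume) :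
    MemLp (fun p : E × E' => f p.1 * g p.2) 2 volume := by
  refine (memLp_two_iff_integrable_sq (hf.1.comp_fst.mul hg.1.comp_snd)).2 ?_
  simpa only [Pi.mul_apply, mul_pow] using hf.integrable_sq.mul_prod hg.integrable_sq

theorem slice_tensor_wd {f : E → ℝ} {g g' : E' → ℝ} {v : E'} (hf : MemLp f 2 volume)
    (hg : MemLp g 2 volume) (hg' : MemLp g' 2 volume) (h : WD v g g') :
    WD ((0 : E), v) (fun p : E × E' => f p.1 * g p.2) fun p => f p.1 * g' p.2 := by
  refine ⟨(memLp_tensor hf hg).locallyIntegrable one_le_two,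
    (memLp_tensor hf hg').locallyIntegrable one_le_two, fun φ hφ => ?_⟩
  refine (ip_prod (memLp_tensor hf hg) (hφ.memLp_d _)).2.trans ?_
  rw [← ip, (ip_prod (memLp_tensor hf hg') hφ.memLp).2, ← integral_neg]
  refine integral_congr_ae (.of_forall fun x => ?_)
  simp only [mul_assoc, integral_const_mul, ← slice_fderiv hφ.1, h.2.2 _ (slice_tst hφ x), mul_neg]

theorem H1.tensor {f : E → ℝ} {g : E' → ℝ} (h : H1 b f) (h' : H1 b' g) :
    H1 (pb b b') (fun p => f p.1 * g p.2) ∧
    (∀ i, wd (pb b b' (.inl i)) (fun p => f p.1 * g p.2) =ᵐ[volume]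
      fun p => wd (b i) f p.1 * g p.2) ∧
    ∀ j, wd (pb b b' (.inr j)) (fun p => f p.1 * g p.2) =ᵐ[volume]
      fun p => f p.1 * wd (b' j) g p.2 := by
  have h1 : ∀ i, WD (pb b b' (.inl i)) (fun p : E × E' => f p.1 * g p.2)
      fun p => wd (b i) f p.1 * g p.2 := fun i =>
    (slice_swap_wd (slice_tensor_wd h'.1 h.1 (h.2 i).2 (h.2 i).1)).congr
      (.of_forall fun p => mul_comm _ _) (.of_forall fun p => mul_comm _ _)
  have h2 : ∀ j, WD (pb b b' (.inr j)) (fun p : E × E' => f p.1 * g p.2)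
      fun p => f p.1 * wd (b' j) g p.2 := fun j => slice_tensor_wd h.1 h'.1 (h'.2 j).2 (h'.2 j).1
  refine ⟨⟨memLp_tensor h.1 h'.1, ?_⟩, fun i => (h1 i).wd_ae, fun j => (h2 j).wd_ae⟩
  rintro (i | j)
  · exact ⟨(h1 i).wd, (memLp_tensor (h.2 i).2 h'.1).ae_eq (h1 i).wd_ae.symm⟩
  · exact ⟨(h2 j).wd, (memLp_tensor h.1 (h'.2 j).2).ae_eq (h2 j).wd_ae.symm⟩

theorem ip_tensor (f f' : E → ℝ) (g g' : E' → ℝ) :
    ip (fun p : E × E' => f p.1 * g p.2) (fun p => f' p.1 * g' p.2) = ip f f' * ip g g' := by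
  simp only [ip, mul_mul_mul_comm (f _)]
  exact integral_prod_mul (fun x => f x * f' x) fun y => g y * g' y

theorem H1.dir_tensor {f f' : E → ℝ} {g g' : E' → ℝ} (h : H1 b f) (h1 : H1 b f') (h' : H1 b' g)
    (h1' : H1 b' g') : dir (pb b b') (fun p => f p.1 * g p.2) (fun p => f' p.1 * g' p.2) =
      dir b f f' * ip g g' + ip f f' * dir b' g g' := by
  obtain ⟨a1, a2, a3⟩ := h.tensor h'
  obtain ⟨b1, b2, b3⟩ := h1.tensor h1'
  rw [a1.dir_eq_sum b1, Fintype.sum_sum_type, h.dir_eq_sum h1, h'.dir_eq_sum h1', Finset.sum_mul,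
    Finset.mul_sum]
  congr 1 <;> refine Finset.sum_congr rfl fun i _ => ?_ <;> rw [← ip_tensor] <;>
    refine integral_congr_ae ?_
  · filter_upwards [a2 i, b2 i] with p c1 c2
    rw [c1, c2]
  · filter_upwards [a3 i, b3 i] with p c1 c2
    rw [c1, c2]

/-- Partial integral against an `L²` function of the second variable. -/
theorem memLp_partial {Ψ : E' → ℝ} (hΨ : MemLp Ψ 2 volume) (hF : MemLp F 2 volume) :
    MemLp (fun x => ∫ y, Ψ y * F (x, y)) 2 volume ∧
    (∀ f : E → ℝ, MemLp f 2 volume →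
      ip f (fun x => ∫ y, Ψ y * F (x, y)) = ip (fun p : E × E' => f p.1 * Ψ p.2) F) ∧
    ∫ x, (∫ y, Ψ y * F (x, y)) ^ 2 ≤ ip Ψ Ψ * ip F F := by
  have hm : AEStronglyMeasurable (fun x => ∫ y, Ψ y * F (x, y)) volume :=
    AEStronglyMeasurable.integral_prod_right' (f := fun p : E × E' => Ψ p.2 * F p)
      (hΨ.1.comp_snd.mul hF.1)
  obtain ⟨i1, e1⟩ := ip_prod hF hF
  have hle : ∀ᵐ x : E, (∫ y, Ψ y * F (x, y)) ^ 2 ≤ ip Ψ Ψ * ∫ y, F (x, y) * F (x, y) :=
    (memLp_slice hF).mono fun x hx => ip_sq_le hΨ hx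
  have i2 : Integrable fun x => (∫ y, Ψ y * F (x, y)) ^ 2 :=
    (i1.const_mul _).mono' (hm.pow 2) (hle.mono fun x hx => by rwa [Real.norm_of_nonneg (sq_nonneg _)])
  refine ⟨(memLp_two_iff_integrable_sq hm).2 i2, fun f hf => ?_, ?_⟩
  · rw [(ip_prod (memLp_tensor hf hΨ) hF).2]
    simp only [ip, mul_assoc, integral_const_mul]
  · rw [e1, ← integral_const_mul]
    exact integral_mono_ae i2 (i1.const_mul _) hle

theorem slice_ip_swap (F G : E × E' → ℝ) :
    ip (fun p : E' × E => F p.swap) (fun p => G p.swap) = ip F G :=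
  integral_prod_swap fun p => F p * G p

theorem memLp_partial' {ψ : E → ℝ} (hψ : MemLp ψ 2 volume) (hF : MemLp F 2 volume) :
    MemLp (fun y => ∫ x, ψ x * F (x, y)) 2 volume ∧
    (∀ g : E' → ℝ, MemLp g 2 volume →
      ip g (fun y => ∫ x, ψ x * F (x, y)) = ip (fun p : E × E' => ψ p.1 * g p.2) F) ∧
    ∫ y, (∫ x, ψ x * F (x, y)) ^ 2 ≤ ip ψ ψ * ip F F := by
  obtain ⟨h1, h2, h3⟩ := memLp_partial hψ (hF.comp_measurePreserving slice_mp)
  refine ⟨h1, fun g hg => (h2 g hg).trans ?_, h3.trans_eq (congrArg _ (slice_ip_swap F F))⟩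
  rw [← slice_ip_swap (fun p : E × E' => ψ p.1 * g p.2) F]
  simp only [Prod.fst_swap, Prod.snd_swap, mul_comm]
  rfl

/-- Test `WD` of `F` with `φ ⊗ ψ n`, `ψ n → Ψ` in `L²`, or use `H1.ibp` with `H1.tensor`. -/
theorem H1.partial {Ψ : E' → ℝ} (hΨ : MemLp Ψ 2 volume) (h : H1 (pb b b') F) :
    H1 b (fun x => ∫ y, Ψ y * F (x, y)) ∧ ∀ i, wd (b i) (fun x => ∫ y, Ψ y * F (x, y)) =ᵐ[volume]
      fun x => ∫ y, Ψ y * wd (pb b b' (.inl i)) F (x, y) := by
  have h1 := memLp_partial hΨ h.1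
  have h2 := fun i => memLp_partial hΨ (h.2 (.inl i)).2
  have hw : ∀ i, WD (b i) (fun x => ∫ y, Ψ y * F (x, y))
      fun x => ∫ y, Ψ y * wd (pb b b' (.inl i)) F (x, y) := fun i => by
    refine ⟨h1.1.locallyIntegrable one_le_two, (h2 i).1.locallyIntegrable one_le_two, fun φ hφ => ?_⟩
    have e1 := (h1.2.1 _ (hφ.memLp_d (b i))).trans
      (ip_prod' (memLp_tensor (hφ.memLp_d (b i)) hΨ) h.1).2
    have e2 := ((h2 i).2.1 _ hφ.memLp).trans (ip_prod' (memLp_tensor hφ.memLp hΨ) (h.2 (.inl i)).2).2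
    simp only [ip, mul_comm (fderiv ℝ φ _ _), mul_comm (φ _)] at e1 e2
    rw [e1, e2, ← integral_neg]
    refine integral_congr_ae (h.slice_left.mono fun y hy => ?_)
    have e3 := ((hy.1.2 i).1.congr (EventuallyEq.refl _ _) (hy.2 i)).2.2 φ hφ
    simp only [mul_assoc, integral_const_mul, mul_comm (fderiv ℝ φ _ _), mul_comm (φ _), e3, mul_neg]
  exact ⟨.of_wd h1.1 fun i => ⟨hw i, (h2 i).1⟩, fun i => (hw i).wd_ae⟩

theorem slice_wd_int {v : E} {W W' : E × E' → ℝ} (hW : Integrable W) (hW' : Integrable W')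
    (h : ∀ᵐ y : E', WD v (fun x => W (x, y)) fun x => W' (x, y)) :
    WD v (fun x => ∫ y, W (x, y)) fun x => ∫ y, W' (x, y) := by
  have e : ∀ {W : E × E' → ℝ} {ψ : E → ℝ}, Integrable W → Continuous ψ → HasCompactSupport ψ →
      ∫ x, (∫ y, W (x, y)) * ψ x = ∫ y, ∫ x, W (x, y) * ψ x := fun {W ψ} hW h1 h2 => by
    obtain ⟨C, hC⟩ := h1.bounded_above_of_compact_support h2
    simp only [← integral_mul_const]
    exact integral_integral_swap (hW.mul_bdd (h1.comp continuous_fst).aestronglyMeasurable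
      (.of_forall fun p => hC p.1))
  refine ⟨(Integrable.integral_prod_left hW).locallyIntegrable,
    (Integrable.integral_prod_left hW').locallyIntegrable, fun φ hφ => ?_⟩
  rw [e hW (hφ.dcont v) (hφ.dsupp v), e hW' hφ.cont hφ.2, ← integral_neg]
  exact integral_congr_ae (h.mono fun y hy => hy.2.2 φ hφ)

/-- The bracket of two slices has a weak derivative in `L¹`. -/
theorem H1.wd_bracket (h : H1 (pb b b') F) (h' : H1 (pb b b') G) (i : ι) :
    WD (b i) (fun x => ∫ y, F (x, y) * G (x, y)) fun x =>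
      ∫ y, (wd (pb b b' (.inl i)) F (x, y) * G (x, y) +
        F (x, y) * wd (pb b b' (.inl i)) G (x, y)) := by
  refine slice_wd_int (W := fun p => F p * G p)
    (W' := fun p => wd (pb b b' (.inl i)) F p * G p + F p * wd (pb b b' (.inl i)) G p)
    (h.1.integrable_mul h'.1)
    (((h.2 _).2.integrable_mul h'.1).add (h.1.integrable_mul (h'.2 _).2)) ?_
  filter_upwards [h.slice_left, h'.slice_left] with y a1 a2
  refine (chain_h1_mul a1.1 a2.1 i).congr (EventuallyEq.refl _ _) ?_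
  filter_upwards [a1.2 i, a2.2 i] with x b1 b2
  rw [b1, b2]

theorem slice_bessel {H κ κ' : Type} [NormedAddCommGroup H] [InnerProductSpace ℝ H] [Fintype κ]
    [Fintype κ'] [DecidableEq κ] [DecidableEq κ'] (f : H) (u : κ → H) (w : κ' → H) (z : κ → κ' → H)
    {α : κ → ℝ} {β : κ' → ℝ} {t : κ → κ' → ℝ} (h1 : ∀ a, inner ℝ (u a) f = α a)
    (h2 : ∀ a a', inner ℝ (u a) (u a') = if a = a' then α a else 0) (h3 : ∀ c, inner ℝ (w c) f = β c)
    (h4 : ∀ c c', inner ℝ (w c) (w c') = if c = c' then β c else 0)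
    (h5 : ∀ a c, inner ℝ (z a c) f = t a c)
    (h6 : ∀ a c a' c', inner ℝ (z a c) (z a' c') =
      (if a = a' then 1 else 0) * if c = c' then 1 else 0)
    (h7 : ∀ a c, inner ℝ (u a) (w c) = t a c * t a c)
    (h8 : ∀ a c a', inner ℝ (z a c) (u a') = (if a = a' then 1 else 0) * t a' c)
    (h9 : ∀ a c c', inner ℝ (z a c) (w c') = t a c' * if c = c' then 1 else 0) :
    ∑ a, α a + ∑ c, β c ≤ inner ℝ f f + ∑ a, ∑ c, t a c ^ 2 := by
  have e1 : inner ℝ (∑ a, u a) f = ∑ a, α a := by simp [sum_inner, h1]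
  have e2 : inner ℝ (∑ a, u a) (∑ a, u a) = ∑ a, α a := by
    simp only [sum_inner, inner_sum, h2]; simp
  have e3 : inner ℝ (∑ a, w a) f = ∑ a, β a := by simp [sum_inner, h3]
  have e4 : inner ℝ (∑ a, w a) (∑ a, w a) = ∑ a, β a := by
    simp only [sum_inner, inner_sum, h4]; simp
  have e5 : inner ℝ (∑ a, ∑ c, t a c • z a c) f = ∑ a, ∑ c, t a c ^ 2 := by
    simp only [sum_inner, real_inner_smul_left, h5, pow_two]
  have e6 : inner ℝ (∑ a, ∑ c, t a c • z a c) (∑ a, ∑ c, t a c • z a c) = ∑ a, ∑ c, t a c ^ 2 := by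
    rw [sum_inner]
    refine Finset.sum_congr rfl fun a _ => ?_
    rw [sum_inner]
    refine Finset.sum_congr rfl fun c _ => ?_
    simp only [inner_sum, real_inner_smul_left, real_inner_smul_right, h6]
    rw [Finset.sum_eq_single a (fun a' _ h => by simp [h.symm]) (by simp)]
    simp [pow_two]
  have e7 : inner ℝ (∑ a, u a) (∑ a, w a) = ∑ a, ∑ c, t a c ^ 2 := by
    rw [sum_inner]
    simp only [inner_sum, h7, pow_two]
  have e8 : inner ℝ (∑ a, ∑ c, t a c • z a c) (∑ a, u a) = ∑ a, ∑ c, t a c ^ 2 := by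
    rw [sum_inner]
    refine Finset.sum_congr rfl fun a _ => ?_
    rw [sum_inner]
    simp only [inner_sum, real_inner_smul_left, h8]
    simp [pow_two]
  have e9 : inner ℝ (∑ a, ∑ c, t a c • z a c) (∑ a, w a) = ∑ a, ∑ c, t a c ^ 2 := by
    rw [sum_inner]
    refine Finset.sum_congr rfl fun a _ => ?_
    rw [sum_inner]
    simp only [inner_sum, real_inner_smul_left, h9]
    simp [pow_two]
  generalize ∑ a, ∑ c, t a c • z a c = C at *
  generalize ∑ a, u a = A at *
  generalize ∑ a, w a = B at *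
  have h0 := real_inner_self_nonneg (x := f - A - B + C)
  simp only [inner_add_left, inner_add_right, inner_sub_left, inner_sub_right, real_inner_comm A f,
    real_inner_comm B f, real_inner_comm C f, real_inner_comm A B, real_inner_comm C A,
    real_inner_comm C B, e1, e2, e3, e4, e5, e6, e7, e8, e9] at h0
  linarith

theorem slice_ip_comm (f g : E → ℝ) : ip f g = ip g f := by simp only [ip, mul_comm]

/-- Bessel for tensor products: `1 - Π ⊗ Π' ≤ (1 - Π) ⊗ 1 + 1 ⊗ (1 - Π')`.  Recipe: put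
`G = F - ∑_b Φ b ⊗ ⟨Φ b, F⟩` and apply Bessel's inequality in the first variable to `G`. -/
theorem bessel_prod {κ κ' : Type} [Fintype κ] [Fintype κ'] [DecidableEq κ] [DecidableEq κ']
    {φ : κ → E → ℝ} {Φ : κ' → E' → ℝ} (hφ : ∀ a, MemLp (φ a) 2 volume)
    (hΦ : ∀ a, MemLp (Φ a) 2 volume) (ho : ∀ a a', ip (φ a) (φ a') = if a = a' then 1 else 0)
    (ho' : ∀ a a', ip (Φ a) (Φ a') = if a = a' then 1 else 0) (hF : MemLp F 2 volume) :
    (∑ a, ∫ y, (∫ x, φ a x * F (x, y)) ^ 2) + (∑ a', ∫ x, (∫ y, Φ a' y * F (x, y)) ^ 2) ≤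
      ip F F + ∑ a, ∑ a', ip (fun p : E × E' => φ a p.1 * Φ a' p.2) F ^ 2 := by
  obtain ⟨d, ed⟩ : ∃ d : κ → E' → ℝ, ∀ a, (fun y => ∫ x, φ a x * F (x, y)) = d a := ⟨_, fun _ => rfl⟩
  obtain ⟨e, ee⟩ : ∃ e : κ' → E → ℝ, ∀ a, (fun x => ∫ y, Φ a y * F (x, y)) = e a := ⟨_, fun _ => rfl⟩
  have hd := fun a => memLp_partial' (hφ a) hF
  have hc := fun c => memLp_partial (hΦ c) hF
  simp only [ed] at hd
  simp only [ee] at hc
  have t1 := fun a c => ((hd a).2.1 _ (hΦ c))
  have t2 := fun a c => ((hc c).2.1 _ (hφ a))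
  have key := slice_bessel (hF.toLp F) (fun a => (memLp_tensor (hφ a) (hd a).1).toLp _)
    (fun c => (memLp_tensor (hc c).1 (hΦ c)).toLp _)
    (fun a c => (memLp_tensor (hφ a) (hΦ c)).toLp _)
    (α := fun a => ip (d a) (d a)) (β := fun c => ip (e c) (e c))
    (t := fun a c => ip (fun p : E × E' => φ a p.1 * Φ c p.2) F)
    (fun a => by rw [wd_inner, ← (hd a).2.1 _ (hd a).1])
    (fun a a' => by
      rw [wd_inner, ip_tensor, ho]
      split_ifs with h
      · rw [h, one_mul]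
      · exact zero_mul _)
    (fun c => by rw [wd_inner, ← (hc c).2.1 _ (hc c).1])
    (fun c c' => by
      rw [wd_inner, ip_tensor, ho']
      split_ifs with h
      · rw [h, mul_one]
      · exact mul_zero _)
    (fun a c => wd_inner _ _) (fun a c a' c' => by rw [wd_inner, ip_tensor, ho, ho'])
    (fun a c => by rw [wd_inner, ip_tensor, t2, slice_ip_comm _ (Φ c), t1])
    (fun a c a' => by
      rw [wd_inner, ip_tensor, ho, t1])
    (fun a c c' => by rw [wd_inner, ip_tensor, ho', t2])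
  rw [wd_inner] at key
  simpa only [← ed, ← ee, ip, ← pow_two] using key

end Crest.Agent.R335
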