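/-
R335/T/Pot: Hardy, Sobolev, Coulomb potentials, forms
Skeleton by helper48 (row 335); keep the statements unchanged, add any helper lemmas you like.
-/
import Crest.Agent.R335.T.Slice
import Crest.Agent.R335.T.Pos
import Crest.Agent.R335.T.Cov
import Crest.Agent.R338.Hardy
import Crest.Agent.R335.T.PotD

set_option autoImplicit false
set_option linter.unusedSectionVars false
set_option linter.unusedVariables false
set_option linter.unusedSimpArgs false

noncomputable section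

namespace Crest.Agent.R335

open MeasureTheory Set Filter Topology Metric
open scoped ENNReal

variable {E : Type} [NormedAddCommGroup E] [NormedSpace ℝ E] [FiniteDimensional ℝ E]
  [MeasureSpace E] [BorelSpace E] [(volume : Measure E).IsAddHaarMeasure]
  {ι : Type} [Fintype ι] {b : ι → E}
  {E' : Type} [NormedAddCommGroup E'] [NormedSpace ℝ E'] [FiniteDimensional ℝ E']
  [MeasureSpace E'] [BorelSpace E'] [(volume : Measure E').IsAddHaarMeasure]
  {ι' : Type} [Fintype ι'] {b' : ι' → E'}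

section forms
variable {U U' f f' g : E → ℝ}

theorem Pot.add (h : Pot b U) (h' : Pot b U') : Pot b fun x => U x + U' x := by
  obtain ⟨m, C, hC⟩ := h
  obtain ⟨m', C', hC'⟩ := h'
  refine ⟨m.add m', 2 * C + 2 * C', fun f hf => ?_⟩
  obtain ⟨a1, a2⟩ := hC f hf
  obtain ⟨b1, b2⟩ := hC' f hf
  have a3 : MemLp (fun x => (U x + U' x) * f x) 2 volume := by
    simp only [add_mul]
    exact a1.add b1
  refine ⟨a3, (integral_mono a3.integrable_sq ((a1.integrable_sq.const_mul 2).add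
    (b1.integrable_sq.const_mul 2)) fun x => ?_).trans ?_⟩
  · simp only [Pi.add_apply]
    nlinarith [sq_nonneg (U x * f x - U' x * f x)]
  · simp only [Pi.add_apply]
    rw [integral_add (a1.integrable_sq.const_mul 2) (b1.integrable_sq.const_mul 2), integral_const_mul,
      integral_const_mul]
    linarith

theorem Pot.const_mul (h : Pot b U) (c : ℝ) : Pot b fun x => c * U x := by
  obtain ⟨m, C, hC⟩ := h
  refine ⟨m.const_mul c, c ^ 2 * C, fun f hf => ?_⟩
  obtain ⟨a1, a2⟩ := hC f hf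
  simp only [mul_assoc c, mul_pow c, integral_const_mul, mul_assoc (c ^ 2)]
  exact ⟨a1.const_mul c, mul_le_mul_of_nonneg_left a2 (sq_nonneg c)⟩

theorem potb_right {W F : E × E' → ℝ} (hW : Measurable W) {C : ℝ}
    (h : ∀ x f, H1 b' f → MemLp (fun y => W (x, y) * f y) 2 volume ∧
      ∫ y, (W (x, y) * f y) ^ 2 ≤ C * dir b' f f) (hF : H1 (pb b b') F) :
    MemLp (fun p => W p * F p) 2 volume ∧
      ∫ p, (W p * F p) ^ 2 ≤ C * ∫ x, dir b' (fun y => F (x, y)) fun y => F (x, y) := by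
  have m1 : AEStronglyMeasurable (fun p => W p * F p) volume := hW.aestronglyMeasurable.mul hF.1.1
  have m2 : AEStronglyMeasurable (fun p => (W p * F p) ^ 2)
      ((volume : Measure E).prod (volume : Measure E')) := m1.pow 2
  have hD := (hF.dir_pb hF).1.const_mul C
  have hs : ∀ᵐ x : E, Integrable (fun y => (W (x, y) * F (x, y)) ^ 2) ∧
      ∫ y, (W (x, y) * F (x, y)) ^ 2 ≤ C * dir b' (fun y => F (x, y)) fun y => F (x, y) := by
    filter_upwards [hF.slice_right] with x hx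
    exact ⟨(h x _ hx.1).1.integrable_sq, (h x _ hx.1).2⟩
  have i1 : Integrable (fun p => (W p * F p) ^ 2) ((volume : Measure E).prod (volume : Measure E')) := by
    refine (integrable_prod_iff m2).2 ⟨hs.mono fun x hx => hx.1, hD.mono' m2.norm.integral_prod_right' ?_⟩
    filter_upwards [hs] with x hx
    rw [Real.norm_of_nonneg (integral_nonneg fun y => norm_nonneg _)]
    simp only [Real.norm_of_nonneg (sq_nonneg _)]
    exact hx.2
  refine ⟨(memLp_two_iff_integrable_sq m1).2 i1, ?_⟩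
  rw [← integral_const_mul]
  exact (integral_prod _ i1).trans_le (integral_mono_ae i1.integral_prod_left hD (hs.mono fun x hx => hx.2))

theorem potb_left {W F : E × E' → ℝ} (hW : Measurable W) {C : ℝ}
    (h : ∀ y f, H1 b f → MemLp (fun x => W (x, y) * f x) 2 volume ∧
      ∫ x, (W (x, y) * f x) ^ 2 ≤ C * dir b f f) (hF : H1 (pb b b') F) :
    MemLp (fun p => W p * F p) 2 volume ∧ ∫ p, (W p * F p) ^ 2 ≤ C * dirx b b' F F := by
  have m1 : AEStronglyMeasurable (fun p => W p * F p) volume := hW.aestronglyMeasurable.mul hF.1.1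
  have m2 : AEStronglyMeasurable (fun p => (W p * F p) ^ 2)
      ((volume : Measure E).prod (volume : Measure E')) := m1.pow 2
  have hD := (hF.dirx_eq hF).1.const_mul C
  have hs : ∀ᵐ y : E', Integrable (fun x => (W (x, y) * F (x, y)) ^ 2) ∧
      ∫ x, (W (x, y) * F (x, y)) ^ 2 ≤ C * dir b (fun x => F (x, y)) fun x => F (x, y) := by
    filter_upwards [hF.slice_left] with y hy
    exact ⟨(h y _ hy.1).1.integrable_sq, (h y _ hy.1).2⟩
  have i1 : Integrable (fun p => (W p * F p) ^ 2) ((volume : Measure E).prod (volume : Measure E')) := by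
    refine (integrable_prod_iff' m2).2 ⟨hs.mono fun x hx => hx.1,
      hD.mono' m2.norm.prod_swap.integral_prod_right' ?_⟩
    filter_upwards [hs] with x hx
    rw [Real.norm_of_nonneg (integral_nonneg fun y => norm_nonneg _)]
    simp only [Real.norm_of_nonneg (sq_nonneg _)]
    exact hx.2
  refine ⟨(memLp_two_iff_integrable_sq m1).2 i1, ?_⟩
  rw [(hF.dirx_eq hF).2, ← integral_const_mul]
  exact (integral_prod_symm _ i1).trans_le
    (integral_mono_ae i1.integral_prod_right hD (hs.mono fun x hx => hx.2))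

theorem potb_le {F : E × E' → ℝ} (hF : H1 (pb b b') F) : dirx b b' F F ≤ dir (pb b b') F F ∧
    ∫ x, dir b' (fun y => F (x, y)) (fun y => F (x, y)) ≤ dir (pb b b') F F := by
  have h1 : 0 ≤ dirx b b' F F := by
    rw [(hF.dirx_eq hF).2]
    exact integral_nonneg fun y => dir_self_nonneg _
  have h2 : 0 ≤ ∫ x, dir b' (fun y => F (x, y)) (fun y => F (x, y)) :=
    integral_nonneg fun y => dir_self_nonneg _
  rw [(hF.dir_pb hF).2]
  constructor <;> linarith

theorem potb_le_abs {a C d d' : ℝ} (h : a ≤ |C| * d) (hd : d ≤ d') : a ≤ |C| * d' :=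
  h.trans (mul_le_mul_of_nonneg_left hd (abs_nonneg C))

theorem Pot.fst (h : Pot b U) : Pot (pb b b') fun p : E × E' => U p.1 := by
  obtain ⟨m, C, hC⟩ := h
  refine ⟨m.comp measurable_fst, |C|, fun F hF => ?_⟩
  have := potb_left (W := fun p : E × E' => U p.1) (m.comp measurable_fst) (C := |C|) (fun y f hf =>
    ⟨(hC f hf).1, (hC f hf).2.trans (mul_le_mul_of_nonneg_right (le_abs_self C) (dir_self_nonneg f))⟩) hF
  exact ⟨this.1, potb_le_abs this.2 (potb_le hF).1⟩

theorem Pot.snd {U : E' → ℝ} (h : Pot b' U) : Pot (pb b b') fun p : E × E' => U p.2 := by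
  obtain ⟨m, C, hC⟩ := h
  refine ⟨m.comp measurable_snd, |C|, fun F hF => ?_⟩
  have := potb_right (W := fun p : E × E' => U p.2) (m.comp measurable_snd) (C := |C|) (fun y f hf =>
    ⟨(hC f hf).1, (hC f hf).2.trans (mul_le_mul_of_nonneg_right (le_abs_self C) (dir_self_nonneg f))⟩) hF
  exact ⟨this.1, potb_le_abs this.2 (potb_le hF).2⟩

theorem Pot.sym {T : E' → E} (h : Pot b U) (hT : Sym b' b T) (hT' : ∃ T' : E → E', Sym b b' T' ∧
    ∀ x, T' (T x) = x) : Pot b' fun x => U (T x) := by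
  obtain ⟨m, C, hC⟩ := h
  obtain ⟨T', hT', e⟩ := hT'
  refine ⟨m.comp hT.mp.measurable, C, fun f hf => ?_⟩
  obtain ⟨a1, a2⟩ := hC _ (hT'.h1 hf)
  have a3 := a1.comp_measurePreserving hT.mp
  rw [hT'.dir hf.hl hf.hl, ← hT.integral] at a2
  simp only [Function.comp_def, e] at a2 a3
  exact ⟨a3, a2⟩

theorem Pot.integrable (h : Pot b U) (hf : H1 b f) (hg : MemLp g 2 volume) :
    Integrable fun x => U x * f x * g x := by
  obtain ⟨m, C, hC⟩ := h
  exact (hC f hf).1.integrable_mul hg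

theorem Pot.coercive (h : Pot b U) : ∃ C : ℝ, 0 ≤ C ∧ ∀ f, H1 b f →
    dir b f f / 4 ≤ qf b U f f + C * ip f f := by
  obtain ⟨m, C, hC⟩ := h
  have hK : 0 < |C| + 1 := by positivity
  refine ⟨|C| + 1, hK.le, fun f hf => ?_⟩
  obtain ⟨a1, a2⟩ := hC f hf
  have d0 := dir_self_nonneg (b := b) f
  have i1 := a1.integrable_sq.const_mul (-(4 * (|C| + 1))⁻¹)
  have i2 := (hf.1.integrable_mul hf.1).const_mul (|C| + 1)
  have h1 : ∫ x, (-(4 * (|C| + 1))⁻¹ * (U x * f x) ^ 2 - (|C| + 1) * (f * f) x) ≤ ∫ x, U x * f x * f x := by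
    refine integral_mono (i1.sub i2) (a1.integrable_mul hf.1) fun x => ?_
    have e : U x * f x * f x - (-(4 * (|C| + 1))⁻¹ * (U x * f x) ^ 2 - (|C| + 1) * (f x * f x)) =
        (4 * (|C| + 1))⁻¹ * (U x * f x + 2 * (|C| + 1) * f x) ^ 2 := by
      field_simp
      ring
    have : 0 ≤ (4 * (|C| + 1))⁻¹ * (U x * f x + 2 * (|C| + 1) * f x) ^ 2 := by positivity
    simp only [Pi.mul_apply]
    linarith
  rw [integral_sub i1 i2, integral_const_mul, integral_const_mul] at h1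
  have h2 : (4 * (|C| + 1))⁻¹ * ∫ x, (U x * f x) ^ 2 ≤ dir b f f / 4 := by
    rw [inv_mul_le_iff₀ (by positivity)]
    nlinarith [le_abs_self C]
  simp only [qf, ip, Pi.mul_apply] at h1 ⊢
  linarith

theorem qf_comm (U f g : E → ℝ) : qf b U f g = qf b U g f := by
  simp only [qf, dir_comm f g, mul_right_comm _ (f _)]

theorem Pot.qf_add_left (h : Pot b U) (hf : H1 b f) (hf' : H1 b f') (hg : H1 b g) :
    qf b U (fun x => f x + f' x) g = qf b U f g + qf b U f' g := by
  simp only [qf, hf.dir_add_left hf' hg, mul_add, add_mul,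
    integral_add (h.integrable hf hg.1) (h.integrable hf' hg.1)]
  ring

theorem Pot.qf_sub_left (h : Pot b U) (hf : H1 b f) (hf' : H1 b f') (hg : H1 b g) :
    qf b U (fun x => f x - f' x) g = qf b U f g - qf b U f' g := by
  simp only [qf, hf.dir_sub_left hf' hg, mul_sub, sub_mul,
    integral_sub (h.integrable hf hg.1) (h.integrable hf' hg.1)]
  ring

theorem qf_const_mul_left (hf : H1 b f) (c : ℝ) (U g : E → ℝ) :
    qf b U (fun x => c * f x) g = c * qf b U f g := by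
  simp only [qf, hf.hl.dir_const_mul_left c g, mul_left_comm _ c, mul_assoc c, integral_const_mul]
  ring

theorem Pot.qf_lin (h : Pot b U) (hf : H1 b f) (hg : H1 b g) (s t : ℝ) :
    qf b U (fun x => s * f x + t * g x) (fun x => s * f x + t * g x) =
      s ^ 2 * qf b U f f + 2 * s * t * qf b U f g + t ^ 2 * qf b U g g := by
  have h1 := hf.const_mul s
  have h2 := hg.const_mul t
  rw [h.qf_add_left h1 h2 (h1.add h2), qf_const_mul_left hf, qf_const_mul_left hg, qf_comm U f, qf_comm U g,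
    h.qf_add_left h1 h2 hf, h.qf_add_left h1 h2 hg, qf_const_mul_left hf, qf_const_mul_left hg,
    qf_const_mul_left hf, qf_const_mul_left hg, qf_comm U g f]
  ring

theorem ip_lin (hf : MemLp f 2 volume) (hg : MemLp g 2 volume) (s t : ℝ) :
    ip (fun x => s * f x + t * g x) (fun x => s * f x + t * g x) =
      s ^ 2 * ip f f + 2 * s * t * ip f g + t ^ 2 * ip g g := by
  have e : ∀ x, (s * f x + t * g x) * (s * f x + t * g x) =
      s ^ 2 * (f x * f x) + 2 * s * t * (f x * g x) + t ^ 2 * (g x * g x) := fun x => by ring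
  have i1 : Integrable fun x => s ^ 2 * (f x * f x) := (hf.integrable_mul hf).const_mul _
  have i2 : Integrable fun x => 2 * s * t * (f x * g x) := (hf.integrable_mul hg).const_mul _
  have i3 : Integrable fun x => t ^ 2 * (g x * g x) := (hg.integrable_mul hg).const_mul _
  simp only [ip, e]
  rw [integral_add (f := fun x => s ^ 2 * (f x * f x) + 2 * s * t * (f x * g x)) (i1.add i2) i3,
    integral_add i1 i2, integral_const_mul, integral_const_mul, integral_const_mul]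

theorem Pot.qf_add_pot (h : Pot b U) (h' : Pot b U') (hf : H1 b f) (hg : H1 b g) :
    qf b (fun x => U x + U' x) f g = qf b U f g + ∫ x, U' x * f x * g x := by
  simp only [qf, add_mul, integral_add (h.integrable hf hg.1) (h'.integrable hf hg.1), add_assoc]

theorem Pot.tendsto_qf (h : Pot b U) {F G : ℕ → E → ℝ} (hF : ∀ n, H1 b (F n))
    (hG : ∀ n, H1 b (G n)) (hf : H1 b f) (hg : H1 b g) (h1 : L2to F f) (h2 : L2to G g)
    (h3 : ∀ i, L2to (fun n => wd (b i) (F n)) (wd (b i) f))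
    (h4 : ∀ i, L2to (fun n => wd (b i) (G n)) (wd (b i) g)) :
    Tendsto (fun n => qf b U (F n) (G n)) atTop (𝓝 (qf b U f g)) := by
  obtain ⟨m, C, hC⟩ := h
  have t1 : Tendsto (fun n => dir b (F n) (G n)) atTop (𝓝 (dir b f g)) := by
    simp only [fun n => (hF n).dir_eq_sum (hG n), hf.dir_eq_sum hg]
    exact tendsto_finset_sum _ fun i _ => tendsto_ip (fun n => ((hF n).2 i).2) (fun n => ((hG n).2 i).2)
      (hf.2 i).2 (hg.2 i).2 (h3 i) (h4 i)
  have t2 : L2to (fun n x => U x * F n x) fun x => U x * f x := by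
    have t3 := (tendsto_finset_sum Finset.univ fun i _ => h3 i).const_mul C
    rw [Finset.sum_const_zero, mul_zero] at t3
    refine squeeze_zero (fun n => integral_nonneg fun x => sq_nonneg _) (fun n => ?_) t3
    have h5 := (hF n).sub hf
    have h6 := (hC _ h5).2
    rw [h5.dir_eq_sum h5] at h6
    simp only [← mul_sub]
    refine h6.trans (le_of_eq ?_)
    congr 1
    refine Finset.sum_congr rfl fun i _ => integral_congr_ae ?_
    filter_upwards [(hF n).hl.wd_sub hf.hl i] with x hx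
    rw [hx, sq]
  exact (t1.div_const 2).add (tendsto_ip (fun n => (hC _ (hF n)).1) (fun n => (hG n).1) (hC _ hf).1 hg.1 t2 h2)

/-- The form of `U ⊗ 1 + 1 ⊗ U'` is the sum of the forms of the slices. -/
theorem Pot.qf_pb {U' : E' → ℝ} (h : Pot b U) (h' : Pot b' U') {F G : E × E' → ℝ}
    (hF : H1 (pb b b') F) (hG : H1 (pb b b') G) :
    (Integrable fun y => qf b U (fun x => F (x, y)) fun x => G (x, y)) ∧
    (Integrable fun x => qf b' U' (fun y => F (x, y)) fun y => G (x, y)) ∧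
    qf (pb b b') (fun p => U p.1 + U' p.2) F G =
      (∫ y, qf b U (fun x => F (x, y)) fun x => G (x, y)) +
        ∫ x, qf b' U' (fun y => F (x, y)) fun y => G (x, y) := by
  obtain ⟨-, C, hC⟩ := h.fst (b' := b')
  obtain ⟨-, C', hC'⟩ := h'.snd (b := b)
  obtain ⟨i1, e1⟩ := ip_prod' (hC F hF).1 hG.1
  obtain ⟨i2, e2⟩ := ip_prod (hC' F hF).1 hG.1
  obtain ⟨i3, e3⟩ := hF.dirx_eq hG
  obtain ⟨i4, e4⟩ := hF.dir_pb hG
  refine ⟨(i3.div_const 2).add i1, (i4.div_const 2).add i2, ?_⟩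
  simp only [qf]
  rw [integral_add (i3.div_const 2) i1, integral_add (i4.div_const 2) i2, integral_div, integral_div,
    e4, e3, ← e1, ← e2]
  simp only [add_mul]
  rw [integral_add (f := fun x : E × E' => U x.1 * F x * G x) (g := fun x : E × E' => U' x.2 * F x * G x)
    ((hC F hF).1.integrable_mul hG.1) ((hC' F hF).1.integrable_mul hG.1)]
  simp only [ip]
  ring

/-- Tensor products of eigenfunctions. -/
theorem Pot.eig_tensor {U' g : E' → ℝ} (h : Pot b U) (h' : Pot b' U') (hf : H1 b f) (hg : H1 b' g)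
    {e e' : ℝ} (he : ∀ φ, H1 b φ → qf b U f φ = e * ip f φ)
    (he' : ∀ φ, H1 b' φ → qf b' U' g φ = e' * ip g φ) {Φ : E × E' → ℝ} (hΦ : H1 (pb b b') Φ) :
    qf (pb b b') (fun p => U p.1 + U' p.2) (fun p => f p.1 * g p.2) Φ =
      (e + e') * ip (fun p => f p.1 * g p.2) Φ := by
  have hT := (hf.tensor hg).1
  have e1 : ∫ y, qf b U (fun x => f x * g y) (fun x => Φ (x, y)) = e * ip (fun p => f p.1 * g p.2) Φ := by
    rw [(ip_prod' hT.1 hΦ.1).2, ← integral_const_mul]
    refine integral_congr_ae ?_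
    filter_upwards [hΦ.slice_left] with y hy
    simp only [mul_comm (f _) (g y), mul_assoc (g y)]
    rw [qf_const_mul_left hf, he _ hy.1, integral_const_mul, ip]
    ring
  have e2 : ∫ x, qf b' U' (fun y => f x * g y) (fun y => Φ (x, y)) =
      e' * ip (fun p => f p.1 * g p.2) Φ := by
    rw [(ip_prod hT.1 hΦ.1).2, ← integral_const_mul]
    refine integral_congr_ae ?_
    filter_upwards [hΦ.slice_right] with x hx
    simp only [mul_assoc (f x)]
    rw [qf_const_mul_left hg, he' _ hx.1, integral_const_mul, ip]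
    ring
  rw [(h.qf_pb h' hT hΦ).2.2, e1, e2]
  ring

/-- Agmon's inequality (`H1.dir_mul` with `χ = exp ω`). -/
theorem Pot.agmon (h : Pot b U) (hf : H1 b f) {e : ℝ} (he : ∀ φ, H1 b φ → qf b U f φ = e * ip f φ)
    {L : E → ℝ} (hL : Measurable L) {M : ℝ} (hLM : ∀ x, |L x| ≤ M)
    (hlow : ∀ g, H1 b g → ∫ x, L x * g x ^ 2 ≤ qf b U g g) {ω : E → ℝ} (hω : ContDiff ℝ 1 ω)
    (h1 : ∀ x, |ω x| ≤ M) (h2 : ∀ x, ‖fderiv ℝ ω x‖ ≤ M) :
    ∫ x, (L x - e - (∑ i, fderiv ℝ ω x (b i) ^ 2) / 2) * (Real.exp (ω x) * f x) ^ 2 ≤ 0 := by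
  have hM : 0 ≤ M := (abs_nonneg _).trans (h1 0)
  have c1 : ContDiff ℝ 1 fun x => Real.exp (ω x) := hω.exp
  have d1 : ∀ x, fderiv ℝ (fun x => Real.exp (ω x)) x = Real.exp (ω x) • fderiv ℝ ω x := fun x =>
    fderiv_exp (hω.differentiable one_ne_zero x)
  have b0 : ∀ x, Real.exp (ω x) ≤ Real.exp M := fun x => Real.exp_le_exp.2 (le_of_abs_le (h1 x))
  have b1 : ∀ x, |Real.exp (ω x)| ≤ Real.exp M * (M + 1) := fun x => by
    rw [abs_of_pos (Real.exp_pos _)]
    nlinarith [b0 x, Real.exp_pos M]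
  have b2 : ∀ x, ‖fderiv ℝ (fun x => Real.exp (ω x)) x‖ ≤ Real.exp M * (M + 1) := fun x => by
    rw [d1, norm_smul, Real.norm_of_nonneg (Real.exp_pos _).le]
    exact mul_le_mul (b0 x) ((h2 x).trans (by linarith)) (norm_nonneg _) (Real.exp_pos _).le
  have g1 := hf.mul_contDiff c1 b1 b2
  have g2 := g1.mul_contDiff c1 b1 b2
  have e1 := hf.dir_mul c1 b1 b2
  have e2 := he _ g2
  have e3 := hlow _ g1
  have i0 := g1.1.integrable_sq
  have i1 : Integrable fun x => L x * (Real.exp (ω x) * f x) ^ 2 :=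
    i0.bdd_mul hL.aestronglyMeasurable (ae_of_all _ hLM)
  have i2 : Integrable fun x => (∑ i, fderiv ℝ ω x (b i) ^ 2) * (Real.exp (ω x) * f x) ^ 2 := by
    refine i0.bdd_mul (c := ∑ i, (M * ‖b i‖) ^ 2) (Continuous.aestronglyMeasurable ?_) (ae_of_all _ fun x => ?_)
    · have := hω.continuous_fderiv one_ne_zero
      fun_prop
    · rw [Real.norm_of_nonneg (by positivity)]
      refine Finset.sum_le_sum fun i _ => sq_le_sq' ?_ ?_ <;>
        linarith [abs_le.1 (((fderiv ℝ ω x).le_opNorm (b i)).trans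
          (mul_le_mul_of_nonneg_right (h2 x) (norm_nonneg _)))]
  have e4 : ∀ x, (L x - e - (∑ i, fderiv ℝ ω x (b i) ^ 2) / 2) * (Real.exp (ω x) * f x) ^ 2 =
      L x * (Real.exp (ω x) * f x) ^ 2 - e * (Real.exp (ω x) * f x) ^ 2 -
        2⁻¹ * ((∑ i, fderiv ℝ ω x (b i) ^ 2) * (Real.exp (ω x) * f x) ^ 2) := fun x => by ring
  have e5 : ∀ x, (∑ i, fderiv ℝ (fun x => Real.exp (ω x)) x (b i) ^ 2) * f x ^ 2 =
      (∑ i, fderiv ℝ ω x (b i) ^ 2) * (Real.exp (ω x) * f x) ^ 2 := fun x => by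
    simp only [d1, ContinuousLinearMap.smul_apply, smul_eq_mul, mul_pow, ← Finset.mul_sum]
    ring
  have e6 : ∀ x, U x * f x * (Real.exp (ω x) * (Real.exp (ω x) * f x)) =
      U x * (Real.exp (ω x) * f x) * (Real.exp (ω x) * f x) := fun x => by ring
  have e7 : ∀ x, f x * (Real.exp (ω x) * (Real.exp (ω x) * f x)) = (Real.exp (ω x) * f x) ^ 2 :=
    fun x => by ring
  simp only [e5, sq (Real.exp _), mul_assoc (Real.exp _)] at e1
  simp only [qf, ip, e6, e7] at e2 e3
  simp only [e4]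
  rw [integral_sub (f := fun x => L x * (Real.exp (ω x) * f x) ^ 2 - e * (Real.exp (ω x) * f x) ^ 2)
    (i1.sub (i0.const_mul e)) (i2.const_mul _), integral_sub i1 (i0.const_mul e), integral_const_mul,
    integral_const_mul]
  linarith

end forms

section R3
variable {f g : X → ℝ}

theorem potb_fatou {G : ℕ → X → ℝ} {g : X → ℝ} {a : ℕ → ℝ} {a₀ : ℝ} (hG : ∀ n, Integrable (G n))
    (h0 : ∀ n x, 0 ≤ G n x) (hg : ∀ x, 0 ≤ g x) (hle : ∀ n, ∫ x, G n x ≤ a n) (ha : Tendsto a atTop (𝓝 a₀))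
    (h : ∀ᵐ x : X, Tendsto (fun n => G n x) atTop (𝓝 (g x))) : Integrable g ∧ ∫ x, g x ≤ a₀ := by
  have m : AEStronglyMeasurable g volume := aestronglyMeasurable_of_tendsto_ae atTop (fun n => (hG n).1) h
  have h1 : ∫⁻ x, ENNReal.ofReal (g x) ≤ ENNReal.ofReal a₀ := by
    calc ∫⁻ x, ENNReal.ofReal (g x) = ∫⁻ x, liminf (fun n => ENNReal.ofReal (G n x)) atTop := by
          refine lintegral_congr_ae ?_
          filter_upwards [h] with x hx
          exact (ENNReal.tendsto_ofReal hx).liminf_eq.symm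
      _ ≤ liminf (fun n => ∫⁻ x, ENNReal.ofReal (G n x)) atTop :=
          lintegral_liminf_le' fun n => (hG n).1.aemeasurable.ennreal_ofReal
      _ ≤ liminf (fun n => ENNReal.ofReal (a n)) atTop := by
          refine liminf_le_liminf (Eventually.of_forall fun n => ?_)
          rw [← ofReal_integral_eq_lintegral_ofReal (hG n) (ae_of_all _ (h0 n))]
          exact ENNReal.ofReal_le_ofReal (hle n)
      _ = _ := (ENNReal.tendsto_ofReal ha).liminf_eq
  have i : Integrable g :=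
    ⟨m, (hasFiniteIntegral_iff_ofReal (ae_of_all _ hg)).2 (h1.trans_lt ENNReal.ofReal_lt_top)⟩
  have h2 : 0 ≤ a₀ := ge_of_tendsto' ha fun n => (integral_nonneg (h0 n)).trans (hle n)
  rw [← ofReal_integral_eq_lintegral_ofReal i (ae_of_all _ hg), ENNReal.ofReal_le_ofReal_iff h2] at h1
  exact ⟨i, h1⟩

theorem potb_meas (p : X) : Measurable fun x : X => 1 / ‖x - p‖ := by fun_prop

/-- `R338.hardy`, `H1.approx`, Fatou. -/
theorem H1.hardy (h : H1 eX f) (p : X) : MemLp (fun x => 1 / ‖x - p‖ * f x) 2 volume ∧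
    ∫ x, (1 / ‖x - p‖ * f x) ^ 2 ≤ 4 * dir eX f f := by
  obtain ⟨φ, h1, -, h3, h4, -⟩ := h.approx
  have t : Tendsto (fun n => 4 * ∑ i, ip (fun x => fderiv ℝ (φ n) x (eX i)) fun x => fderiv ℝ (φ n) x (eX i))
      atTop (𝓝 (4 * dir eX f f)) := by
    rw [h.dir_eq_sum h]
    exact (tendsto_finsetSum _ fun i _ => tendsto_ip (fun n => (h1 n).memLp_d _) (fun n => (h1 n).memLp_d _)
      (h.2 i).2 (h.2 i).2 (h3 i) (h3 i)).const_mul 4
  have := potb_fatou (G := fun n x => R338.Kn (x - p) ^ 2 * φ n x ^ 2) (g := fun x => (1 / ‖x - p‖ * f x) ^ 2)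
    (fun n => R338.hardy_integrable ⟨(h1 n).1, (h1 n).2⟩ p) (fun n x => by positivity)
    (fun x => sq_nonneg _) (fun n => (R338.hardy ⟨(h1 n).1, (h1 n).2⟩ p).trans (le_of_eq ?_)) t ?_
  · exact ⟨(memLp_two_iff_integrable_sq ((potb_meas p).aestronglyMeasurable.mul h.1.1)).2 this.1, this.2⟩
  · congr 1
    simp only [ip]
    rw [← integral_finsetSum (f := fun i x => fderiv ℝ (φ n) x (eX i) * fderiv ℝ (φ n) x (eX i)) _
      fun i _ => ((h1 n).memLp_d _).integrable_mul ((h1 n).memLp_d _)]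
    simp only [R338.gsq, R338.pd, sq]
    rfl
  · filter_upwards [h4] with x hx
    rw [mul_pow]
    exact (hx.pow 2).const_mul _

theorem potc_norm (L : X →L[ℝ] ℝ) : ‖L‖ ^ 2 ≤ ∑ i, L (eX i) * L (eX i) := by
  have h0 : 0 ≤ ∑ i, L (eX i) * L (eX i) := Finset.sum_nonneg fun i _ => mul_self_nonneg _
  rw [← Real.le_sqrt (norm_nonneg _) h0]
  refine L.opNorm_le_bound (Real.sqrt_nonneg _) fun y => ?_
  have e : L y = ∑ i, L (eX i) * y i := by
    conv_lhs => rw [← cov_span y]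
    simp only [map_sum, map_smul, smul_eq_mul, mul_comm]
  have h := Finset.sum_mul_sq_le_sq_mul_sq Finset.univ (fun i => L (eX i)) fun i => y i
  rw [← e, cov_sq] at h
  rw [← Real.sqrt_sq (norm_nonneg y), ← Real.sqrt_mul h0, Real.norm_eq_abs]
  simp only [← sq]
  exact Real.abs_le_sqrt h

theorem potc_real {A B K : ℝ} (hA : 0 ≤ A) (hB : 0 ≤ B) (h : A ^ (6 : ℝ)⁻¹ ≤ K * B ^ (2 : ℝ)⁻¹) :
    A ≤ K ^ 6 * B ^ 3 := by
  have h2 := pow_le_pow_left₀ (by positivity) h 6
  rw [mul_pow, ← Real.rpow_natCast (A ^ _), ← Real.rpow_natCast (B ^ _), ← Real.rpow_mul hA,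
    ← Real.rpow_mul hB, show (6 : ℝ)⁻¹ * (6 : ℕ) = 1 by norm_num,
    show (2 : ℝ)⁻¹ * (6 : ℕ) = (3 : ℕ) by norm_num, Real.rpow_one, Real.rpow_natCast] at h2
  exact h2

theorem potc_tst : ∃ C : ℝ, 0 < C ∧ ∀ φ : X → ℝ, Tst φ → (Integrable fun x => φ x ^ 6) ∧
    ∫ x, φ x ^ 6 ≤ C * (∑ i, ip (fun x => fderiv ℝ φ x (eX i)) fun x => fderiv ℝ φ x (eX i)) ^ 3 := by
  obtain ⟨K, hK⟩ : ∃ K : NNReal, ∀ φ : X → ℝ, Tst φ →
      eLpNorm φ 6 volume ≤ K * eLpNorm (fderiv ℝ φ) 2 volume :=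
    ⟨_, fun φ h => eLpNorm_le_eLpNorm_fderiv_of_eq_inner volume (p := 2) (p' := 6) h.1 h.2 (by norm_num)
      (by simp) (by simp; norm_num)⟩
  refine ⟨K ^ 6 + 1, by positivity, fun φ h => ?_⟩
  have m1 : MemLp φ 6 volume := h.cont.memLp_of_hasCompactSupport h.2
  have m2 : MemLp (fderiv ℝ φ) 2 volume :=
    (h.1.continuous_fderiv one_ne_zero).memLp_of_hasCompactSupport (h.2.fderiv ℝ)
  have h1 := hK φ h
  have e6 : ∀ x, ‖φ x‖ ^ (6 : ℝ) = φ x ^ 6 := fun x => by
    rw [show (6 : ℝ) = (6 : ℕ) by simp, Real.rpow_natCast, Real.norm_eq_abs, Even.pow_abs (by decide)]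
  have p6 : 0 ≤ ∫ x, φ x ^ 6 := integral_nonneg fun x => by positivity
  have p2 : 0 ≤ ∫ x, ‖fderiv ℝ φ x‖ ^ 2 := integral_nonneg fun x => by positivity
  rw [m1.eLpNorm_eq_integral_rpow_norm (by simp) (by simp),
    m2.eLpNorm_eq_integral_rpow_norm (by simp) (by simp), ← ENNReal.ofReal_coe_nnreal (p := K),
    ← ENNReal.ofReal_mul K.coe_nonneg] at h1
  simp only [ENNReal.toReal_ofNat, e6, Real.rpow_two] at h1
  have h2 := potc_real p6 p2 ((ENNReal.ofReal_le_ofReal_iff
    (mul_nonneg K.coe_nonneg (Real.rpow_nonneg p2 _))).1 h1)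
  have i6 : Integrable fun x => φ x ^ 6 := by
    have := m1.integrable_norm_rpow (by simp) (by simp)
    simpa only [ENNReal.toReal_ofNat, e6] using this
  have i2 : ∀ i, Integrable fun x => fderiv ℝ φ x (eX i) * fderiv ℝ φ x (eX i) := fun i =>
    (h.memLp_d _).integrable_mul (h.memLp_d _)
  have h3 : ∫ x, ‖fderiv ℝ φ x‖ ^ 2 ≤ ∑ i, ip (fun x => fderiv ℝ φ x (eX i)) fun x => fderiv ℝ φ x (eX i) := by
    simp only [ip]
    rw [← integral_finsetSum _ fun i _ => i2 i]
    exact integral_mono_of_nonneg (ae_of_all _ fun x => sq_nonneg _)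
      (integrable_finsetSum _ fun i _ => i2 i) (ae_of_all _ fun x => potc_norm _)
  have h4 := pow_le_pow_left₀ p2 h3 3
  exact ⟨i6, h2.trans (mul_le_mul (le_add_of_nonneg_right zero_le_one) h4 (pow_nonneg p2 3) (by positivity))⟩

/-- `eLpNorm_le_eLpNorm_fderiv_of_eq_inner`, `H1.approx`, Fatou. -/
theorem sobolev : ∃ C : ℝ, 0 < C ∧ ∀ f : X → ℝ, H1 eX f →
    MemLp f 6 volume ∧ ∫ x, f x ^ 6 ≤ C * dir eX f f ^ 3 := by
  obtain ⟨C, hC, hC'⟩ := potc_tst
  refine ⟨C, hC, fun f h => ?_⟩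
  obtain ⟨φ, h1, -, h3, h4, -⟩ := h.approx
  have t : Tendsto (fun n => C * (∑ i, ip (fun x => fderiv ℝ (φ n) x (eX i))
      fun x => fderiv ℝ (φ n) x (eX i)) ^ 3) atTop (𝓝 (C * dir eX f f ^ 3)) := by
    rw [h.dir_eq_sum h]
    exact ((tendsto_finsetSum _ fun i _ => tendsto_ip (fun n => (h1 n).memLp_d _) (fun n => (h1 n).memLp_d _)
      (h.2 i).2 (h.2 i).2 (h3 i) (h3 i)).pow 3).const_mul C
  have := potb_fatou (G := fun n x => φ n x ^ 6) (g := fun x => f x ^ 6) (fun n => (hC' _ (h1 n)).1)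
    (fun n x => by positivity) (fun x => by positivity) (fun n => (hC' _ (h1 n)).2) t
    (h4.mono fun x hx => hx.pow 6)
  refine ⟨(integrable_norm_rpow_iff h.1.1 (p := 6) (by simp) (by simp)).1 ?_, this.2⟩
  simp only [show (6 : ℝ≥0∞).toReal = (6 : ℕ) by simp, Real.rpow_natCast, Real.norm_eq_abs,
    Even.pow_abs (show Even 6 by decide)]
  exact this.1

theorem potb_inv (p : X) : Pot eX fun x => 1 / ‖x - p‖ := ⟨potb_meas p, 4, fun f hf => hf.hardy p⟩

theorem potb_V (D : ℝ) (x : X) : V D x = -1 * (1 / ‖x - nuc D‖) + -1 * (1 / ‖x - -nuc D‖) := by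
  simp only [V, tp, tm, sub_neg_eq_add]
  ring

theorem pot_V (D : ℝ) : Pot eX (V D) := by
  rw [funext (potb_V D)]
  exact ((potb_inv _).const_mul _).add ((potb_inv _).const_mul _)

theorem potb_pair {G : Y → ℝ} (h : H1 eY G) : MemLp (fun y : Y => 1 / ‖y.1 - y.2‖ * G y) 2 volume ∧
    ∫ y : Y, (1 / ‖y.1 - y.2‖ * G y) ^ 2 ≤ 4 * dir eY G G := by
  have := potb_left (W := fun y : Y => 1 / ‖y.1 - y.2‖) (by fun_prop) (fun y f hf => hf.hardy y) h
  exact ⟨this.1, this.2.trans (mul_le_mul_of_nonneg_left (potb_le h).1 (by norm_num))⟩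

theorem pot_pair : Pot eY fun y : Y => 1 / ‖y.1 - y.2‖ := by
  exact ⟨by fun_prop, 4, fun G h => potb_pair h⟩

theorem pot_U2 (D l : ℝ) : Pot eY (U2 D l) := by
  have e : U2 D l = fun y : Y => V D y.1 + V D y.2 + l * (1 / ‖y.1 - y.2‖) := by
    funext y
    rw [U2, mul_one_div]
  rw [e]
  exact ((pot_V D).fst.add (pot_V D).snd).add (pot_pair.const_mul l)

theorem potb_Wx (x : X) {G : Y → ℝ} (h : H1 eY G) : MemLp (fun y => Wx x y * G y) 2 volume ∧
    ∫ y, (Wx x y * G y) ^ 2 ≤ 8 * dir eY G G := by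
  obtain ⟨a1, a2⟩ := potb_left (W := fun y : Y => 1 / ‖y.1 - x‖) (by fun_prop) (fun _ f hf => hf.hardy x) h
  obtain ⟨b1, b2⟩ := potb_right (W := fun y : Y => 1 / ‖y.2 - x‖) (by fun_prop) (fun _ f hf => hf.hardy x) h
  have e : ∀ y : Y, Wx x y * G y = 1 / ‖y.1 - x‖ * G y + 1 / ‖y.2 - x‖ * G y := fun y => by
    rw [Wx, add_mul, norm_sub_rev x, norm_sub_rev x]
  simp only [e]
  have a3 := a1.add b1
  refine ⟨a3, (integral_mono a3.integrable_sq ((a1.integrable_sq.const_mul 2).add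
    (b1.integrable_sq.const_mul 2)) fun y => ?_).trans ?_⟩
  · simp only [Pi.add_apply]
    nlinarith [sq_nonneg (1 / ‖y.1 - x‖ * G y - 1 / ‖y.2 - x‖ * G y)]
  · simp only [Pi.add_apply]
    rw [integral_add (a1.integrable_sq.const_mul 2) (b1.integrable_sq.const_mul 2), integral_const_mul,
      integral_const_mul]
    have := (H1.dir_pb h h).2
    unfold eY
    linarith

theorem pot_W : Pot eZ fun p : Z => Wx p.1 p.2 := by
  have m : Measurable fun p : Z => Wx p.1 p.2 := by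
    unfold Wx
    fun_prop
  refine ⟨m, 8, fun F hF => ?_⟩
  have := potb_right (W := fun p : Z => Wx p.1 p.2) m (fun x f hf => potb_Wx x hf) hF
  exact ⟨this.1, this.2.trans (mul_le_mul_of_nonneg_left (potb_le hF).2 (by norm_num))⟩

theorem pot_U3 (D l : ℝ) : Pot eZ (U3 D l) := by
  exact ((pot_V D).fst.add (pot_U2 D l).snd).add (pot_W.const_mul l)

theorem pot_Wx (x : X) : Pot eY (Wx x) := by
  refine ⟨?_, 8, fun G h => potb_Wx x h⟩
  unfold Wx
  fun_prop

theorem Wx_bound (x : X) {G : Y → ℝ} (h : H1 eY G) : ∫ y, (Wx x y * G y) ^ 2 ≤ 8 * dir eY G G := by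
  exact (potb_Wx x h).2

theorem pair_bound {G : Y → ℝ} (h : H1 eY G) :
    ∫ y : Y, (1 / ‖y.1 - y.2‖ * G y) ^ 2 ≤ 4 * dir eY G G := by
  exact (potb_pair h).2

theorem potb_half (p : X) (h : H1 eX f) :
    ∫ x, 1 / ‖x - p‖ * f x * f x ≤ dir eX f f / 8 + 8 * ip f f := by
  obtain ⟨a1, a2⟩ := h.hardy p
  have i1 := a1.integrable_sq.const_mul (1 / 32)
  have i2 : Integrable fun x => 8 * (f x * f x) := (h.1.integrable_mul h.1).const_mul 8
  have h1 := integral_mono (a1.integrable_mul h.1) (i1.add i2) fun x => by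
    simp only [Pi.add_apply, Pi.mul_apply]
    nlinarith [sq_nonneg (1 / ‖x - p‖ * f x - 16 * f x)]
  simp only [Pi.add_apply, Pi.mul_apply] at h1
  rw [integral_add i1 i2, integral_const_mul, integral_const_mul] at h1
  unfold ip
  linarith

/-- Coercivity with constants independent of `D`. -/
theorem V_coercive (D : ℝ) (h : H1 eX f) : dir eX f f / 4 ≤ qf eX (V D) f f + 16 * ip f f := by
  have h1 := potb_half (nuc D) h
  have h2 := potb_half (-nuc D) h
  have e : ∀ x, V D x * f x * f x =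
      -(1 / ‖x - nuc D‖ * f x * f x) - 1 / ‖x - -nuc D‖ * f x * f x := fun x => by
    rw [potb_V]; ring
  simp only [qf, e]
  rw [integral_sub (f := fun x => -(1 / ‖x - nuc D‖ * f x * f x)) ((potb_inv _).integrable h h.1).neg
    ((potb_inv _).integrable h h.1), integral_neg]
  linarith

theorem V_nonpos (D : ℝ) (x : X) : V D x ≤ 0 := by
  rw [potb_V]
  have : 0 ≤ 1 / ‖x - nuc D‖ := by positivity
  have : 0 ≤ 1 / ‖x - -nuc D‖ := by positivity
  linarith

theorem li_inv (p : X) : LI univ fun x : X => 1 / ‖x - p‖ := by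
  exact potd_li_inv p

theorem li_V (D : ℝ) : LI univ (V D) := by
  exact potd_li_V D

/-- `∫_{B(x,t)} 1/|y - p| ≤ C t²`. -/
theorem int_ball_inv : ∃ C : ℝ, 0 < C ∧ ∀ (x p : X) (t : ℝ), 0 < t →
    IntegrableOn (fun y : X => 1 / ‖y - p‖) (ball x t) ∧ ∫ y in ball x t, 1 / ‖y - p‖ ≤ C * t ^ 2 := by
  exact potd_ball_inv

/-- `∫ e^{-a |y|} / |x - y|² dy ≤ C(a)`. -/
theorem int_exp_inv_sq {a : ℝ} (ha : 0 < a) : ∃ C : ℝ, 0 < C ∧ ∀ x : X,
    (Integrable fun y : X => Real.exp (-a * ‖y‖) * (1 / ‖x - y‖) ^ 2) ∧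
      ∫ y : X, Real.exp (-a * ‖y‖) * (1 / ‖x - y‖) ^ 2 ≤ C := by
  exact potd_exp_inv_sq ha

theorem integrable_ex {a : ℝ} (ha : 0 < a) (p : X) (k : ℕ) :
    Integrable fun x : X => ‖x - p‖ ^ k * Real.exp (-a * ‖x - p‖) := by
  exact potd_ex ha p k

/-- The distance from a point: limit of `√(‖x - p‖² + ε²)`. -/
theorem lh_norm (p : X) : LH eX (fun x => ‖x - p‖) ∧
    ∀ i, wd (eX i) (fun x => ‖x - p‖) =ᵐ[volume] fun x => (x - p) i / ‖x - p‖ := by
  exact potd_lh_norm p

open Crest.MathPhysics.ThreeBody in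
instance potc_663 : ENNReal.HolderTriple 6 6 3 := ⟨by
  rw [show (6 : ℝ≥0∞) = 2 * 3 by norm_num, ENNReal.mul_inv (by simp) (by simp), ← add_mul,
    ENNReal.inv_two_add_inv_two, one_mul]⟩

theorem potc_of : ENNReal.ofReal (3 / 2) = 3 / 2 := by
  rw [ENNReal.ofReal_div_of_pos (by norm_num)]; simp

theorem potc_conj : (3 / 2 : ℝ).HolderConjugate 3 := by
  rw [Real.holderConjugate_iff]; norm_num

instance potc_331 : ENNReal.HolderConjugate (3 / 2) 3 := by
  have := potc_conj.ennrealOfReal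
  rwa [potc_of, ENNReal.ofReal_ofNat] at this

theorem potc_mul (hf : H1 eX f) (hg : H1 eX g) : MemLp (fun x => f x * g x) 3 volume := by
  obtain ⟨C, -, hC⟩ := sobolev
  exact (hC g hg).1.mul' (hC f hf).1

theorem potc_holder : ∃ S : ℝ, 0 < S ∧ ∀ w : X → ℝ, MemLp w (3 / 2 : ℝ≥0∞) volume → ∀ f : X → ℝ, H1 eX f →
    ∫ x, |w x| * f x ^ 2 ≤ (∫ x, |w x| ^ (3 / 2 : ℝ)) ^ (2 / 3 : ℝ) * S * dir eX f f := by
  obtain ⟨C, hC, hC'⟩ := sobolev
  refine ⟨C ^ (1 / 3 : ℝ), by positivity, fun w hw f hf => ?_⟩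
  have h1 := integral_mul_le_Lp_mul_Lq_of_nonneg potc_conj (μ := volume) (f := fun x => |w x|)
    (g := fun x => f x ^ 2) (ae_of_all _ fun x => abs_nonneg _) (ae_of_all _ fun x => sq_nonneg _)
    (by rw [potc_of]; exact hw.abs) (by
      rw [ENNReal.ofReal_ofNat]
      simp only [sq]
      exact potc_mul hf hf)
  have e : ∀ x, (f x ^ 2) ^ (3 : ℝ) = f x ^ 6 := fun x => by
    rw [show (3 : ℝ) = (3 : ℕ) by norm_num, Real.rpow_natCast]; ring
  simp only [e] at h1
  have d0 := dir_self_nonneg (b := eX) f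
  have h2 : (∫ x, f x ^ 6) ^ (1 / 3 : ℝ) ≤ C ^ (1 / 3 : ℝ) * dir eX f f := by
    refine (Real.rpow_le_rpow (integral_nonneg fun x => by positivity) (hC' f hf).2 (by norm_num)).trans_eq ?_
    rw [Real.mul_rpow hC.le (by positivity), ← Real.rpow_natCast, ← Real.rpow_mul d0]
    norm_num
  rw [show (1 / (3 / 2) : ℝ) = 2 / 3 by norm_num] at h1
  rw [mul_assoc]
  exact h1.trans (mul_le_mul_of_nonneg_left h2
    (Real.rpow_nonneg (integral_nonneg fun x => Real.rpow_nonneg (abs_nonneg _) _) _))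

open Crest.MathPhysics.ThreeBody in

/-- Hoelder with exponents `3/2, 6, 6`. -/
theorem sumClass_integrable {v : X → ℝ} (hv : IsSumClassPotential v) (hf : H1 eX f)
    (hg : H1 eX g) : Integrable fun x => v x * f x * g x := by
  obtain ⟨v₁, v₂, rfl, h1, h2⟩ := hv
  simp only [Pi.add_apply, mul_assoc, add_mul]
  refine (h1.integrable_mul (potc_mul hf hg)).add ?_
  exact memLp_one_iff_integrable.1 ((memLp_one_iff_integrable.2 (hf.1.integrable_mul hg.1)).mul' h2)

open Crest.MathPhysics.ThreeBody in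
open Crest.MathPhysics.ThreeBody in

theorem sumClass_bound {v : X → ℝ} (hv : IsSumClassPotential v) : ∃ C : ℝ, 0 ≤ C ∧
    ∀ f : X → ℝ, H1 eX f → ∫ x, |v x| * f x ^ 2 ≤ C * (ip f f + dir eX f f) := by
  obtain ⟨v₁, v₂, rfl, h1, h2⟩ := hv
  obtain ⟨S, hS, hS'⟩ := potc_holder
  obtain ⟨M, hM0, hM⟩ : ∃ M : ℝ, 0 ≤ M ∧ ∀ᵐ x : X, |v₂ x| ≤ M := by
    refine ⟨(eLpNormEssSup v₂ volume).toReal, ENNReal.toReal_nonneg, ?_⟩
    have h3 := h2.2
    rw [eLpNorm_exponent_top] at h3
    filter_upwards [ae_le_eLpNormEssSup (f := v₂) (μ := volume)] with x hx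
    have := ENNReal.toReal_mono h3.ne hx
    simpa using this
  have hA : 0 ≤ (∫ x, |v₁ x| ^ (3 / 2 : ℝ)) ^ (2 / 3 : ℝ) * S :=
    mul_nonneg (Real.rpow_nonneg (integral_nonneg fun x => Real.rpow_nonneg (abs_nonneg _) _) _) hS.le
  refine ⟨(∫ x, |v₁ x| ^ (3 / 2 : ℝ)) ^ (2 / 3 : ℝ) * S + M, add_nonneg hA hM0, fun f hf => ?_⟩
  have h4 := hS' v₁ h1 f hf
  have i1 : Integrable fun x => |v₁ x| * f x ^ 2 := by
    simp only [sq]
    exact h1.abs.integrable_mul (potc_mul hf hf)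
  have i2 : Integrable fun x => M * (f x * f x) := (hf.1.integrable_mul hf.1).const_mul M
  have h5 := integral_mono_of_nonneg (f := fun x => |(v₁ + v₂) x| * f x ^ 2)
    (ae_of_all _ fun x => by positivity) (i1.add i2) (hM.mono fun x hx => by
      simp only [Pi.add_apply]
      nlinarith [abs_add_le (v₁ x) (v₂ x), sq_nonneg (f x)])
  simp only [Pi.add_apply] at h5 ⊢
  rw [integral_add i1 i2, integral_const_mul] at h5
  have d0 := dir_self_nonneg (b := eX) f
  have p0 : 0 ≤ ip f f := integral_nonneg fun x => mul_self_nonneg _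
  unfold ip at p0 ⊢
  nlinarith [mul_nonneg hA p0, mul_nonneg hM0 d0]

open Crest.MathPhysics.ThreeBody in
open Crest.MathPhysics.ThreeBody in
theorem potc_sq {v : X → ℝ} (hv : IsSumClassPotential v) {F : Z → ℝ} (hF : H1 eZ F) :
    AEStronglyMeasurable (fun p : Z => v p.1) volume ∧ Integrable fun p : Z => |v p.1| * F p ^ 2 := by
  obtain ⟨C, hC0, hC⟩ := sumClass_bound hv
  have m0 : AEStronglyMeasurable v volume := by
    obtain ⟨v₁, v₂, rfl, h1, h2⟩ := hv
    exact h1.1.add h2.1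
  have m1 : AEStronglyMeasurable (fun p : Z => v p.1) ((volume : Measure X).prod (volume : Measure Y)) :=
    m0.comp_fst
  have m2 : AEStronglyMeasurable (fun p : Z => |v p.1| * F p ^ 2)
      ((volume : Measure X).prod (volume : Measure Y)) := m1.norm.mul (hF.1.1.pow 2)
  have hD := ((ip_prod' hF.1 hF.1).1.add (H1.dirx_eq hF hF).1).const_mul C
  refine ⟨m1, (integrable_prod_iff' m2).2 ⟨?_, hD.mono' m2.norm.prod_swap.integral_prod_right' ?_⟩⟩
  · filter_upwards [H1.slice_left hF] with y hy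
    have := (sumClass_integrable hv hy.1 hy.1).abs
    simp only [mul_assoc, abs_mul (v _), abs_mul_self, ← sq, abs_sq] at this
    exact this
  · filter_upwards [H1.slice_left hF] with y hy
    rw [Real.norm_of_nonneg (integral_nonneg fun y => norm_nonneg _)]
    simp only [Real.norm_of_nonneg (mul_nonneg (abs_nonneg _) (sq_nonneg _))]
    exact hC _ hy.1

open Crest.MathPhysics.ThreeBody in
theorem potc_int1 {v : X → ℝ} (hv : IsSumClassPotential v) {F G : Z → ℝ} (hF : H1 eZ F) (hG : H1 eZ G) :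
    Integrable fun p : Z => v p.1 * F p * G p := by
  obtain ⟨m, h1⟩ := potc_sq hv hF
  obtain ⟨-, h2⟩ := potc_sq hv hG
  refine (h1.add h2).mono' ((m.mul hF.1.1).mul hG.1.1) (ae_of_all _ fun p => ?_)
  simp only [Pi.add_apply, Real.norm_eq_abs, abs_mul]
  rw [← sq_abs (F p), ← sq_abs (G p)]
  nlinarith [mul_nonneg (abs_nonneg (v p.1)) (sq_nonneg (|F p| - |G p|)),
    mul_nonneg (abs_nonneg (v p.1)) (mul_nonneg (abs_nonneg (F p)) (abs_nonneg (G p)))]

open Crest.MathPhysics.ThreeBody in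

theorem sumClass_integrable3 {v : X → ℝ} (hv : IsSumClassPotential v) {F G : Z → ℝ}
    (hF : H1 eZ F) (hG : H1 eZ G) : (Integrable fun p : Z => v p.1 * F p * G p) ∧
      (Integrable fun p : Z => v p.2.1 * F p * G p) ∧
        Integrable fun p : Z => v p.2.2 * F p * G p := by
  exact ⟨potc_int1 hv hF hG, sym_12.integrable.1 (potc_int1 hv (sym_12.h1 hF) (sym_12.h1 hG)),
    sym_13.integrable.1 (potc_int1 hv (sym_13.h1 hF) (sym_13.h1 hG))⟩

/-- The tail of an `L^{3/2}` potential is a small form perturbation. -/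
theorem tail_small {v : X → ℝ} (hv : MemLp v (3 / 2 : ℝ≥0∞) volume) {ε : ℝ} (hε : 0 < ε) :
    ∃ r : ℝ, (∀ f : X → ℝ, H1 eX f → (∀ᵐ x : X, ‖x‖ < r → f x = 0) →
      ∫ x, |v x| * f x ^ 2 ≤ ε * dir eX f f) ∧
      ∀ x0 : X, r + 1 ≤ ‖x0‖ → IntegrableOn v (ball x0 1) ∧ ∫ x in ball x0 1, |v x| ≤ ε := by
  obtain ⟨S, hS, hS'⟩ := potc_holder
  have i0 : Integrable fun x => |v x| ^ (3 / 2 : ℝ) := by
    have := hv.integrable_norm_rpow (by simp) (by rw [← potc_of]; exact ENNReal.ofReal_ne_top)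
    rw [← potc_of, ENNReal.toReal_ofReal (by norm_num)] at this
    exact this
  have ms : ∀ r : ℝ, MeasurableSet {x : X | r ≤ ‖x‖} := fun r =>
    (isClosed_le continuous_const continuous_norm).measurableSet
  have t0 := tendsto_setIntegral_of_antitone (μ := volume) (f := fun x => |v x| ^ (3 / 2 : ℝ))
    (s := fun n : ℕ => {x : X | (n : ℝ) ≤ ‖x‖}) (fun n => ms n)
    (fun m n hmn x (hx : (n : ℝ) ≤ ‖x‖) => le_trans (Nat.cast_le.2 hmn) hx) ⟨0, i0.integrableOn⟩
  have e0 : ⋂ n : ℕ, {x : X | (n : ℝ) ≤ ‖x‖} = ∅ := by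
    refine eq_empty_of_forall_notMem fun x hx => ?_
    obtain ⟨n, hn⟩ := exists_nat_gt ‖x‖
    exact not_le.2 hn (mem_iInter.1 hx n)
  rw [e0, Measure.restrict_empty, integral_zero_measure] at t0
  have t1 := t0.rpow_const (p := 2 / 3) (Or.inr (by norm_num))
  rw [Real.zero_rpow (by norm_num)] at t1
  have t2 := t1.mul_const S
  have t3 := t1.mul_const ((volume.real (ball (0 : X) 1)) ^ (1 / 3 : ℝ))
  rw [zero_mul] at t2 t3
  obtain ⟨n, h2, h3⟩ := ((t2.eventually (gt_mem_nhds hε)).and (t3.eventually (gt_mem_nhds hε))).exists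
  refine ⟨n, fun f hf h0 => ?_, fun x0 hx0 => ?_⟩
  · have h4 := hS' _ (hv.indicator (ms n)) f hf
    have e1 : ∀ x, |{x : X | (n : ℝ) ≤ ‖x‖}.indicator v x| ^ (3 / 2 : ℝ) =
        {x : X | (n : ℝ) ≤ ‖x‖}.indicator (fun x => |v x| ^ (3 / 2 : ℝ)) x := fun x => by
      by_cases hx : x ∈ {x : X | (n : ℝ) ≤ ‖x‖}
      · simp only [indicator_of_mem hx]
      · simp only [indicator_of_notMem hx, abs_zero]
        exact Real.zero_rpow (by norm_num)
    simp only [e1] at h4
    rw [integral_indicator (ms n)] at h4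
    refine le_trans (le_of_eq (integral_congr_ae ?_))
      (h4.trans (mul_le_mul_of_nonneg_right h2.le (dir_self_nonneg f)))
    filter_upwards [h0] with x hx
    by_cases hx' : x ∈ {x : X | (n : ℝ) ≤ ‖x‖}
    · rw [indicator_of_mem hx']
    · rw [hx (not_le.1 hx')]; simp
  · have : IsFiniteMeasure (volume.restrict (ball x0 1)) :=
      isFiniteMeasure_restrict.2 measure_ball_lt_top.ne
    have hv' := hv.restrict (ball x0 1)
    refine ⟨hv'.integrable (by rw [← potc_of]; exact ENNReal.one_le_ofReal.2 (by norm_num)), ?_⟩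
    have h1 := integral_mul_le_Lp_mul_Lq_of_nonneg potc_conj (μ := volume.restrict (ball x0 1))
      (f := fun x => |v x|) (g := fun _ => 1) (ae_of_all _ fun x => abs_nonneg _)
      (ae_of_all _ fun x => zero_le_one) (by rw [potc_of]; exact hv'.abs) (memLp_const 1)
    simp only [mul_one, Real.one_rpow, integral_const, smul_eq_mul, measureReal_restrict_apply_univ] at h1
    rw [show (1 / (3 / 2) : ℝ) = 2 / 3 by norm_num, Measure.addHaar_real_ball_center] at h1
    refine h1.trans (le_trans (mul_le_mul_of_nonneg_right (Real.rpow_le_rpow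
      (integral_nonneg fun x => Real.rpow_nonneg (abs_nonneg _) _) ?_ (by norm_num)) (by positivity)) h3.le)
    refine setIntegral_mono_set i0.integrableOn (ae_of_all _ fun x => Real.rpow_nonneg (abs_nonneg _) _)
      (LE.le.eventuallyLE fun x hx => ?_)
    rw [mem_ball, dist_eq_norm] at hx
    have := norm_le_norm_add_norm_sub' x0 x
    rw [norm_sub_rev] at this
    show (n : ℝ) ≤ ‖x‖
    linarith

end R3

end Crest.Agent.R335
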