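/-
R335/T/Poin: Poincare inequalities on balls, translations
Skeleton by helper48 (row 335); keep the statements unchanged, add any helper lemmas you like.
-/
import Crest.Agent.R335.T.Pos
import Crest.Agent.R335.T.Cov

set_option autoImplicit false
set_option linter.unusedSectionVars false
set_option linter.unusedVariables false
set_option linter.unusedSimpArgs false

noncomputable section

namespace Crest.Agent.R335

open MeasureTheory Set Filter Topology Metric
open scoped ENNReal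


variable {f : X → ℝ}

theorem poin_seg {φ : X → ℝ} (hφ : ContDiff ℝ 1 φ) (p v : X) :
    (φ (p + v) - φ p) ^ 2 ≤ ‖v‖ ^ 2 * ∫ s in (0 : ℝ)..1, ‖fderiv ℝ φ (p + s • v)‖ ^ 2 := by
  have hc := hφ.continuous_fderiv one_ne_zero
  have h1 : ∫ s in (0 : ℝ)..1, fderiv ℝ φ (p + s • v) v = φ (p + v) - φ p := by
    rw [intervalIntegral.integral_eq_sub_of_hasDerivAt (f := fun s : ℝ => φ (p + s • v))
      (fun s _ => by
        simpa [Function.comp_def] using (hφ.differentiable one_ne_zero _).hasFDerivAt.comp_hasDerivAt s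
          (((hasDerivAt_id s).smul_const v).const_add p))
      (Continuous.intervalIntegrable (by fun_prop) _ _)]
    simp
  generalize φ (p + v) - φ p = d at h1
  have h2 : ∫ s in (0 : ℝ)..1, 2 * d * fderiv ℝ φ (p + s • v) v ≤
      ∫ s in (0 : ℝ)..1, (d ^ 2 + ‖v‖ ^ 2 * ‖fderiv ℝ φ (p + s • v)‖ ^ 2) :=
    intervalIntegral.integral_mono_on zero_le_one (Continuous.intervalIntegrable (by fun_prop) _ _)
      (Continuous.intervalIntegrable (by fun_prop) _ _) fun s _ => by
        have h3 := pow_le_pow_left₀ (norm_nonneg _) ((fderiv ℝ φ (p + s • v)).le_opNorm v) 2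
        rw [Real.norm_eq_abs, sq_abs] at h3
        nlinarith [sq_nonneg (d - fderiv ℝ φ (p + s • v) v)]
  rw [intervalIntegral.integral_const_mul, h1, intervalIntegral.integral_add (by simp)
    (Continuous.intervalIntegrable (by fun_prop) _ _), intervalIntegral.integral_const_mul] at h2
  simp only [intervalIntegral.integral_const, sub_zero, one_smul] at h2
  linarith

instance poin_fin (x0 : X) (r : ℝ) : IsFiniteMeasure (volume.restrict (ball x0 r)) :=
  isFiniteMeasure_restrict.2 measure_ball_lt_top.ne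

instance poin_fin' (a c : ℝ) : IsFiniteMeasure (volume.restrict (uIoc a c)) :=
  isFiniteMeasure_restrict.2 measure_Ioc_lt_top.ne

theorem poin_half {φ : X → ℝ} (hφ : Tst φ) {x0 x : X} {r : ℝ} (hx : x ∈ ball x0 r) :
    ∫ y in ball x0 r, (φ y - φ ((1 / 2 : ℝ) • (x + y))) ^ 2 ≤
      8 * r ^ 2 * ∫ y in ball x0 r, ‖fderiv ℝ φ y‖ ^ 2 := by
  have hc := hφ.1.continuous_fderiv one_ne_zero
  obtain ⟨K, hK⟩ := hc.bounded_above_of_compact_support (hφ.2.fderiv ℝ)
  have hG : Integrable ((ball x0 r).indicator fun y => ‖fderiv ℝ φ y‖ ^ 2) :=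
    (integrable_indicator_iff measurableSet_ball).2 (Integrable.of_bound (by fun_prop) (K ^ 2)
      (.of_forall fun y => by
        rw [Real.norm_of_nonneg (sq_nonneg _)]
        exact pow_le_pow_left₀ (norm_nonneg _) (hK y) 2))
  have hi : Integrable (Function.uncurry fun (s : ℝ) (y : X) =>
      ‖fderiv ℝ φ ((1 / 2 : ℝ) • (x + y) + s • (1 / 2 : ℝ) • (y - x))‖ ^ 2)
      ((volume.restrict (uIoc 0 1)).prod (volume.restrict (ball x0 r))) :=
    Integrable.of_bound (Continuous.aestronglyMeasurable (by unfold Function.uncurry; fun_prop)) (K ^ 2)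
      (.of_forall fun p => by
        rw [Function.uncurry, Real.norm_of_nonneg (sq_nonneg _)]
        exact pow_le_pow_left₀ (norm_nonneg _) (hK _) 2)
  have h1 : ∫ y in ball x0 r, (φ y - φ ((1 / 2 : ℝ) • (x + y))) ^ 2 ≤ ∫ y in ball x0 r,
      r ^ 2 * ∫ s in (0 : ℝ)..1, ‖fderiv ℝ φ ((1 / 2 : ℝ) • (x + y) + s • (1 / 2 : ℝ) • (y - x))‖ ^ 2 := by
    refine integral_mono_of_nonneg (.of_forall fun y => sq_nonneg _) (Integrable.const_mul ?_ _)
      ((ae_restrict_mem measurableSet_ball).mono fun y hy => ?_)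
    · simpa only [intervalIntegral.integral_of_le zero_le_one, uIoc_of_le zero_le_one,
        Function.uncurry] using hi.integral_prod_right
    · have h2 := poin_seg hφ.1 ((1 / 2 : ℝ) • (x + y)) ((1 / 2 : ℝ) • (y - x))
      rw [show (1 / 2 : ℝ) • (x + y) + (1 / 2 : ℝ) • (y - x) = y by module] at h2
      refine h2.trans (mul_le_mul_of_nonneg_right (pow_le_pow_left₀ (norm_nonneg _) ?_ 2)
        (intervalIntegral.integral_nonneg zero_le_one fun s _ => sq_nonneg _))
      rw [norm_smul, Real.norm_of_nonneg (by norm_num), ← dist_eq_norm]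
      linarith [dist_triangle_right y x x0, mem_ball.1 hx, mem_ball.1 hy]
  rw [integral_const_mul, ← intervalIntegral_integral_swap hi] at h1
  refine h1.trans ?_
  rw [mul_comm 8, mul_assoc]
  refine mul_le_mul_of_nonneg_left ?_ (sq_nonneg _)
  refine (intervalIntegral.integral_mono_on zero_le_one (intervalIntegrable_iff.2 hi.integral_prod_left)
    (intervalIntegrable_const (c := 8 * ∫ y in ball x0 r, ‖fderiv ℝ φ y‖ ^ 2)) fun s hs => ?_).trans
    (by simp)
  have hs0 : (1 + s) / 2 ≠ 0 := by linarith [hs.1]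
  have e : ∀ y : X, (1 / 2 : ℝ) • (x + y) + s • (1 / 2 : ℝ) • (y - x) =
      ((1 - s) / 2) • x + ((1 + s) / 2) • y := fun y => by module
  have h3 := Measure.integral_comp_smul volume
    (fun z => (ball x0 r).indicator (fun y => ‖fderiv ℝ φ y‖ ^ 2) (((1 - s) / 2) • x + z)) ((1 + s) / 2)
  rw [integral_add_left_eq_self ((ball x0 r).indicator fun y => ‖fderiv ℝ φ y‖ ^ 2),
    integral_indicator measurableSet_ball, finrank_euclideanSpace_fin, smul_eq_mul] at h3
  refine le_trans ?_ (h3.le.trans (mul_le_mul_of_nonneg_right ?_ (integral_nonneg fun y => sq_nonneg _)))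
  · rw [← integral_indicator measurableSet_ball]
    refine integral_mono_of_nonneg (.of_forall fun y => indicator_nonneg (fun _ _ => sq_nonneg _) y)
      ((hG.comp_add_left _).comp_smul hs0) (.of_forall fun y => ?_)
    by_cases hy : y ∈ ball x0 r
    · simp only [indicator_of_mem hy, e, Function.uncurry]
      rw [indicator_of_mem (convex_ball x0 r hx hy (by linarith [hs.2]) (by linarith [hs.1]) (by ring))]
    · rw [indicator_of_notMem hy]
      exact indicator_nonneg (fun _ _ => sq_nonneg _) _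
  · have := hs.1
    rw [abs_of_pos (by positivity), inv_le_comm₀ (by positivity) (by norm_num)]
    exact le_trans (by norm_num) (pow_le_pow_left₀ (by norm_num : (0 : ℝ) ≤ 1 / 2) (by linarith) 3)

theorem poin_id {μ : Measure X} [IsFiniteMeasure μ] (hf : MemLp f 2 μ) :
    ∫ x, ∫ y, (f x - f y) ^ 2 ∂μ ∂μ =
      2 * (μ.real univ * (∫ x, f x ^ 2 ∂μ) - (∫ x, f x ∂μ) ^ 2) := by
  have i1 := hf.integrable one_le_two
  have i2 := hf.integrable_sq
  have e : ∀ a : ℝ, ∫ y, (a - f y) ^ 2 ∂μ =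
      μ.real univ * a ^ 2 - 2 * (∫ x, f x ∂μ) * a + ∫ x, f x ^ 2 ∂μ := fun a => by
    have i3 : Integrable (fun y => a ^ 2 - 2 * a * f y) μ := (integrable_const _).sub (i1.const_mul _)
    simp only [sub_sq]
    rw [integral_add i3 i2, integral_sub (integrable_const _) (i1.const_mul _), integral_const_mul,
      integral_const, smul_eq_mul]
    ring
  have i4 : Integrable (fun x => μ.real univ * f x ^ 2 - 2 * (∫ x, f x ∂μ) * f x) μ :=
    (i2.const_mul _).sub (i1.const_mul _)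
  simp only [e]
  rw [integral_add i4 (integrable_const _), integral_sub (i2.const_mul _) (i1.const_mul _),
    integral_const_mul, integral_const_mul, integral_const, smul_eq_mul]
  ring

theorem poin_tst {φ : X → ℝ} (hφ : Tst φ) (x0 : X) (r : ℝ) :
    ∫ x in ball x0 r, ∫ y in ball x0 r, (φ x - φ y) ^ 2 ≤
      32 * r ^ 2 * volume.real (ball x0 r) * ∫ y in ball x0 r, ‖fderiv ℝ φ y‖ ^ 2 := by
  have hc := hφ.cont
  obtain ⟨K, hK⟩ := hc.bounded_above_of_compact_support hφ.2
  have hi : ∀ {a c : X × X → X}, Continuous a → Continuous c → Integrable (fun p => (φ (a p) - φ (c p)) ^ 2)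
      ((volume.restrict (ball x0 r)).prod (volume.restrict (ball x0 r))) := fun {a c} ha hc' =>
    Integrable.of_bound (by fun_prop) ((K + K) ^ 2) (.of_forall fun p => by
      rw [norm_pow]
      exact pow_le_pow_left₀ (norm_nonneg _) ((norm_sub_le _ _).trans (add_le_add (hK _) (hK _))) 2)
  have i1 := hi (c := fun p => (1 / 2 : ℝ) • (p.1 + p.2)) continuous_snd (by fun_prop)
  have i2 := hi (c := fun p => (1 / 2 : ℝ) • (p.2 + p.1)) continuous_fst (by fun_prop)
  have h1 := integral_mono (hi continuous_fst continuous_snd) ((i1.const_mul 2).add (i2.const_mul 2))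
    fun p => by
      simp only [Pi.add_apply, add_comm p.2 p.1]
      nlinarith [sq_nonneg (φ p.1 + φ p.2 - 2 * φ ((1 / 2 : ℝ) • (p.1 + p.2)))]
  rw [integral_add' (i1.const_mul 2) (i2.const_mul 2), integral_const_mul, integral_const_mul,
    integral_prod _ (hi continuous_fst continuous_snd), integral_prod _ i1,
    integral_prod_symm _ i2] at h1
  have h2 := integral_mono_ae i1.integral_prod_left (integrable_const _)
    ((ae_restrict_mem measurableSet_ball).mono fun x hx => poin_half hφ hx)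
  rw [integral_const, measureReal_restrict_apply_univ, smul_eq_mul] at h2
  linarith

theorem poin_lim {F G : ℕ → X → ℝ} {g : X → ℝ} (hF : ∀ n, MemLp (F n) 2 volume)
    (hG : ∀ n, MemLp (G n) 2 volume) (hf : MemLp f 2 volume) (hg : MemLp g 2 volume)
    (h1 : L2to F f) (h2 : L2to G g) {S : Set X} (hS : MeasurableSet S) :
    Tendsto (fun n => ∫ x in S, F n x * G n x) atTop (𝓝 (∫ x in S, f x * g x)) := by
  have hm : AEStronglyMeasurable (S.indicator fun _ : X => (1 : ℝ)) volume :=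
    aestronglyMeasurable_const.indicator hS
  have hb : ∀ᵐ x : X, |S.indicator (fun _ : X => (1 : ℝ)) x| ≤ 1 :=
    .of_forall fun x => by by_cases h : x ∈ S <;> simp [h]
  have h3 := tendsto_ip (fun n => apx_memLp_mul (hF n) hm hb) hG (apx_memLp_mul hf hm hb) hg
    (L2to.mul_bdd (fun _ => hm) (fun _ => hb) (.of_forall fun x => tendsto_const_nhds) hF hf h1) h2
  simpa only [ip, mul_assoc, ← indicator_mul_left, one_mul, integral_indicator hS] using h3

theorem poin_vol (x0 : X) {r : ℝ} (hr : 0 < r) :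
    volume.real (ball x0 r) = r ^ 3 * volume.real (ball (0 : X) 1) := by
  rw [measureReal_def, Measure.addHaar_ball _ _ hr.le, ENNReal.toReal_mul, finrank_euclideanSpace_fin,
    ENNReal.toReal_ofReal (by positivity), measureReal_def]

theorem poin_vol_pos : 0 < volume.real (ball (0 : X) 1) :=
  ENNReal.toReal_pos (measure_ball_pos _ _ one_pos).ne' measure_ball_lt_top.ne

theorem poin_memLp (hf : LocL2 f) (x0 : X) (r : ℝ) : MemLp f 2 (volume.restrict (ball x0 r)) :=
  (hf (‖x0‖ + r)).mono_measure (Measure.restrict_mono (fun x hx => mem_closedBall_zero_iff.2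
    ((norm_le_insert' x x0).trans (add_le_add le_rfl (mem_ball_iff_norm.1 hx).le))) le_rfl)

theorem poin_base (hf : HL eX f) (x0 : X) (r : ℝ) :
    volume.real (ball x0 r) * (∫ x in ball x0 r, f x ^ 2) - (∫ x in ball x0 r, f x) ^ 2 ≤
      16 * r ^ 2 * volume.real (ball x0 r) * ∫ x in ball x0 r, dot eX f f x := by
  obtain ⟨g, hg, e⟩ := hf.exists_h1 (‖x0‖ + r)
  have e' := (ae_restrict_iff' (measurableSet_ball (x := x0) (ε := r))).2 (e.mono fun x hx hb => hx
    ((norm_le_insert' x x0).trans (add_le_add le_rfl (mem_ball_iff_norm.1 hb).le)))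
  rw [integral_congr_ae (e'.mono fun x hx => hx.1),
    integral_congr_ae (g := fun x => g x ^ 2) (e'.mono fun x hx => by simp only [hx.1]),
    integral_congr_ae (f := dot eX f f) (g := fun x => ∑ i, wd (eX i) g x * wd (eX i) g x)
      (e'.mono fun x hx => by simp only [dot, hx.2]),
    integral_finsetSum (f := fun i x => wd (eX i) g x * wd (eX i) g x) _ fun i _ =>
      ((hg.2 i).2.integrable_mul (hg.2 i).2).integrableOn]
  obtain ⟨φ, h1, h2, h3, -⟩ := hg.approx
  have m1 : MemLp ((ball x0 r).indicator fun _ => (1 : ℝ)) 2 volume :=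
    memLp_indicator_const 2 measurableSet_ball 1 (Or.inr measure_ball_lt_top.ne)
  have l1 := poin_lim (fun n => (h1 n).memLp) (fun n => (h1 n).memLp) hg.1 hg.1 h2 h2
    (measurableSet_ball (x := x0) (ε := r))
  have l2 := tendsto_ip (fun _ => m1) (fun n => (h1 n).memLp) m1 hg.1 (wd_L2to_const _) h2
  simp only [ip, ← indicator_mul_left, one_mul, integral_indicator measurableSet_ball] at l2
  simp only [← pow_two] at l1
  refine le_of_tendsto_of_tendsto' ((l1.const_mul _).sub (l2.pow 2)) (Tendsto.const_mul _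
    (tendsto_finsetSum _ fun i _ => poin_lim (fun n => (h1 n).memLp_d _) (fun n => (h1 n).memLp_d _)
      (hg.2 i).2 (hg.2 i).2 (h3 i) (h3 i) measurableSet_ball)) fun n => ?_
  have h4 := poin_tst (h1 n) x0 r
  rw [poin_id ((h1 n).memLp.restrict _), measureReal_restrict_apply_univ] at h4
  rw [← integral_finsetSum (f := fun i x => fderiv ℝ (φ n) x (eX i) * fderiv ℝ (φ n) x (eX i)) _
    fun i _ => (((h1 n).memLp_d _).integrable_mul ((h1 n).memLp_d _)).integrableOn]
  have e1 : ∀ x, ∑ i, fderiv ℝ (φ n) x (eX i) * fderiv ℝ (φ n) x (eX i) = ‖fderiv ℝ (φ n) x‖ ^ 2 :=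
    fun x => (Finset.sum_congr rfl fun i _ => (pow_two _).symm).trans (R338.gsq_eq_norm (φ n) x)
  simp only [e1]
  linarith

/-- Recipe: for `C¹` functions `(f x - f y)² ≤ (2r)² ∫_0^1 |∇f((1-s) x + s y)|² ds`; for `s ≥ 1/2`
substitute in `y`, for `s ≤ 1/2` in `x` (Jacobian at most 8); then `H1.approx` of a cut-off. -/
theorem poin_double : ∃ C : ℝ, 0 < C ∧ ∀ (f : X → ℝ) (x0 : X) (r : ℝ), HL eX f → 0 < r →
    ∫ x in ball x0 r, ∫ y in ball x0 r, (f x - f y) ^ 2 ≤
      C * r ^ 5 * ∫ x in ball x0 r, dot eX f f x := by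
  refine ⟨32 * volume.real (ball (0 : X) 1), mul_pos (by norm_num) poin_vol_pos, fun f x0 r hf hr => ?_⟩
  have h := poin_base hf x0 r
  rw [poin_id (poin_memLp hf.1 x0 r), measureReal_restrict_apply_univ]
  rw [poin_vol x0 hr] at h ⊢
  linarith

theorem poin_ball : ∃ C : ℝ, 0 < C ∧ ∀ (f : X → ℝ) (x0 : X) (r : ℝ), HL eX f → 0 < r →
    ∃ κ : ℝ, ∫ x in ball x0 r, (f x - κ) ^ 2 ≤ C * r ^ 2 * ∫ x in ball x0 r, dot eX f f x := by
  refine ⟨16, by norm_num, fun f x0 r hf hr => ⟨(∫ x in ball x0 r, f x) / volume.real (ball x0 r), ?_⟩⟩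
  have h := poin_base hf x0 r
  have hv : 0 < volume.real (ball x0 r) := by
    rw [poin_vol x0 hr]
    exact mul_pos (by positivity) poin_vol_pos
  have i1 := (poin_memLp hf.1 x0 r).integrable one_le_two
  have i2 := (poin_memLp hf.1 x0 r).integrable_sq
  generalize hκ : (∫ x in ball x0 r, f x) / volume.real (ball x0 r) = κ
  have i3 : Integrable (fun x => f x ^ 2 - 2 * f x * κ) (volume.restrict (ball x0 r)) :=
    i2.sub ((i1.const_mul 2).mul_const κ)
  simp only [sub_sq]
  rw [integral_add i3 (integrable_const _), integral_sub i2 ((i1.const_mul 2).mul_const κ),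
    integral_mul_const, integral_const_mul, integral_const, measureReal_restrict_apply_univ, smul_eq_mul]
  rw [(div_eq_iff hv.ne').1 hκ] at h ⊢
  refine le_of_mul_le_mul_left ?_ hv
  linarith

/-- `f` vanishes on a part of the ball of measure at least `θ r³`. -/
theorem poin_zero : ∃ C : ℝ, 0 < C ∧ ∀ (f : X → ℝ) (x0 : X) (r θ : ℝ), HL eX f → 0 < r → 0 < θ →
    ENNReal.ofReal (θ * r ^ 3) ≤ volume {x | x ∈ ball x0 r ∧ f x = 0} →
    ∫ x in ball x0 r, f x ^ 2 ≤ C / θ * r ^ 2 * ∫ x in ball x0 r, dot eX f f x := by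
  obtain ⟨C, hC, H⟩ := poin_ball
  have hv := poin_vol_pos
  refine ⟨4 * C * volume.real (ball (0 : X) 1), by positivity, fun f x0 r θ hf hr hθ h0 => ?_⟩
  obtain ⟨κ, hκ⟩ := H f x0 r hf hr
  have i1 : Integrable (fun x => (f x - κ) ^ 2) (volume.restrict (ball x0 r)) :=
    ((poin_memLp hf.1 x0 r).sub (memLp_const κ)).integrable_sq
  have h1 : θ * r ^ 3 ≤ (volume.restrict (ball x0 r)).real {x | κ ^ 2 ≤ (f x - κ) ^ 2} :=
    (ENNReal.ofReal_le_iff_le_toReal (measure_ne_top _ _)).1 (h0.trans ((measure_mono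
      (t := {x | κ ^ 2 ≤ (f x - κ) ^ 2} ∩ ball x0 r) fun x hx =>
      ⟨by simp [hx.2], hx.1⟩).trans (Measure.le_restrict_apply _ _)))
  have h2 := mul_meas_ge_le_integral_of_nonneg (.of_forall fun x => sq_nonneg _) i1 (κ ^ 2)
  have h3 : θ * r ^ 3 ≤ r ^ 3 * volume.real (ball (0 : X) 1) := by
    rw [← poin_vol x0 hr, ← measureReal_restrict_apply_univ]
    exact h1.trans (measureReal_mono (subset_univ _))
  have h4 : ∫ x in ball x0 r, f x ^ 2 ≤ ∫ x in ball x0 r, (2 * (f x - κ) ^ 2 + 2 * κ ^ 2) :=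
    integral_mono_of_nonneg (.of_forall fun x => sq_nonneg _) ((i1.const_mul 2).add (integrable_const _))
      (.of_forall fun x => by nlinarith [sq_nonneg (f x - 2 * κ)])
  rw [integral_add (i1.const_mul 2) (integrable_const _), integral_const_mul, integral_const,
    measureReal_restrict_apply_univ, smul_eq_mul, poin_vol x0 hr] at h4
  have h5 : 0 ≤ ∫ x in ball x0 r, (f x - κ) ^ 2 := integral_nonneg fun x => sq_nonneg _
  have h6 : θ ≤ volume.real (ball (0 : X) 1) :=
    le_of_mul_le_mul_right (h3.trans_eq (mul_comm _ _)) (by positivity)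
  rw [div_mul_eq_mul_div, div_mul_eq_mul_div, le_div_iff₀ hθ]
  nlinarith [mul_le_mul_of_nonneg_left h1 (sq_nonneg κ), mul_le_mul_of_nonneg_right h4 hθ.le,
    mul_le_mul_of_nonneg_left h6 h5, mul_le_mul_of_nonneg_left hκ hv.le,
    mul_le_mul_of_nonneg_left ((mul_le_mul_of_nonneg_left h1 (sq_nonneg κ)).trans h2) hv.le]

theorem poin_inf {μ : Measure X} {F : ℕ → X → ℝ} {K : ℝ} (hF : ∀ n, Integrable (fun x => F n x ^ 2) μ)
    (hK : ∀ n, ∫ x, F n x ^ 2 ∂μ ≤ K) : ∀ᵐ x ∂μ, ¬Tendsto (fun n => |F n x|) atTop atTop := by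
  have hm := fun n => (hF n).1.aemeasurable.ennreal_ofReal
  have h1 : ∫⁻ x, liminf (fun n => ENNReal.ofReal (F n x ^ 2)) atTop ∂μ ≤ ENNReal.ofReal K :=
    (lintegral_liminf_le' hm).trans (liminf_le_of_frequently_le' (.of_forall fun n => by
      rw [← ofReal_integral_eq_lintegral_ofReal (hF n) (.of_forall fun x => sq_nonneg _)]
      exact ENNReal.ofReal_le_ofReal (hK n)))
  have h0 : AEMeasurable (fun x => liminf (fun n => ENNReal.ofReal (F n x ^ 2)) atTop) μ :=
    (Measurable.liminf fun n => (hm n).measurable_mk).aemeasurable.congr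
      ((ae_all_iff.2 fun n => (hm n).ae_eq_mk).mono fun x hx => by simp only [hx])
  filter_upwards [ae_lt_top' h0 (ne_top_of_le_ne_top ENNReal.ofReal_ne_top h1)] with x hx h
  have h2 := ENNReal.tendsto_ofReal_atTop.comp ((tendsto_pow_atTop two_ne_zero).comp h)
  simp only [Function.comp_def, sq_abs] at h2
  exact hx.ne h2.liminf_eq

/-- Fatou in `poin_double`. -/
theorem log_null {L : ℕ → X → ℝ} {x0 : X} {r C : ℝ} (hr : 0 < r) (hL : ∀ n, HL eX (L n))
    (hC : ∀ n, ∫ x in ball x0 r, dot eX (L n) (L n) x ≤ C) {S0 S1 : Set X}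
    (h0 : ∀ᵐ x : X, x ∈ S0 → Tendsto (fun n => L n x) atTop atBot)
    (h1 : ∀ᵐ x : X, x ∈ S1 → ∃ l : ℝ, Tendsto (fun n => L n x) atTop (𝓝 l))
    (hS : volume (S1 ∩ ball x0 r) ≠ 0) (hm0 : MeasurableSet S0) (hm1 : MeasurableSet S1) :
    volume (S0 ∩ ball x0 r) = 0 := by
  obtain ⟨C0, hC0, H⟩ := poin_ball
  choose κ hκ using fun n => H (L n) x0 r (hL n) hr
  have i1 : ∀ n, Integrable (fun x => (L n x - κ n) ^ 2) (volume.restrict (ball x0 r)) := fun n =>
    ((poin_memLp (hL n).1 x0 r).sub (memLp_const _)).integrable_sq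
  have hK : ∀ n, ∫ x in ball x0 r, (L n x - κ n) ^ 2 ≤ C0 * r ^ 2 * C := fun n =>
    (hκ n).trans (mul_le_mul_of_nonneg_left (hC n) (by positivity))
  by_cases hb : Tendsto κ atTop atBot
  · refine absurd (measure_eq_zero_iff_ae_notMem.2 ?_) hS
    filter_upwards [(ae_restrict_iff' measurableSet_ball).1 (poin_inf i1 hK), h1] with x a1 a2 hx
    obtain ⟨l, hl⟩ := a2 hx.1
    exact a1 hx.2 (tendsto_abs_atTop_atTop.comp (hl.add_atTop (tendsto_neg_atBot_atTop.comp hb)))
  · obtain ⟨M, hM⟩ := not_forall.1 (mt tendsto_atBot.2 hb)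
    obtain ⟨ns, hns, h2⟩ := extraction_of_frequently_atTop (not_eventually.1 hM)
    refine measure_eq_zero_iff_ae_notMem.2 ?_
    filter_upwards [(ae_restrict_iff' measurableSet_ball).1
      (poin_inf (fun n => i1 (ns n)) fun n => hK (ns n)), h0] with x a1 a2 hx
    refine a1 hx.2 (tendsto_abs_atBot_atTop.comp (tendsto_atBot_mono (fun n => ?_)
      (((a2 hx.1).comp hns.tendsto_atTop).atBot_add (tendsto_const_nhds (x := -M)))))
    simp only [Function.comp_apply]
    linarith [not_le.1 (h2 n)]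

theorem poin_shift {φ : X → ℝ} (hφ : Tst φ) (a : X) :
    ∫ x, (φ (x + a) - φ x) ^ 2 ≤ ‖a‖ ^ 2 * ∫ x, ‖fderiv ℝ φ x‖ ^ 2 := by
  have hc := hφ.1.continuous_fderiv one_ne_zero
  obtain ⟨G, hG⟩ : ∃ G : X → ℝ, G = fun x => ‖fderiv ℝ φ x‖ ^ 2 := ⟨_, rfl⟩
  have cG : Continuous G := by rw [hG]; fun_prop
  have iG : Integrable G := by
    rw [hG]
    exact (hc.memLp_of_hasCompactSupport (hφ.2.fderiv ℝ)).integrable_norm_pow two_ne_zero
  have e1 : ∀ s : ℝ, ∫ x, G (x + s • a) = ∫ x, G x := fun s => integral_add_right_eq_self G _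
  have e2 : ∀ s : ℝ, ∫ x, ‖G (x + s • a)‖ = ∫ x, ‖G x‖ := fun s =>
    integral_add_right_eq_self (fun x => ‖G x‖) _
  have hi : Integrable (Function.uncurry fun (s : ℝ) (x : X) => G (x + s • a))
      ((volume.restrict (uIoc 0 1)).prod volume) :=
    (integrable_prod_iff (Continuous.aestronglyMeasurable (by unfold Function.uncurry; fun_prop))).2
      ⟨.of_forall fun s => iG.comp_add_right (s • a), by
        simp only [Function.uncurry, e2]
        exact integrable_const _⟩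
  have h4 := intervalIntegral_integral_swap hi
  simp only [e1, intervalIntegral.integral_const, sub_zero, one_smul] at h4
  rw [← hG, h4, ← integral_const_mul]
  refine integral_mono_of_nonneg (.of_forall fun x => sq_nonneg _) (Integrable.const_mul ?_ _)
    (.of_forall fun x => ?_)
  · simpa only [intervalIntegral.integral_of_le zero_le_one, uIoc_of_le zero_le_one,
      Function.uncurry] using hi.integral_prod_right
  · rw [hG]
    exact poin_seg hφ.1 x a

theorem poin_tr {g : X → ℝ} (hg : MemLp g 2 volume) (a : X) : MemLp (fun x => g (x + a)) 2 volume :=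
  hg.comp_measurePreserving (measurePreserving_add_right volume a)

theorem H1.shift_le (h : H1 eX f) (a : X) :
    ∫ x, (f (x + a) - f x) ^ 2 ≤ ‖a‖ ^ 2 * dir eX f f := by
  obtain ⟨φ, h1, h2, h3, -⟩ := h.approx
  have m1 : ∀ {g : X → ℝ}, MemLp g 2 volume → MemLp (fun x => g (x + a) + -g x) 2 volume := fun hg =>
    (poin_tr hg a).add hg.neg
  have l2 : L2to (fun n x => φ n (x + a)) fun x => f (x + a) :=
    Tendsto.congr (fun n => (integral_add_right_eq_self (fun x => (φ n x - f x) ^ 2) a).symm) h2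
  have l3 : L2to (fun n x => -φ n x) fun x => -f x :=
    Tendsto.congr (fun n => integral_congr_ae (.of_forall fun x => by ring)) h2
  have l0 : L2to (fun n x => φ n (x + a) + -φ n x) fun x => f (x + a) + -f x :=
    L2to.add (fun n => poin_tr (h1 n).memLp a) (fun n => (h1 n).memLp.neg) (poin_tr h.1 a) h.1.neg l2 l3
  have l1 := tendsto_ip (fun n => m1 (h1 n).memLp) (fun n => m1 (h1 n).memLp) (m1 h.1) (m1 h.1) l0 l0
  simp only [ip, ← pow_two, ← sub_eq_add_neg] at l1
  rw [h.dir_eq_sum h]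
  refine le_of_tendsto_of_tendsto' l1 (Tendsto.const_mul _ (tendsto_finsetSum _ fun i _ =>
    tendsto_ip (fun n => (h1 n).memLp_d _) (fun n => (h1 n).memLp_d _) (h.2 i).2 (h.2 i).2 (h3 i) (h3 i)))
    fun n => (poin_shift (h1 n) a).trans_eq ?_
  have e1 : ∀ x, ∑ i, fderiv ℝ (φ n) x (eX i) * fderiv ℝ (φ n) x (eX i) = ‖fderiv ℝ (φ n) x‖ ^ 2 :=
    fun x => (Finset.sum_congr rfl fun i _ => (pow_two _).symm).trans (R338.gsq_eq_norm (φ n) x)
  simp only [ip]
  rw [← integral_finsetSum (f := fun i x => fderiv ℝ (φ n) x (eX i) * fderiv ℝ (φ n) x (eX i)) _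
    fun i _ => ((h1 n).memLp_d _).integrable_mul ((h1 n).memLp_d _)]
  simp only [e1]

/-- Hardy inequality from a vector field `w` with `div w ≤ -p²`, `|w| ≤ A p²`, and a cut-off `χ`
with `w · ∇χ = 0`: integrate `div w · (χ ζ)²` by parts. -/
theorem hardy_field {w : Fin 3 → X → ℝ} (hw : ∀ i, ContDiff ℝ 1 (w i)) {p χ ζ : X → ℝ}
    (hp : Continuous p) (hχ : ContDiff ℝ 1 χ) (hζ : LT eX ζ) {A : ℝ} {S : Set X}
    (h0 : ∀ᵐ x : X, x ∉ S → ζ x = 0) (hS : IsOpen S)
    (hdiv : ∀ x ∈ S, ∑ i, fderiv ℝ (w i) x (eX i) ≤ -p x ^ 2)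
    (hA : ∀ x ∈ S, ∑ i, w i x ^ 2 ≤ A ^ 2 * p x ^ 4)
    (ht : ∀ x ∈ S, ∑ i, w i x * fderiv ℝ χ x (eX i) = 0) :
    ∫ x, p x ^ 2 * χ x ^ 2 * ζ x ^ 2 ≤ 4 * A ^ 2 * ∫ x, p x ^ 2 * χ x ^ 2 * dot eX ζ ζ x := by
  have hp2 : Continuous fun x => p x ^ 2 * χ x ^ 2 := (hp.pow 2).mul (hχ.continuous.pow 2)
  have l1 := LH.of_contDiff (b := eX) hχ
  have l2 : LT eX fun x => χ x * ζ x := l1.mul_LT hζ
  have l3 : LT eX fun x => (χ x * ζ x) ^ 2 := by simpa only [pow_two] using l2.1.mul_LT l2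
  obtain ⟨R, hR⟩ := l3.2
  have lw := fun i => LH.of_contDiff (b := eX) (hw i)
  have i1 : Integrable fun x => p x ^ 2 * χ x ^ 2 * ζ x ^ 2 := by
    simpa only [mul_pow, ← pow_two, mul_assoc] using
      l3.integrable_mul (.of_continuous hp) (.of_continuous hp)
  have i2 : Integrable fun x => p x ^ 2 * χ x ^ 2 * dot eX ζ ζ x :=
    hζ.1.1.integrable_mul_dot hp2.aestronglyMeasurable (.of_continuous hp2) hζ
  have i3 : ∀ i, Integrable fun x => wd (eX i) (w i) x * (χ x * ζ x) ^ 2 := fun i =>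
    integrable_of_supp (((lw i).1.2 i).2.integrableOn_mul l3.1.1.1 R)
      (hR.mono fun x hx h => by simp only [hx h, mul_zero])
  have i4 : ∀ i, Integrable fun x => w i x * wd (eX i) (fun x => (χ x * ζ x) ^ 2) x := fun i =>
    integrable_of_supp ((lw i).1.1.integrableOn_mul (l3.1.1.2 i).2 R)
      (((l3.1.1.2 i).1.zero_outside hR).mono fun x hx h => by simp only [hx h, mul_zero])
  have h1 : ∫ x, ∑ i, wd (eX i) (w i) x * (χ x * ζ x) ^ 2 ≤ ∫ x, -(p x ^ 2 * χ x ^ 2 * ζ x ^ 2) := by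
    refine integral_mono_ae (integrable_finsetSum _ fun i _ => i3 i) i1.neg ?_
    filter_upwards [ae_all_iff.2 fun i => wd_contDiff (hw i) (eX i), h0] with x a1 a2
    by_cases hx : x ∈ S
    · simp only [a1, ← Finset.sum_mul]
      nlinarith [mul_le_mul_of_nonneg_right (hdiv x hx) (sq_nonneg (χ x * ζ x))]
    · simp [a2 hx]
  have h2 : ∫ x, ∑ i, w i x * wd (eX i) (fun x => (χ x * ζ x) ^ 2) x ≤
      ∫ x, (1 / 2 * (p x ^ 2 * χ x ^ 2 * ζ x ^ 2) + 2 * A ^ 2 * (p x ^ 2 * χ x ^ 2 * dot eX ζ ζ x)) := by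
    refine integral_mono_ae (integrable_finsetSum _ fun i _ => i4 i)
      ((i1.const_mul _).add (i2.const_mul _)) ?_
    filter_upwards [ae_all_iff.2 l2.1.sq.2, ae_all_iff.2 (hζ.1.1.mul_contDiff hχ).2, h0] with x a1 a2 a3
    have a4 := dot_self_nonneg (b := eX) ζ x
    by_cases hx : x ∈ S
    · have a5 := Finset.sum_mul_sq_le_sq_mul_sq Finset.univ (fun i => w i x) fun i => wd (eX i) ζ x
      have a6 : ∑ i, wd (eX i) ζ x ^ 2 = dot eX ζ ζ x := by simp only [dot, pow_two]
      have a7 : ∑ i, w i x * wd (eX i) (fun x => (χ x * ζ x) ^ 2) x =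
          χ x ^ 2 * (2 * ζ x * ∑ i, w i x * wd (eX i) ζ x) +
            2 * χ x * ζ x ^ 2 * ∑ i, w i x * fderiv ℝ χ x (eX i) := by
        simp only [a1, a2, Finset.mul_sum, ← Finset.sum_add_distrib]
        exact Finset.sum_congr rfl fun i _ => by ring
      rw [a6] at a5
      have a8 := a5.trans (mul_le_mul_of_nonneg_right (hA x hx) a4)
      rw [a7, ht x hx, mul_zero, add_zero]
      generalize ∑ i, w i x * wd (eX i) ζ x = a at a8
      generalize dot eX ζ ζ x = d at a8 a4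
      have a9 : 2 * ζ x * a ≤ p x ^ 2 * (ζ x ^ 2 / 2 + 2 * A ^ 2 * d) := by
        refine (le_abs_self _).trans (abs_le_of_sq_le_sq ?_ (by positivity))
        nlinarith [mul_le_mul_of_nonneg_left a8 (sq_nonneg (ζ x)),
          sq_nonneg (p x ^ 2 * (ζ x ^ 2 / 2 - 2 * A ^ 2 * d))]
      nlinarith [mul_le_mul_of_nonneg_left a9 (sq_nonneg (χ x))]
    · simp only [a1, a3 hx, mul_zero, zero_mul, Finset.sum_const_zero, ne_eq, OfNat.ofNat_ne_zero,
        not_false_eq_true, zero_pow, zero_add]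
      positivity
  rw [integral_finsetSum _ fun i _ => i3 i, integral_neg,
    Finset.sum_congr rfl fun i _ => (lw i).1.ibp l3.1.1 hR i, Finset.sum_neg_distrib] at h1
  rw [integral_finsetSum _ fun i _ => i4 i, integral_add (i1.const_mul _) (i2.const_mul _),
    integral_const_mul, integral_const_mul] at h2
  linarith

theorem poin_step : ∃ (κ : ℝ → ℝ) (C : ℝ), 1 ≤ C ∧ ContDiff ℝ 2 κ ∧ (∀ t, 0 ≤ κ t ∧ κ t ≤ 1) ∧
    (∀ t, t ≤ 0 → κ t = 0) ∧ (∀ t, 1 ≤ t → κ t = 1) ∧ (∀ t, 0 ≤ deriv κ t ∧ deriv κ t ≤ C) ∧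
      (∀ t, |deriv (deriv κ) t| ≤ C) ∧ ∀ t, t < 0 → deriv κ t = 0 ∧ deriv (deriv κ) t = 0 := by
  have h1 : ContDiff ℝ 2 Real.smoothTransition := Real.smoothTransition.contDiff
  have h2 : ContDiff ℝ 1 (deriv Real.smoothTransition) := h1.deriv' (n := 1)
  have h3 : ∀ t, t < 0 → Real.smoothTransition =ᶠ[𝓝 t] fun _ => 0 := fun t ht => by
    filter_upwards [Iio_mem_nhds ht] with s hs using Real.smoothTransition.zero_of_nonpos (le_of_lt hs)
  have h4 : HasCompactSupport (deriv Real.smoothTransition) := by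
    refine HasCompactSupport.intro (isCompact_Icc (a := 0) (b := 1)) fun t ht => ?_
    rcases lt_or_ge t 0 with h | h
    · rw [(h3 t h).deriv_eq, deriv_const]
    · have h5 : Real.smoothTransition =ᶠ[𝓝 t] fun _ => 1 := by
        filter_upwards [Ioi_mem_nhds (not_le.1 fun h' => ht ⟨h, h'⟩)] with s hs using
          Real.smoothTransition.one_of_one_le (le_of_lt hs)
      rw [h5.deriv_eq, deriv_const]
  obtain ⟨C1, hC1⟩ := h2.continuous.bounded_above_of_compact_support h4
  obtain ⟨C2, hC2⟩ := (h2.continuous_deriv le_rfl).bounded_above_of_compact_support h4.deriv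
  refine ⟨_, max 1 (max C1 C2), le_max_left _ _, h1,
    fun t => ⟨Real.smoothTransition.nonneg t, Real.smoothTransition.le_one t⟩,
    fun t => Real.smoothTransition.zero_of_nonpos, fun t => Real.smoothTransition.one_of_one_le,
    fun t => ⟨Real.smoothTransition.monotone.deriv_nonneg, (le_abs_self _).trans ((hC1 t).trans
      (le_max_of_le_right (le_max_left _ _)))⟩,
    fun t => (hC2 t).trans (le_max_of_le_right (le_max_right _ _)), fun t ht => ⟨?_, ?_⟩⟩
  · rw [(h3 t ht).deriv_eq, deriv_const]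
  · rw [(h3 t ht).deriv.deriv_eq]
    simp

/-- Radial cut-offs. -/
theorem exists_radial_cutoff : ∃ C : ℝ, 1 ≤ C ∧ ∀ (p : X) (r s : ℝ), 0 ≤ r → 0 < s →
    ∃ χ : X → ℝ, ContDiff ℝ 2 χ ∧ HasCompactSupport χ ∧ (∀ x, 0 ≤ χ x ∧ χ x ≤ 1) ∧
      (∀ x, ‖x - p‖ ≤ r → χ x = 1) ∧ (∀ x, r + s ≤ ‖x - p‖ → χ x = 0) ∧
      (∀ x, ‖fderiv ℝ χ x‖ ≤ C / s) ∧
      (s ≤ r → ∀ x, |R338.lap χ x| ≤ C / s ^ 2) := by
  obtain ⟨κ, C, hC, h1, h2, h3, h4, h5, h6, h7⟩ := poin_step
  refine ⟨10 * C, by linarith, fun p r s hr hs => ?_⟩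
  obtain ⟨d, hd⟩ : ∃ d, d = s * (2 * r + s) := ⟨_, rfl⟩
  have d0 : 0 < d := by rw [hd]; positivity
  obtain ⟨u, hu⟩ : ∃ u : X → ℝ, u = fun x => ((r + s) ^ 2 - ‖x - p‖ ^ 2) / d := ⟨_, rfl⟩
  have cu : ContDiff ℝ 2 u := by
    rw [hu]
    exact (contDiff_const.sub ((contDiff_id.sub contDiff_const).norm_sq ℝ)).div_const d
  have du : ∀ x, DifferentiableAt ℝ u x := cu.differentiable two_ne_zero
  have pu : ∀ c x, R338.pd c u x = -2 / d * (x c - p c) := fun c x => by
    have : HasFDerivAt (fun x : X => ((r + s) ^ 2 - ‖x - p‖ ^ 2) * d⁻¹) _ x :=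
      ((((hasFDerivAt_id x).sub_const p).norm_sq).const_sub ((r + s) ^ 2)).mul_const d⁻¹
    simp only [hu, div_eq_mul_inv, R338.pd]
    rw [HasFDerivAt.fderiv this]
    simp [EuclideanSpace.inner_single_right]
    ring
  have out : ∀ x, r + s < ‖x - p‖ → u x < 0 := fun x hx => by
    rw [hu]
    exact div_neg_of_neg_of_pos (sub_neg.2 (pow_lt_pow_left₀ hx (by positivity) two_ne_zero)) d0
  have z : ∀ x, r + s ≤ ‖x - p‖ → κ (u x) = 0 := fun x hx => h3 _ (by
    rw [hu]
    exact div_nonpos_of_nonpos_of_nonneg (sub_nonpos.2 (pow_le_pow_left₀ (by positivity) hx 2)) d0.le)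
  have p1 : ∀ c, R338.pd c (fun x => κ (u x)) = fun x => deriv κ (u x) * (-2 / d * (x c - p c)) :=
    fun c => funext fun x => by
      rw [R338.pd_comp c (h1.differentiable two_ne_zero _).hasDerivAt (du x), pu]
  have sq : ∀ x : X, ∑ c, (x c - p c) ^ 2 = ‖x - p‖ ^ 2 := fun x => cov_sq (x - p)
  have key : ∀ x : X, ‖x - p‖ ≤ r + s → (2 / d) ^ 2 * ‖x - p‖ ^ 2 ≤ (2 / s) ^ 2 := fun x hx => by
    rw [← mul_pow]
    refine pow_le_pow_left₀ (by positivity) ?_ 2
    rw [div_mul_eq_mul_div, div_le_div_iff₀ d0 hs, hd]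
    nlinarith [mul_le_mul_of_nonneg_left hx hs.le, mul_nonneg hr hs.le]
  refine ⟨fun x => κ (u x), h1.comp cu, HasCompactSupport.intro (isCompact_closedBall p (r + s))
    fun x hx => z x (not_le.1 fun h => hx (mem_closedBall_iff_norm.2 h)).le, fun x => h2 _,
    fun x hx => h4 _ ?_, z, fun x => ?_, fun _ x => ?_⟩
  · rw [hu, le_div_iff₀ d0, hd]
    nlinarith [pow_le_pow_left₀ (norm_nonneg _) hx 2]
  · refine le_of_sq_le_sq ?_ (by positivity)
    have e : ‖fderiv ℝ (fun x => κ (u x)) x‖ ^ 2 = deriv κ (u x) ^ 2 * ((2 / d) ^ 2 * ‖x - p‖ ^ 2) := by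
      rw [← R338.gsq_eq_norm, R338.gsq, ← sq, Finset.mul_sum, Finset.mul_sum]
      exact Finset.sum_congr rfl fun c _ => by rw [p1]; ring
    rw [e]
    rcases le_or_gt ‖x - p‖ (r + s) with h | h
    · refine (mul_le_mul (pow_le_pow_left₀ (h5 _).1 (h5 _).2 2) (key x h) (by positivity)
        (sq_nonneg _)).trans ?_
      rw [← mul_pow]
      refine pow_le_pow_left₀ (by positivity) ?_ 2
      rw [← mul_div_assoc]
      exact div_le_div_of_nonneg_right (by linarith) hs.le
    · rw [(h7 _ (out x h)).1]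
      simpa using sq_nonneg _
  · have d2 : Differentiable ℝ (deriv κ) := (h1.deriv' (n := 1)).differentiable one_ne_zero
    have e : R338.lap (fun x => κ (u x)) x =
        deriv (deriv κ) (u x) * ((2 / d) ^ 2 * ‖x - p‖ ^ 2) - deriv κ (u x) * (6 / d) := by
      have e1 : ∀ c, R338.pd c (R338.pd c fun x => κ (u x)) x = deriv (deriv κ) (u x) *
          ((2 / d) ^ 2 * (x c - p c) ^ 2) - deriv κ (u x) * (2 / d) := fun c => by
        rw [p1, R338.pd_mul c (f := fun x => deriv κ (u x)) (g := fun x => -2 / d * (x c - p c))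
            ((d2 _).comp x (du x)) (by fun_prop),
          R338.pd_comp c (d2 _).hasDerivAt (du x), pu, R338.pd_coord c c (h := fun t => -2 / d * (t - p c))
            (((hasDerivAt_id (x c)).sub_const (p c)).const_mul (-2 / d)), if_pos rfl]
        ring
      simp only [R338.lap, e1, ← sq, Fin.sum_univ_three]
      ring
    rw [e]
    rcases le_or_gt ‖x - p‖ (r + s) with h | h
    · have a1 : 6 / d ≤ 6 / s ^ 2 := div_le_div_of_nonneg_left (by norm_num) (by positivity) (by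
        rw [hd]; nlinarith [mul_nonneg hr hs.le])
      refine (abs_sub _ _).trans ?_
      rw [abs_mul, abs_mul (deriv κ _), abs_of_nonneg (h5 _).1, abs_of_pos (by positivity : 0 < 6 / d),
        abs_of_nonneg (by positivity : 0 ≤ (2 / d) ^ 2 * ‖x - p‖ ^ 2)]
      refine (add_le_add (mul_le_mul (h6 _) (key x h) (by positivity) (by linarith))
        (mul_le_mul (h5 _).2 a1 (by positivity) (by linarith))).trans_eq ?_
      ring
    · rw [(h7 _ (out x h)).1, (h7 _ (out x h)).2]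
      simpa using by positivity

/-- One-dimensional cut-offs. -/
theorem exists_step : ∃ (κ : ℝ → ℝ) (C : ℝ), 1 ≤ C ∧ ContDiff ℝ 2 κ ∧ (∀ t, 0 ≤ κ t ∧ κ t ≤ 1) ∧
    (∀ t, t ≤ 0 → κ t = 0) ∧ (∀ t, 1 ≤ t → κ t = 1) ∧ (∀ t, 0 ≤ deriv κ t ∧ deriv κ t ≤ C) ∧
      ∀ t, |deriv (deriv κ) t| ≤ C := by
  obtain ⟨κ, C, h1, h2, h3, h4, h5, h6, h7, -⟩ := poin_step
  exact ⟨κ, C, h1, h2, h3, h4, h5, h6, h7⟩

theorem sum_fderiv_sq (χ : X → ℝ) (x : X) : ∑ i, fderiv ℝ χ x (eX i) ^ 2 = ‖fderiv ℝ χ x‖ ^ 2 := by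
  exact R338.gsq_eq_norm χ x

end Crest.Agent.R335
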