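/-
R335/T/Slab: functions that vanish on a hyperplane are small in a thin slab (helper77)
-/
import Crest.Agent.R335.T.Approx

set_option autoImplicit false
set_option linter.unusedSectionVars false
set_option linter.unusedVariables false
set_option linter.unusedSimpArgs false

noncomputable section

namespace Crest.Agent.R335

open MeasureTheory Set Filter Topology Metric
open scoped ENNReal

variable {E : Type} [NormedAddCommGroup E] [NormedSpace ℝ E] [FiniteDimensional ℝ E]
  [MeasureSpace E] [BorelSpace E] [(volume : Measure E).IsAddHaarMeasure]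
  {ι : Type} [Fintype ι] {b : ι → E}

/-- The slab `0 < ℓ < t`. -/
def slab (ℓ : E →L[ℝ] ℝ) (t : ℝ) : Set E := {x | 0 < ℓ x ∧ ℓ x < t}

theorem slab_meas (ℓ : E →L[ℝ] ℝ) (t : ℝ) : MeasurableSet (slab ℓ t) :=
  ℓ.continuous.measurable measurableSet_Ioo

/-- Averaging along the direction `e`. -/
theorem slab_avg {u h : E → ℝ} (hu : Integrable u) (hu0 : ∀ x, 0 ≤ u x) (hm : Measurable h)
    (hh : Integrable h) (h0 : ∀ x, 0 ≤ h x) (e : E) {t : ℝ} (ht : 0 ≤ t)
    (hle : ∀ x, ENNReal.ofReal (u x) ≤ ∫⁻ s in Ioo 0 t, ENNReal.ofReal (h (x - s • e))) :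
    ∫ x, u x ≤ t * ∫ x, h x := by
  have h1 : ∫⁻ x, ENNReal.ofReal (u x) ≤ ENNReal.ofReal t * ∫⁻ x, ENNReal.ofReal (h x) := by
    refine (lintegral_mono hle).trans (le_of_eq ?_)
    rw [lintegral_lintegral_swap]
    · simp only [lintegral_sub_right_eq_self (fun x => ENNReal.ofReal (h x))]
      rw [setLIntegral_const, Real.volume_Ioo, sub_zero, mul_comm]
    · exact (ENNReal.measurable_ofReal.comp (hm.comp (by fun_prop))).aemeasurable
  rw [← ofReal_integral_eq_lintegral_ofReal hu (.of_forall hu0),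
    ← ofReal_integral_eq_lintegral_ofReal hh (.of_forall h0), ← ENNReal.ofReal_mul ht] at h1
  exact (ENNReal.ofReal_le_ofReal_iff (mul_nonneg ht (integral_nonneg h0))).1 h1

theorem slab_tst {ℓ : E →L[ℝ] ℝ} {e : E} (he : ℓ e = 1) {φ : E → ℝ} (hφ : Tst φ)
    (h0 : ∀ x, ℓ x = 0 → φ x = 0) {t : ℝ} (ht : 0 < t) :
    ∫ x in slab ℓ t, φ x ^ 2 ≤ 4 * t ^ 2 * ∫ x in slab ℓ t, fderiv ℝ φ x e ^ 2 := by
  have i1 : Integrable fun x => φ x ^ 2 := hφ.memLp.integrable_sq
  have i2 : Integrable fun x => fderiv ℝ φ x e ^ 2 := (hφ.memLp_d e).integrable_sq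
  have c1 : Continuous fun x => (2 * t)⁻¹ * φ x ^ 2 + 2 * t * fderiv ℝ φ x e ^ 2 :=
    (continuous_const.mul (hφ.cont.pow 2)).add (continuous_const.mul ((hφ.dcont e).pow 2))
  have i3 : Integrable fun x => (2 * t)⁻¹ * φ x ^ 2 + 2 * t * fderiv ℝ φ x e ^ 2 :=
    (i1.const_mul _).add (i2.const_mul _)
  have p1 : ∀ x, 0 ≤ (2 * t)⁻¹ * φ x ^ 2 + 2 * t * fderiv ℝ φ x e ^ 2 := fun x => by positivity
  have hS := slab_meas ℓ t
  have h1 := slab_avg (u := (slab ℓ t).indicator fun x => φ x ^ 2)
    (h := (slab ℓ t).indicator fun x => (2 * t)⁻¹ * φ x ^ 2 + 2 * t * fderiv ℝ φ x e ^ 2)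
    (i1.indicator hS) (fun x => indicator_nonneg (fun _ _ => sq_nonneg _) x)
    (c1.measurable.indicator hS) (i3.indicator hS) (fun x => indicator_nonneg (fun y _ => p1 y) x)
    e ht.le fun x => by
      by_cases hx : x ∈ slab ℓ t
      swap
      · rw [indicator_of_notMem hx, ENNReal.ofReal_zero]
        exact zero_le
      rw [indicator_of_mem hx]
      have cs : Continuous fun s : ℝ => x - s • e := by fun_prop
      have hd : ∀ s : ℝ, HasDerivAt (fun s : ℝ => -φ (x - s • e) ^ 2)
          (2 * φ (x - s • e) * fderiv ℝ φ (x - s • e) e) s := fun s => by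
        have a1 : HasDerivAt (fun s : ℝ => x - s • e) (-e) s := by
          simpa using ((hasDerivAt_id s).smul_const e).const_sub x
        have a2 := ((hφ.1.differentiable one_ne_zero _).hasFDerivAt.comp_hasDerivAt s a1).pow 2
        refine a2.neg.congr_deriv ?_
        simp only [Function.comp, map_neg]
        ring
      have a3 := intervalIntegral.integral_eq_sub_of_hasDerivAt (a := 0) (b := ℓ x)
        (fun s _ => hd s) (((continuous_const.mul (hφ.cont.comp cs)).mul
          ((hφ.dcont e).comp cs)).intervalIntegrable _ _)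
      rw [h0 (x - ℓ x • e) (by simp [he])] at a3
      simp only [zero_smul, sub_zero, ne_eq, OfNat.ofNat_ne_zero, not_false_eq_true, zero_pow,
        neg_zero, sub_neg_eq_add, zero_add] at a3
      have a4 : φ x ^ 2 ≤ ∫ s in Ioo 0 (ℓ x),
          ((2 * t)⁻¹ * φ (x - s • e) ^ 2 + 2 * t * fderiv ℝ φ (x - s • e) e ^ 2) := by
        rw [← a3, ← integral_Ioc_eq_integral_Ioo, ← intervalIntegral.integral_of_le hx.1.le]
        refine intervalIntegral.integral_mono_on hx.1.le
          (((continuous_const.mul (hφ.cont.comp cs)).mul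
            ((hφ.dcont e).comp cs)).intervalIntegrable _ _)
          ((c1.comp cs).intervalIntegrable _ _) fun s _ => ?_
        have a5 : (2 * t)⁻¹ * φ (x - s • e) ^ 2 + 2 * t * fderiv ℝ φ (x - s • e) e ^ 2 -
            2 * φ (x - s • e) * fderiv ℝ φ (x - s • e) e =
            (2 * t)⁻¹ * (φ (x - s • e) - 2 * t * fderiv ℝ φ (x - s • e) e) ^ 2 := by
          field_simp
          ring
        have a6 : 0 ≤ (2 * t)⁻¹ * (φ (x - s • e) - 2 * t * fderiv ℝ φ (x - s • e) e) ^ 2 := by
          positivity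
        linarith
      refine (ENNReal.ofReal_le_ofReal a4).trans ?_
      have a8 : IntegrableOn (fun s : ℝ => (2 * t)⁻¹ * φ (x - s • e) ^ 2 +
          2 * t * fderiv ℝ φ (x - s • e) e ^ 2) (Ioo 0 (ℓ x)) volume :=
        ((c1.comp cs).integrableOn_Icc (a := 0) (b := ℓ x)).mono_set Ioo_subset_Icc_self
      rw [ofReal_integral_eq_lintegral_ofReal a8 (.of_forall fun s => p1 _)]
      refine le_trans (le_of_eq ?_) (lintegral_mono_set (Ioo_subset_Ioo_right hx.2.le))
      refine setLIntegral_congr_fun measurableSet_Ioo fun s hs => ?_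
      have a7 : x - s • e ∈ slab ℓ t := by
        simp only [slab, mem_ofPred_eq, map_sub, map_smul, he, smul_eq_mul, mul_one]
        exact ⟨sub_pos.2 hs.2, by linarith [hs.1, hx.2]⟩
      simp only [indicator_of_mem a7, Function.comp]
  rw [integral_indicator hS, integral_indicator hS,
    integral_add (i1.const_mul _).integrableOn (i2.const_mul _).integrableOn, integral_const_mul,
    integral_const_mul, mul_add, ← mul_assoc, ← mul_assoc,
    show t * (2 * t)⁻¹ = 1 / 2 by field_simp] at h1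
  linarith

theorem slab_tendsto_sq {F : ℕ → E → ℝ} {f : E → ℝ} (hF : ∀ n, MemLp (F n) 2 volume)
    (hf : MemLp f 2 volume) (h : L2to F f) {S : Set E} (hS : MeasurableSet S) :
    Tendsto (fun n => ∫ x in S, F n x ^ 2) atTop (𝓝 (∫ x in S, f x ^ 2)) := by
  have h1 : L2to (fun n => S.indicator (F n)) (S.indicator f) := by
    refine squeeze_zero (fun n => integral_nonneg fun x => sq_nonneg _) (fun n => ?_) h
    refine integral_mono (((hF n).indicator hS).sub (hf.indicator hS)).integrable_sq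
      ((hF n).sub hf).integrable_sq fun x => ?_
    by_cases hx : x ∈ S
    · simp only [indicator_of_mem hx, le_refl]
    · simp only [indicator_of_notMem hx, sub_zero, ne_eq, OfNat.ofNat_ne_zero, not_false_eq_true,
        zero_pow]
      exact sq_nonneg _
  have h2 := tendsto_ip (fun n => (hF n).indicator hS) hF (hf.indicator hS) hf h1 h
  have e : ∀ g : E → ℝ, ip (S.indicator g) g = ∫ x in S, g x ^ 2 := fun g => by
    rw [ip, ← integral_indicator hS]
    refine integral_congr_ae (.of_forall fun x => ?_)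
    by_cases hx : x ∈ S
    · simp only [indicator_of_mem hx, sq]
    · simp only [indicator_of_notMem hx, zero_mul]
  simpa only [e] using h2

theorem slab_tendsto_zero (ℓ : E →L[ℝ] ℝ) {h : E → ℝ} (hh : Integrable h) :
    Tendsto (fun t => ∫ x in slab ℓ t, h x) (𝓝[>] 0) (𝓝 0) := by
  have h1 := tendsto_integral_filter_of_dominated_convergence (l := 𝓝[>] (0 : ℝ))
    (F := fun t => (slab ℓ t).indicator h) (f := fun _ => (0 : ℝ)) (μ := (volume : Measure E))
    (fun x => ‖h x‖) (.of_forall fun t => hh.1.indicator (slab_meas ℓ t))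
    (.of_forall fun t => .of_forall fun x => norm_indicator_le_norm_self _ _) hh.norm
    (.of_forall fun x => by
      refine tendsto_const_nhds.congr' ?_
      rcases le_or_gt (ℓ x) 0 with hx | hx
      · exact .of_forall fun t => (indicator_of_notMem (fun h => h.1.not_ge hx) _).symm
      · filter_upwards [Ioo_mem_nhdsGT hx] with t ht
        exact (indicator_of_notMem (fun h => h.2.not_gt ht.2) _).symm)
  simpa only [integral_indicator (slab_meas ℓ _), integral_zero] using h1

theorem slab_L2to_comp {T : E → E} (hT : MeasurePreserving T volume volume) {F : ℕ → E → ℝ}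
    {f : E → ℝ} (hF : ∀ n, MemLp (F n) 2 volume) (hf : MemLp f 2 volume) (h : L2to F f) :
    L2to (fun n x => F n (T x)) fun x => f (T x) := by
  refine Tendsto.congr (fun n => ?_) h
  have h1 : AEStronglyMeasurable (fun x => (F n x - f x) ^ 2) (Measure.map T volume) := by
    rw [hT.map_eq]
    exact ((hF n).sub hf).integrable_sq.1
  have h2 := integral_map hT.measurable.aemeasurable h1
  rwa [hT.map_eq] at h2

/-- An `H¹` function that is odd under a reflection `T` in the hyperplane `ℓ = 0`. -/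
theorem H1.slab_odd {f : E → ℝ} (hf : H1 b f) {ℓ : E →L[ℝ] ℝ} {i : ι} (he : ℓ (b i) = 1)
    {T : E →L[ℝ] E} (hT : MeasurePreserving T volume volume) (hTe : T (b i) = -b i)
    (hfix : ∀ x, ℓ x = 0 → T x = x) (hc : ∀ φ : E → ℝ, HasCompactSupport φ →
      HasCompactSupport fun x => φ (T x)) (ho : ∀ᵐ x : E, f (T x) = -f x) {t : ℝ} (ht : 0 < t) :
    ∫ x in slab ℓ t, f x ^ 2 ≤
      t ^ 2 * ∫ x in slab ℓ t, (wd (b i) f x + wd (b i) f (T x)) ^ 2 := by
  obtain ⟨φ, h1, h2, h3, -⟩ := hf.approx
  have t1 : ∀ n, Tst fun x => φ n x + -φ n (T x) := fun n =>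
    ⟨(h1 n).1.add ((h1 n).1.comp T.contDiff).neg, (h1 n).2.add (hc _ (h1 n).2).neg⟩
  have d1 : ∀ n x, fderiv ℝ (fun x => φ n x + -φ n (T x)) x (b i) =
      fderiv ℝ (φ n) x (b i) + fderiv ℝ (φ n) (T x) (b i) := fun n x => by
    have a1 := ((h1 n).1.differentiable one_ne_zero x).hasFDerivAt
    have a2 := ((h1 n).1.differentiable one_ne_zero (T x)).hasFDerivAt.comp x T.hasFDerivAt
    have a3 : HasFDerivAt (fun x => φ n x + -φ n (T x)) _ x := a1.add a2.neg
    rw [a3.fderiv]
    simp [hTe]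
  have m1 : ∀ n, MemLp (φ n) 2 volume := fun n => (h1 n).memLp
  have m2 : ∀ n, MemLp (fun x => fderiv ℝ (φ n) x (b i)) 2 volume := fun n => (h1 n).memLp_d _
  have m3 : ∀ {g : E → ℝ}, MemLp g 2 volume → MemLp (fun x => g (T x)) 2 volume := fun hg =>
    hg.comp_measurePreserving hT
  have l0 : L2to (fun n x => -φ n (T x)) f := by
    refine Tendsto.congr (fun n => integral_congr_ae ?_) (slab_L2to_comp hT m1 hf.1 h2)
    filter_upwards [ho] with x hx
    rw [hx]
    ring
  have l1 := L2to.add m1 (fun n => (m3 (m1 n)).neg) hf.1 hf.1 h2 l0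
  have l2 := L2to.add m2 (fun n => m3 (m2 n)) (hf.2 i).2 (m3 (hf.2 i).2) (h3 i)
    (slab_L2to_comp hT m2 (hf.2 i).2 (h3 i))
  have a1 := slab_tendsto_sq (fun n => (t1 n).memLp) (hf.1.add hf.1) l1 (slab_meas ℓ t)
  have a2 := (slab_tendsto_sq (fun n => (m2 n).add (m3 (m2 n))) ((hf.2 i).2.add (m3 (hf.2 i).2)) l2
    (slab_meas ℓ t)).const_mul (4 * t ^ 2)
  have a3 := le_of_tendsto_of_tendsto' a1 a2 fun n => by
    have a4 := slab_tst he (t1 n) (fun x hx => by rw [hfix x hx, add_neg_cancel]) ht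
    simpa only [d1, Pi.add_apply] using a4
  have a5 : ∫ x in slab ℓ t, (f + f) x ^ 2 = 4 * ∫ x in slab ℓ t, f x ^ 2 := by
    rw [← integral_const_mul]
    exact integral_congr_ae (.of_forall fun x => by simp only [Pi.add_apply]; ring)
  rw [a5] at a3
  simp only [Pi.add_apply] at a3
  linarith

end Crest.Agent.R335
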