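/-
R335/T/Strip: zero trace on the plane
Skeleton by helper48 (row 335); keep the statements unchanged, add any helper lemmas you like.
-/
import Crest.Agent.R335.T.Pos
import Crest.Agent.R335.T.Cov
import Crest.Agent.R335.T.Slab

set_option autoImplicit false
set_option linter.unusedSectionVars false
set_option linter.unusedVariables false
set_option linter.unusedSimpArgs false

noncomputable section

namespace Crest.Agent.R335

open MeasureTheory Set Filter Topology Metric
open scoped ENNReal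


variable {f g : X → ℝ}

/-- The coordinate `z`. -/
def stripZ : X →L[ℝ] ℝ := EuclideanSpace.proj (2 : Fin 3)

theorem strip_meas (t R : ℝ) : MeasurableSet {x : X | 0 < x 2 ∧ x 2 < t ∧ ‖x‖ ≤ R} :=
  (measurableSet_lt measurable_const stripZ.continuous.measurable).inter
    ((measurableSet_lt stripZ.continuous.measurable measurable_const).inter
      (measurableSet_le continuous_norm.measurable measurable_const))

theorem strip_int (hf : LocL2 f) (t R : ℝ) :
    IntegrableOn (fun x => f x ^ 2) {x : X | 0 < x 2 ∧ x 2 < t ∧ ‖x‖ ≤ R} volume :=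
  IntegrableOn.mono_set (hf R).integrable_sq fun x hx => mem_closedBall_zero_iff.2 hx.2.2

theorem strip_h1_odd (h : H1 eX f) (ho : ∀ᵐ x : X, f (rf x) = -f x) {ε : ℝ} (hε : 0 < ε) :
    ∃ t0 : ℝ, 0 < t0 ∧ ∀ t : ℝ, 0 < t → t ≤ t0 → ∫ x in slab stripZ t, f x ^ 2 ≤ ε * t ^ 2 := by
  obtain ⟨L, σ, s, hL, hmp, -⟩ := sym_rf.ex
  have hT : ∀ x : X, (L : X →L[ℝ] X) x = rf x := hL
  have hTm : MeasurePreserving (L : X →L[ℝ] X) volume volume := hmp
  have key := fun (t : ℝ) (ht : 0 < t) => h.slab_odd (ℓ := stripZ) (i := 2)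
    (by simp [stripZ, eX]) hTm (by
      rw [hT]
      ext c
      fin_cases c <;> simp [rf, eX])
    (fun p hp => by
      rw [hT]
      have hp' : p 2 = 0 := hp
      ext c
      fin_cases c <;> simp [rf, hp'])
    (fun φ hφ => hφ.comp_homeomorph L.toHomeomorph)
    (ho.mono fun p hp => by rw [hT, hp]) ht
  have lim := slab_tendsto_zero stripZ
    ((h.2 2).2.add ((h.2 2).2.comp_measurePreserving hTm)).integrable_sq
  obtain ⟨t0, ht0, h1⟩ := mem_nhdsGT_iff_exists_Ioc_subset.1 (lim.eventually (ge_mem_nhds hε))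
  refine ⟨t0, ht0, fun t ht ht' => (key t ht).trans ?_⟩
  rw [mul_comm]
  exact mul_le_mul_of_nonneg_right (h1 ⟨ht, ht'⟩) (sq_nonneg _)

/-- Recipe: cut off; for odd `C¹` functions `2 f(x', z) = ∫_{-z}^{z} ∂_z f`, hence
`∫_{0<z<t} f² ≤ t² ∫_{|z|<t} (∂_z f)²`; pass to `H¹` with the odd parts of `H1.approx`; the last
integral tends to zero with `t`.  A slick proof without coordinates: integrate by parts
(`HL.ibp`) `∫ κ(z) ∂_z (f²)` with `κ(z) = (t - z)₊` and `f` replaced by ... or use the translation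
formula `f(x) - f(rf x) = ∫_0^1 ∂_z f (rf x + 2 s z e) 2 z ds`. -/
theorem Strip.of_odd (h : HL eX f) (ho : ∀ᵐ x : X, f (rf x) = -f x) : Strip f := by
  intro R ε hε
  obtain ⟨χ, h1, -, h3⟩ := exists_tst_one (E := X) R
  obtain ⟨L, σ, s, hL, -⟩ := sym_rf.ex
  have hr : ContDiff ℝ 1 fun x => χ (rf x) := by
    simp only [← hL]
    exact h1.1.comp L.contDiff
  have ht : Tst fun x => χ (rf x) * χ x := ⟨hr.mul h1.1, h1.2.mul_left⟩
  have hg := h.h1_mul_tst ht
  obtain ⟨t0, ht0, h4⟩ := strip_h1_odd hg (ho.mono fun x hx => by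
    simp only [rf_rf, hx]
    ring) hε
  refine ⟨t0, ht0, fun t a1 a2 => le_trans ?_ (h4 t a1 a2)⟩
  calc _ = ∫ x in {x : X | 0 < x 2 ∧ x 2 < t ∧ ‖x‖ ≤ R}, (χ (rf x) * χ x * f x) ^ 2 :=
        setIntegral_congr_fun (strip_meas t R) fun x hx => by
          simp only [h3 x hx.2.2, h3 (rf x) (by rw [norm_rf]; exact hx.2.2), one_mul]
    _ ≤ _ := setIntegral_mono_set hg.1.integrable_sq.integrableOn
        (.of_forall fun x => sq_nonneg _) (LE.le.eventuallyLE fun x hx => And.intro hx.1 hx.2.1)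

theorem Strip.mono (hg : Strip g) (hg2 : LocL2 g) (hm : AEStronglyMeasurable f volume)
    (h : ∀ R : ℝ, ∃ C t0 : ℝ, 0 < t0 ∧
      ∀ᵐ x : X, 0 < x 2 → x 2 < t0 → ‖x‖ ≤ R → |f x| ≤ C * |g x|) : Strip f := by
  intro R ε hε
  obtain ⟨C, t1, ht1, h1⟩ := h R
  obtain ⟨t0, ht0, h2⟩ := hg R (ε / (C ^ 2 + 1)) (by positivity)
  refine ⟨min t0 t1, lt_min ht0 ht1, fun t a1 a2 => ?_⟩
  have a3 := h2 t a1 (a2.trans (min_le_left _ _))
  have a4 : ∫ x in {x : X | 0 < x 2 ∧ x 2 < t ∧ ‖x‖ ≤ R}, f x ^ 2 ≤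
      ∫ x in {x : X | 0 < x 2 ∧ x 2 < t ∧ ‖x‖ ≤ R}, C ^ 2 * g x ^ 2 := by
    refine integral_mono_of_nonneg (.of_forall fun x => sq_nonneg _)
      ((strip_int hg2 t R).const_mul _) ((ae_restrict_iff' (strip_meas t R)).2 ?_)
    filter_upwards [h1] with x hx b1
    have b2 := hx b1.1 (b1.2.1.trans_le (a2.trans (min_le_right _ _))) b1.2.2
    have b3 := pow_le_pow_left₀ (abs_nonneg _) b2 2
    rwa [mul_pow, sq_abs, sq_abs] at b3
  rw [integral_const_mul] at a4
  have a5 : C ^ 2 * (ε / (C ^ 2 + 1) * t ^ 2) ≤ ε * t ^ 2 := by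
    rw [← mul_assoc, ← mul_div_assoc]
    refine mul_le_mul_of_nonneg_right ?_ (sq_nonneg _)
    rw [div_le_iff₀ (by positivity)]
    nlinarith
  exact a4.trans ((mul_le_mul_of_nonneg_left a3 (sq_nonneg _)).trans a5)

theorem Strip.add (hf : Strip f) (hg : Strip g) (hf2 : LocL2 f) (hg2 : LocL2 g) :
    Strip fun x => f x + g x := by
  intro R ε hε
  obtain ⟨t1, ht1, h1⟩ := hf R (ε / 4) (by positivity)
  obtain ⟨t0, ht0, h2⟩ := hg R (ε / 4) (by positivity)
  refine ⟨min t0 t1, lt_min ht0 ht1, fun t a1 a2 => ?_⟩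
  have a3 := h2 t a1 (a2.trans (min_le_left _ _))
  have a4 := h1 t a1 (a2.trans (min_le_right _ _))
  have i1 := (strip_int hf2 t R).const_mul 2
  have i2 := (strip_int hg2 t R).const_mul 2
  have a5 : ∫ x in {x : X | 0 < x 2 ∧ x 2 < t ∧ ‖x‖ ≤ R}, (f x + g x) ^ 2 ≤
      ∫ x in {x : X | 0 < x 2 ∧ x 2 < t ∧ ‖x‖ ≤ R}, (2 * f x ^ 2 + 2 * g x ^ 2) :=
    integral_mono_of_nonneg (.of_forall fun x => sq_nonneg _) (i1.add i2)
      (.of_forall fun x => by
        simp only
        nlinarith [sq_nonneg (f x - g x)])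
  rw [integral_add i1 i2, integral_const_mul, integral_const_mul] at a5
  linarith

theorem Strip.abs (hf : Strip f) : Strip fun x => |f x| := by
  simpa only [Strip, sq_abs] using hf

theorem strip_coord : Strip fun x : X => x 2 := by
  exact Strip.of_odd (LH.of_contDiff (b := eX) stripZ.contDiff).1 (.of_forall rf_two)

theorem strip_Hs : MeasurableSet Hs := measurableSet_lt measurable_const stripZ.continuous.measurable

theorem strip_extra (hf : LocL2 f) (hs : Strip f) {a : ℕ → X → ℝ} {C : ℝ}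
    (hb : ∀ (n : ℕ) x, |a n x| ≤ C * (n + 1))
    (h0 : ∀ (n : ℕ), ∀ᵐ x : X, ¬(0 < x 2 ∧ x 2 < 1 / (n + 1)) → a n x = 0) {ψ : X → ℝ}
    (hψ : Continuous ψ) (hc : HasCompactSupport ψ) :
    Tendsto (fun n => ∫ x, a n x * f x * ψ x) atTop (𝓝 0) := by
  obtain ⟨R, hR⟩ := hc.isCompact.isBounded.subset_closedBall (0 : X)
  have i0 : Integrable fun x => ψ x ^ 2 := (hψ.memLp_of_hasCompactSupport hc).integrable_sq
  have p0 : 0 ≤ ∫ x, ψ x ^ 2 := integral_nonneg fun x => sq_nonneg _
  rw [NormedAddGroup.tendsto_nhds_zero]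
  intro δ hδ
  obtain ⟨η, hη, hη'⟩ : ∃ η : ℝ, 0 < η ∧ η * ∫ x, ψ x ^ 2 < δ :=
    ⟨δ / ((∫ x, ψ x ^ 2) + 1), by positivity, by
      rw [div_mul_eq_mul_div, div_lt_iff₀ (by positivity)]
      nlinarith⟩
  obtain ⟨t0, ht0, h1⟩ := hs R (δ * η / (C ^ 2 + 1)) (by positivity)
  filter_upwards [tendsto_one_div_add_atTop_nhds_zero_nat.eventually (ge_mem_nhds ht0)] with n hn
  have hp : (0 : ℝ) < n + 1 := by positivity
  have a1 := h1 _ (one_div_pos.2 hp) hn
  have hA := strip_meas (1 / ((n : ℝ) + 1)) R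
  have i1 := (((strip_int hf (1 / ((n : ℝ) + 1)) R).integrable_indicator hA).const_mul
    ((C * (n + 1)) ^ 2 / (2 * η)))
  have i2 := i0.const_mul (η / 2)
  refine (norm_integral_le_of_norm_le (i1.add i2) ?_).trans_lt ?_
  · filter_upwards [h0 n] with x hx
    simp only [Pi.add_apply, Real.norm_eq_abs]
    by_cases b1 : x ∈ {x : X | 0 < x 2 ∧ x 2 < 1 / ((n : ℝ) + 1) ∧ ‖x‖ ≤ R}
    · rw [indicator_of_mem b1, abs_mul, abs_mul]
      have b2 : |a n x| * |f x| * |ψ x| ≤ C * (n + 1) * |f x| * |ψ x| := by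
        gcongr
        exact hb n x
      have b3 : (C * (n + 1)) ^ 2 / (2 * η) * f x ^ 2 + η / 2 * ψ x ^ 2 -
          C * (n + 1) * |f x| * |ψ x| = (C * (n + 1) * |f x| - η * |ψ x|) ^ 2 / (2 * η) := by
        rw [← sq_abs (f x), ← sq_abs (ψ x)]
        field_simp
        ring
      have b4 : 0 ≤ (C * (n + 1) * |f x| - η * |ψ x|) ^ 2 / (2 * η) := by positivity
      linarith
    · have b2 : a n x * f x * ψ x = 0 := by
        by_cases b3 : ‖x‖ ≤ R
        · rw [hx fun h => b1 ⟨h.1, h.2, b3⟩, zero_mul, zero_mul]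
        · rw [image_eq_zero_of_notMem_tsupport fun h => b3 (mem_closedBall_zero_iff.1 (hR h)),
            mul_zero]
      rw [b2, indicator_of_notMem b1, abs_zero]
      positivity
  · simp only [Pi.add_apply]
    rw [integral_add i1 i2, integral_const_mul, integral_const_mul, integral_indicator hA]
    have a2 := mul_le_mul_of_nonneg_left a1 (show 0 ≤ (C * (n + 1)) ^ 2 / (2 * η) by positivity)
    have a3 : (C * (n + 1)) ^ 2 / (2 * η) * (δ * η / (C ^ 2 + 1) * (1 / ((n : ℝ) + 1)) ^ 2) =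
        δ / 2 * (C ^ 2 / (C ^ 2 + 1)) := by
      field_simp
    have a4 : δ / 2 * (C ^ 2 / (C ^ 2 + 1)) ≤ δ / 2 :=
      mul_le_of_le_one_right (by positivity) ((div_le_one (by positivity)).2 (by linarith))
    linarith

theorem strip_deriv_zero {t : ℝ} (ht : t < 0 ∨ 1 < t) : deriv Real.smoothTransition t = 0 := by
  rcases ht with ht | ht
  · have h : Real.smoothTransition =ᶠ[𝓝 t] fun _ => 0 :=
      (gt_mem_nhds ht).mono fun s hs => Real.smoothTransition.zero_of_nonpos hs.le
    rw [h.deriv_eq, deriv_const]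
  · have h : Real.smoothTransition =ᶠ[𝓝 t] fun _ => 1 :=
      (lt_mem_nhds ht).mono fun s hs => Real.smoothTransition.one_of_one_le hs.le
    rw [h.deriv_eq, deriv_const]

theorem strip_deriv_bdd : ∃ C : ℝ, ∀ t, |deriv Real.smoothTransition t| ≤ C := by
  have h1 : ContDiff ℝ 1 Real.smoothTransition := Real.smoothTransition.contDiff
  refine (h1.continuous_deriv le_rfl).bounded_above_of_compact_support
    (HasCompactSupport.intro (isCompact_Icc (a := 0) (b := 1)) fun t ht => strip_deriv_zero ?_)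
  simpa only [mem_Icc, not_and_or, not_le] using ht

theorem strip_wd (h : HL eX f) (hs : Strip f) (i : Fin 3) :
    WD (eX i) (Hs.indicator f) (Hs.indicator (wd (eX i) f)) := by
  obtain ⟨C, hC⟩ := strip_deriv_bdd
  have h1 : ContDiff ℝ 1 Real.smoothTransition := Real.smoothTransition.contDiff
  have cd : ∀ n : ℕ, ContDiff ℝ 1 fun x : X => Real.smoothTransition (2 * ((n : ℝ) + 1) * x 2) :=
    fun n => h1.comp (contDiff_const.mul stripZ.contDiff)
  have fd : ∀ (n : ℕ) (x : X),
      fderiv ℝ (fun x : X => Real.smoothTransition (2 * ((n : ℝ) + 1) * x 2)) x (eX i) =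
        deriv Real.smoothTransition (2 * ((n : ℝ) + 1) * x 2) * (2 * ((n : ℝ) + 1) * eX i 2) :=
    fun n x => by
      have a1 : HasFDerivAt (fun x : X => Real.smoothTransition (2 * ((n : ℝ) + 1) * x 2)) _ x :=
        (h1.differentiable one_ne_zero _).hasDerivAt.comp_hasFDerivAt x
          (stripZ.hasFDerivAt.const_mul (2 * ((n : ℝ) + 1)))
      rw [a1.fderiv]
      rfl
  have lim : ∀ g : X → ℝ, ∀ᵐ x : X, Tendsto
      (fun n : ℕ => Real.smoothTransition (2 * ((n : ℝ) + 1) * x 2) * g x) atTop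
        (𝓝 (Hs.indicator g x)) := fun g => .of_forall fun x => by
    refine tendsto_const_nhds.congr' ?_
    by_cases hx : x ∈ Hs
    · have hx' : 0 < x 2 := hx
      filter_upwards [tendsto_one_div_add_atTop_nhds_zero_nat.eventually (ge_mem_nhds hx')]
        with n hn
      have hp : (0 : ℝ) < n + 1 := by positivity
      rw [div_le_iff₀ hp] at hn
      rw [indicator_of_mem hx, Real.smoothTransition.one_of_one_le (by nlinarith), one_mul]
    · have hx' : x 2 ≤ 0 := not_lt.1 hx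
      refine .of_forall fun n => ?_
      simp only
      rw [indicator_of_notMem hx, Real.smoothTransition.zero_of_nonpos
        (mul_nonpos_of_nonneg_of_nonpos (by positivity) hx'), zero_mul]
  have dom : ∀ g : X → ℝ, LocallyIntegrable g volume → ∀ ψ : X → ℝ, Continuous ψ →
      HasCompactSupport ψ → Tendsto
        (fun n : ℕ => ∫ x, Real.smoothTransition (2 * ((n : ℝ) + 1) * x 2) * g x * ψ x) atTop
          (𝓝 (∫ x, Hs.indicator g x * ψ x)) := fun g hg =>
    wd_dom_mul (fun n => hg.continuous_mul (cd n).continuous) (p := fun x => ‖g x‖)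
      (fun x => (hg x).norm) (fun n => .of_forall fun x => by
        rw [abs_mul, abs_of_nonneg (Real.smoothTransition.nonneg _)]
        exact mul_le_of_le_one_left (abs_nonneg _) (Real.smoothTransition.le_one _)) (lim g)
  have l1 := (h.2 i).1.1
  have l2 := (h.2 i).1.2.1
  refine wd_of_lim (fun n => (h.2 i).1.mul_contDiff (cd n)) (l1.indicator strip_Hs)
    (l2.indicator strip_Hs) (dom f l1) fun ψ hψ hc => ?_
  have e1 := (dom _ l2 ψ hψ hc).add (strip_extra h.1 hs (C := C * (2 * |eX i 2|))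
    (a := fun n x => fderiv ℝ
      (fun x : X => Real.smoothTransition (2 * ((n : ℝ) + 1) * x 2)) x (eX i))
    (fun n x => by
      have hp : (0 : ℝ) < n + 1 := by positivity
      rw [fd, abs_mul, abs_mul, abs_mul, abs_two, abs_of_pos hp]
      have := mul_le_mul_of_nonneg_right (hC (2 * ((n : ℝ) + 1) * x 2))
        (show 0 ≤ 2 * ((n : ℝ) + 1) * |eX i 2| by positivity)
      linarith)
    (fun n => ae_ne_plane.mono fun x hx b1 => by
      have hp : (0 : ℝ) < n + 1 := by positivity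
      rw [fd, strip_deriv_zero, zero_mul]
      rcases lt_or_gt_of_ne hx with b2 | b2
      · exact .inl (mul_neg_of_pos_of_neg (by positivity) b2)
      · have b3 : 1 / ((n : ℝ) + 1) ≤ x 2 := not_lt.1 fun b3 => b1 ⟨b2, b3⟩
        rw [div_le_iff₀ hp] at b3
        exact .inr (by nlinarith)) hψ hc)
  rw [add_zero] at e1
  refine e1.congr fun n => ?_
  simp only [add_mul]
  refine (integral_add (wd_int_mul (l2.continuous_mul (cd n).continuous) hψ hc)
    (wd_int_mul (l1.continuous_mul ?_) hψ hc)).symm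
  exact ((cd n).continuous_fderiv one_ne_zero).clm_apply continuous_const

/-- Recipe: `κ(z / t) f` with `κ = 0` on `(-∞, 1/2]`, `κ = 1` on `[1, ∞)`; the extra term of the
gradient is `κ'(z/t) f / t`, small in `L²` by `Strip`; `WD.of_tendsto`. -/
theorem HL.indicator_Hs (h : HL eX f) (hs : Strip f) : HL eX (Hs.indicator f) ∧
    ∀ i, wd (eX i) (Hs.indicator f) =ᵐ[volume] Hs.indicator (wd (eX i) f) := by
  exact ⟨.of_wd (fun R => (h.1 R).indicator strip_Hs) fun i =>
    ⟨strip_wd h hs i, fun R => ((h.2 i).2 R).indicator strip_Hs⟩, fun i => (strip_wd h hs i).wd_ae⟩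

theorem H1.indicator_Hs (h : H1 eX f) (hs : Strip f) : H1 eX (Hs.indicator f) := by
  exact .of_wd (h.1.indicator strip_Hs) fun i => ⟨strip_wd h.hl hs i, (h.2 i).2.indicator strip_Hs⟩

theorem LH.indicator_Hs (h : LH eX f) (hs : Strip f) : LH eX (Hs.indicator f) := by
  refine ⟨(h.1.indicator_Hs hs).1, fun R => ?_⟩
  obtain ⟨M, hM⟩ := h.2 R
  exact ⟨M, hM.mono fun x hx h1 => (norm_indicator_le_norm_self f x).trans (hx h1)⟩

theorem measurableSet_Hs : MeasurableSet Hs := by
  exact strip_Hs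

/-- A function that vanishes below the plane has zero trace. -/
theorem Strip.of_zero (h : HL eX f) (h0 : ∀ᵐ x : X, x ∉ Hs → f x = 0) : Strip f := by
  have h1 := h.sub (sym_rf.hl h)
  refine (Strip.of_odd h1 (.of_forall fun x => by rw [rf_rf, neg_sub])).mono h1.1 h.1.aesm
    fun R => ⟨1, 1, one_pos, ?_⟩
  filter_upwards [sym_rf.ae h0] with x hx a1 _ _
  rw [hx (fun a2 : 0 < rf x 2 => by rw [rf_two] at a2; linarith), sub_zero, one_mul]

/-- The odd extension from the upper half space. -/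
def oddExt (f : X → ℝ) (x : X) : ℝ := Hs.indicator f x - Hs.indicator f (rf x)

theorem oddExt_rf (f : X → ℝ) (x : X) : oddExt f (rf x) = -oddExt f x := by
  rw [oddExt, oddExt, rf_rf, neg_sub]

theorem oddExt_of_pos (f : X → ℝ) {x : X} (hx : 0 < x 2) : oddExt f x = f x := by
  rw [oddExt, indicator_of_mem (show x ∈ Hs from hx),
    indicator_of_notMem (s := Hs) (fun a2 : 0 < rf x 2 => by rw [rf_two] at a2; linarith), sub_zero]

theorem H1.oddExt (h : H1 eX f) (hs : Strip f) : H1 eX (oddExt f) ∧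
    dir eX (R335.oddExt f) (R335.oddExt f) = 2 * ∫ x in Hs, dot eX f f x := by
  have h1 := h.indicator_Hs hs
  have h2 := sym_rf.h1 h1
  have h3 := (h.hl.indicator_Hs hs).2
  refine ⟨h1.sub h2, ?_⟩
  have i1 : Integrable (Hs.indicator (dot eX f f)) := (h.integrable_dot h).indicator strip_Hs
  have e1 : dot eX (R335.oddExt f) (R335.oddExt f) =ᵐ[volume]
      fun x => Hs.indicator (dot eX f f) x + Hs.indicator (dot eX f f) (rf x) := by
    filter_upwards [ae_all_iff.2 fun i => h1.hl.wd_sub h2.hl i, ae_all_iff.2 fun i => wd_rf h1.hl i,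
      ae_all_iff.2 h3, sym_rf.ae (ae_all_iff.2 h3)] with x a1 a2 a3 a4
    have a5 : ∀ i, wd (eX i) (R335.oddExt f) x = Hs.indicator (wd (eX i) f) x -
        (if i = 2 then -1 else 1) * Hs.indicator (wd (eX i) f) (rf x) := fun i => by
      rw [← a3 i, ← a4 i, ← a2 i]
      exact a1 i
    simp only [dot, a5]
    by_cases hx : x ∈ Hs
    · have hx' : rf x ∉ Hs := fun a2 : 0 < rf x 2 => by
        rw [rf_two] at a2
        exact lt_asymm hx (neg_pos.1 a2)
      simp only [indicator_of_mem hx, indicator_of_notMem hx', mul_zero, sub_zero, add_zero, dot]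
    · simp only [indicator_of_notMem hx, zero_sub, zero_add]
      by_cases hx' : rf x ∈ Hs
      · simp only [indicator_of_mem hx', dot]
        refine Finset.sum_congr rfl fun i _ => ?_
        split_ifs <;> ring
      · simp only [indicator_of_notMem hx', mul_zero, neg_zero, Finset.sum_const_zero]
  rw [dir, integral_congr_ae e1, integral_add i1 (sym_rf.integrable.2 i1), sym_rf.integral,
    integral_indicator strip_Hs, two_mul]

/-- For even `f`: `|oddExt f| = |f|` and the Dirichlet integrals agree. -/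
theorem H1.oddExt_even (h : H1 eX f) (hs : Strip f) (he : ∀ᵐ x : X, f (rf x) = f x) :
    (∀ᵐ x : X, R335.oddExt f x ^ 2 = f x ^ 2) ∧
      dir eX (R335.oddExt f) (R335.oddExt f) = dir eX f f := by
  refine ⟨?_, ?_⟩
  · filter_upwards [ae_ne_plane, he] with x h1 h2
    rcases lt_or_gt_of_ne h1 with h3 | h3
    · rw [← neg_sq, ← oddExt_rf, oddExt_of_pos f (by rw [rf_two]; linarith), h2]
    · rw [oddExt_of_pos f h3]
  · rw [(h.oddExt hs).2, dir, integral_even (h.integrable_dot h)]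
    exact (sym_rf.dot h.hl h.hl).symm.trans (dot_congr he he)

/-- Little mass in a thin slab. -/
theorem slab_small : ∃ C : ℝ, 0 < C ∧ ∀ f : X → ℝ, H1 eX f → ∀ t : ℝ, 0 < t → t ≤ 1 →
    ∫ x in {x : X | |x 2| < t}, f x ^ 2 ≤ C * t * (ip f f + dir eX f f) := by
  refine ⟨4, four_pos, fun f hf t ht _ => ?_⟩
  have cd : ContDiff ℝ 1 fun x : X => 2 * t * Real.arctan (t⁻¹ * x 2) :=
    contDiff_const.mul (Real.contDiff_arctan.comp (contDiff_const.mul stripZ.contDiff))
  have fd : ∀ x : X, fderiv ℝ (fun x : X => 2 * t * Real.arctan (t⁻¹ * x 2)) x =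
      (2 / (1 + (t⁻¹ * x 2) ^ 2)) • stripZ := fun x => by
    have a1 : HasFDerivAt (fun x : X => 2 * t * Real.arctan (t⁻¹ * x 2)) _ x :=
      ((Real.hasDerivAt_arctan _).comp_hasFDerivAt x (stripZ.hasFDerivAt.const_mul t⁻¹)).const_mul
        (2 * t)
    rw [a1.fderiv, smul_smul, smul_smul]
    congr 1
    change _ = 2 / (1 + (t⁻¹ * stripZ x) ^ 2)
    field_simp
  have b1 : ∀ x : X, |2 * t * Real.arctan (t⁻¹ * x 2)| ≤ 4 * t := fun x => by
    rw [abs_mul, abs_of_pos (by positivity : 0 < 2 * t)]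
    have a1 : |Real.arctan (t⁻¹ * x 2)| ≤ 2 := abs_le.2
      ⟨by linarith [Real.neg_pi_div_two_lt_arctan (t⁻¹ * x 2), Real.pi_le_four],
        by linarith [Real.arctan_lt_pi_div_two (t⁻¹ * x 2), Real.pi_le_four]⟩
    nlinarith
  have b2 : ∀ x : X, 0 ≤ 2 / (1 + (t⁻¹ * x 2) ^ 2) ∧ 2 / (1 + (t⁻¹ * x 2) ^ 2) ≤ 2 := fun x =>
    ⟨by positivity, div_le_self zero_le_two (by nlinarith [sq_nonneg (t⁻¹ * x 2)])⟩
  have hg := hf.mul_contDiff cd (M := 4 * t + 2 * ‖stripZ‖)
    (fun x => (b1 x).trans (le_add_of_nonneg_right (by positivity))) fun x => by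
      rw [fd, norm_smul, Real.norm_of_nonneg (b2 x).1]
      have := mul_le_mul_of_nonneg_right (b2 x).2 (norm_nonneg stripZ)
      linarith
  have e1 := hf.ibp hg 2
  have hz : stripZ (eX 2) = 1 := by simp [stripZ, eX]
  have m1 : Continuous fun x : X => 2 / (1 + (t⁻¹ * x 2) ^ 2) :=
    continuous_const.div (continuous_const.add ((continuous_const.mul stripZ.continuous).pow 2))
      fun x => by positivity
  have i1 : Integrable fun x : X => 2 / (1 + (t⁻¹ * x 2) ^ 2) * f x ^ 2 :=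
    hf.1.integrable_sq.bdd_mul m1.aestronglyMeasurable
      (.of_forall fun x => (Real.norm_of_nonneg (b2 x).1).trans_le (b2 x).2)
  have i2 : Integrable fun x => wd (eX 2) f x * (2 * t * Real.arctan (t⁻¹ * x 2) * f x) :=
    (hf.2 2).2.integrable_mul hg.1
  have e2 : ∫ x, f x * wd (eX 2) (fun x : X => 2 * t * Real.arctan (t⁻¹ * x 2) * f x) x =
      (∫ x, wd (eX 2) f x * (2 * t * Real.arctan (t⁻¹ * x 2) * f x)) +
        ∫ x : X, 2 / (1 + (t⁻¹ * x 2) ^ 2) * f x ^ 2 := by
    rw [← integral_add i2 i1]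
    refine integral_congr_ae ?_
    filter_upwards [(hf.hl.mul_contDiff cd).2 2] with x hx
    rw [hx, fd, smul_apply, hz, smul_eq_mul]
    ring
  have hS : MeasurableSet {x : X | |x 2| < t} :=
    measurableSet_lt stripZ.continuous.abs.measurable measurable_const
  have k1 : ∫ x in {x : X | |x 2| < t}, f x ^ 2 ≤ ∫ x : X, 2 / (1 + (t⁻¹ * x 2) ^ 2) * f x ^ 2 := by
    rw [← integral_indicator hS]
    refine integral_mono (hf.1.integrable_sq.indicator hS) i1 fun x => ?_
    by_cases hx : x ∈ {x : X | |x 2| < t}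
    · rw [indicator_of_mem hx]
      refine le_mul_of_one_le_left (sq_nonneg _) ((one_le_div (by positivity)).2 ?_)
      have a1 : |t⁻¹ * x 2| ≤ 1 := by
        rw [abs_mul, abs_of_pos (inv_pos.2 ht), inv_mul_le_iff₀ ht, mul_one]
        exact le_of_lt hx
      have a2 := (sq_le_one_iff_abs_le_one _).2 a1
      linarith
    · rw [indicator_of_notMem hx]
      exact mul_nonneg (b2 x).1 (sq_nonneg _)
  have i3 : Integrable fun x => f x * f x := hf.1.integrable_mul hf.1
  have k2 : -2 * ∫ x, wd (eX 2) f x * (2 * t * Real.arctan (t⁻¹ * x 2) * f x) ≤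
      4 * t * (ip f f + dir eX f f) := by
    rw [ip, dir, ← integral_add i3 (hf.integrable_dot hf), ← integral_const_mul,
      ← integral_const_mul]
    refine integral_mono (i2.const_mul _) ((i3.add (hf.integrable_dot hf)).const_mul _) fun x => ?_
    have a1 : wd (eX 2) f x * wd (eX 2) f x ≤ dot eX f f x :=
      Finset.single_le_sum (f := fun i => wd (eX i) f x * wd (eX i) f x)
        (fun _ _ => mul_self_nonneg _) (Finset.mem_univ 2)
    have a2 := abs_le.1 (b1 x)
    have a3 := mul_nonneg (sub_nonneg.2 a2.2) (sq_nonneg (f x - wd (eX 2) f x))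
    have a4 := mul_nonneg (sub_nonneg.2 a2.1) (sq_nonneg (f x + wd (eX 2) f x))
    have a5 := mul_le_mul_of_nonneg_left a1 (show 0 ≤ 4 * t by positivity)
    simp only
    nlinarith
  linarith

end Crest.Agent.R335
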