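/-
R335/T/CmpB: the comparison principle (helper77)
-/
import Crest.Agent.R335.T.Strip
import Crest.Agent.R335.T.Pot
import Crest.Agent.R335.T.Poin

set_option autoImplicit false
set_option linter.unusedSectionVars false
set_option linter.unusedVariables false
set_option linter.unusedSimpArgs false

noncomputable section

namespace Crest.Agent.R335

open MeasureTheory Set Filter Topology Metric
open scoped ENNReal Manifold

variable {S : Set X} {f a s : X → ℝ}

theorem cmpb_cut {O Kc : Set X} (hO : IsOpen O) (hK : IsClosed Kc) (hKO : Kc ⊆ O) {w : X → ℝ}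
    (hw : ContDiffOn ℝ 2 w O) (hf : LH eX f) : ∃ y W : X → ℝ, LH eX y ∧ ContDiff ℝ 2 W ∧
      (∀ x, 0 ≤ y x) ∧
      (∀ x ∈ Kc, y x = max (f x - w x) 0 ∧ W x = w x ∧ R338.lap W x = R338.lap w x) ∧
      ∀ x, (x ∈ O → f x ≤ w x) → y x = 0 := by
  obtain ⟨χ, h0, h1, h2⟩ := exists_contMDiffMap_zero_one_nhds_of_isClosed 𝓘(ℝ, X) (n := 2)
    hO.isClosed_compl hK (disjoint_compl_left_iff_subset.2 hKO)
  have hχ : ContDiff ℝ 2 χ := χ.contMDiff.contDiff
  have hW : ContDiff ℝ 2 fun x => χ x * w x := contDiff_iff_contDiffAt.2 fun x => by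
    by_cases hx : x ∈ O
    · exact hχ.contDiffAt.mul (hw.contDiffAt (hO.mem_nhds hx))
    · refine (contDiffAt_const (c := (0 : ℝ))).congr_of_eventuallyEq ?_
      filter_upwards [eventually_nhdsSet_iff_forall.1 h0 x hx] with z hz
      rw [hz, zero_mul]
  refine ⟨fun x => max (χ x * f x - χ x * w x) 0, fun x => χ x * w x,
    (((LH.of_contDiff (hχ.of_le one_le_two)).mul hf).sub
      (LH.of_contDiff (hW.of_le one_le_two))).posPart, hW, fun x => le_max_right _ _,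
    fun x hx => ?_, fun x hx => max_eq_right ?_⟩
  · have e1 : (fun x => χ x * w x) =ᶠ[𝓝 x] w := by
      filter_upwards [eventually_nhdsSet_iff_forall.1 h1 x hx] with z hz
      rw [hz, one_mul]
    refine ⟨by simp only [h1.self_of_nhdsSet x hx, one_mul], e1.self_of_nhds,
      Finset.sum_congr rfl fun c _ => ?_⟩
    have e2 : R338.pd c (fun x => χ x * w x) =ᶠ[𝓝 x] R338.pd c w := by
      filter_upwards [e1.fderiv (𝕜 := ℝ)] with z hz
      simp only [R338.pd, hz]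
    rw [R338.pd, e2.fderiv_eq]
    rfl
  · by_cases hxO : x ∈ O
    · rw [← mul_sub]
      exact mul_nonpos_of_nonneg_of_nonpos (h2 x).1 (sub_nonpos.2 (hx hxO))
    · simp only [h0.self_of_nhdsSet x hxO, zero_mul, sub_zero, le_refl]

theorem cmpb_core (hS : MeasurableSet S) {W y : X → ℝ} (hf : LH eX f) (hW : ContDiff ℝ 2 W)
    (hy : LH eX y) (h : Sub eX S f a s) (ha : LI S a) (hs : LI S s) {a0 : ℝ} (ha0 : 0 < a0)
    {p : X → ℝ} (hp : MemLp p 2 volume) (hy0 : ∀ x, 0 ≤ y x)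
    (h1 : ∀ᵐ x : X, y x ≠ 0 → x ∈ S ∧ y x = f x - W x ∧
      a0 * y x ≤ a x * f x - s x - R338.lap W x ∧ y x ≤ p x) : ∀ᵐ x : X, y x = 0 := by
  have hW1 : LH eX W := .of_contDiff (hW.of_le one_le_two)
  have hy2 : MemLp y 2 volume := hp.of_le hy.1.1.aesm (h1.mono fun x hx => by
    by_cases a1 : y x = 0
    · rw [a1, norm_zero]
      exact norm_nonneg _
    · rw [Real.norm_of_nonneg (hy0 x)]
      exact (hx a1).2.2.2.trans (le_abs_self _))
  have iy : Integrable fun x => y x ^ 2 := hy2.integrable_sq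
  have key : ∀ (χ : X → ℝ) (B : ℝ), Tst χ → (∀ x, ‖fderiv ℝ χ x‖ ≤ B) →
      a0 * ∫ x, y x ^ 2 * χ x ^ 2 ≤ B ^ 2 * ∫ x, y x ^ 2 := fun χ B hχ hB => by
    have t1 : LT eX χ := .of_tst hχ
    have t2 : LT eX fun x => χ x ^ 2 := .of_tst ⟨hχ.1.pow 2, by
      simp only [sq]
      exact hχ.2.mul_left⟩
    have t3 := hy.mul_LT t2
    have t4 := hy.mul_LT t1
    have z1 : ∀ᵐ x : X, x ∉ S → y x * χ x ^ 2 = 0 := h1.mono fun x hx a1 => by
      rw [by_contra fun a2 => a1 (hx a2).1, zero_mul]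
    have k1 := h _ t3 (.of_forall fun x => mul_nonneg (hy0 x) (sq_nonneg _)) z1
    have k2 : dir eX W (fun x => y x * χ x ^ 2) = -∫ x, R338.lap W x * (y x * χ x ^ 2) :=
      dir_contDiff hW t3
    have i1 := ha.integrable_mul hS hf.1.1.aesm hf.2 t3 z1
    have i2 : Integrable fun x => s x * (y x * χ x ^ 2) := by
      simpa only [mul_one] using
        hs.integrable_mul hS (f := fun _ => 1) aestronglyMeasurable_const (.const 1) t3 z1
    have i3 : Integrable fun x => R338.lap W x * (y x * χ x ^ 2) := by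
      simpa only [mul_one] using t3.integrable_mul (.of_continuous (R338.continuous_lap hW))
        (g := fun _ => 1) (.of_continuous continuous_const)
    have i4 : Integrable fun x => y x ^ 2 * χ x ^ 2 := by
      simpa only [sq] using t2.integrable_mul hy.1.1 hy.1.1
    have k3 : dir eX y (fun x => y x * χ x ^ 2) =
        dir eX f (fun x => y x * χ x ^ 2) - dir eX W fun x => y x * χ x ^ 2 := by
      rw [dir, dir, dir, ← integral_sub (hf.1.integrable_dot t3) (hW1.1.integrable_dot t3)]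
      refine integral_congr_ae ?_
      filter_upwards [h1, ae_all_iff.2 fun i => hy.1.wd_eq_of_eq (hf.1.sub hW1.1) i,
        ae_all_iff.2 fun i => hf.1.wd_sub hW1.1 i, ae_all_iff.2 fun i => t3.1.1.wd_zero i]
        with x a1 a2 a3 a4
      simp only [dot, ← Finset.sum_sub_distrib]
      refine Finset.sum_congr rfl fun i _ => ?_
      by_cases a5 : y x = 0
      · rw [a4 i (by simp only [a5, zero_mul]), mul_zero, mul_zero, mul_zero, sub_zero]
      · rw [a2 i (a1 a5).2.1, a3 i, sub_mul]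
    have k4 : a0 * ∫ x, y x ^ 2 * χ x ^ 2 ≤ (∫ x, a x * f x * (y x * χ x ^ 2)) -
        (∫ x, s x * (y x * χ x ^ 2)) - ∫ x, R338.lap W x * (y x * χ x ^ 2) := by
      have i5 : Integrable fun x => a x * f x * (y x * χ x ^ 2) - s x * (y x * χ x ^ 2) := i1.sub i2
      rw [← integral_sub i1 i2, ← integral_sub i5 i3, ← integral_const_mul]
      refine integral_mono_ae (i4.const_mul _) (i5.sub i3) (h1.mono fun x hx => ?_)
      simp only
      by_cases a5 : y x = 0
      · simp only [a5, zero_mul, mul_zero, sub_zero, ne_eq, OfNat.ofNat_ne_zero, not_false_eq_true,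
          zero_pow, le_refl]
      · have a6 := mul_le_mul_of_nonneg_right (hx a5).2.2.1 (mul_nonneg (hy0 x) (sq_nonneg (χ x)))
        linarith
    have k5 : -(B ^ 2 * ∫ x, y x ^ 2) ≤ dir eX y fun x => y x * χ x ^ 2 := by
      rw [← neg_mul, ← integral_const_mul]
      refine integral_mono_ae (iy.const_mul _) (hy.1.integrable_dot t3) ?_
      filter_upwards [hy.dot_mul t1.1, ae_all_iff.2 fun i => wd_contDiff hχ.1 (eX i)] with x a1 a2
      have a3 := dot_self_nonneg (b := eX) (fun x => y x * χ x) x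
      have a4 : dot eX χ χ x ≤ B ^ 2 := by
        simp only [dot, a2, ← sq]
        rw [sum_fderiv_sq]
        exact pow_le_pow_left₀ (norm_nonneg _) (hB x) 2
      have a5 := mul_le_mul_of_nonneg_left a4 (sq_nonneg (y x))
      linarith
    linarith
  obtain ⟨χ, C, c1, c2, c3, c4⟩ := exists_cutoff (E := X)
  have l1 : Tendsto (fun n => ∫ x, y x ^ 2 * χ n x ^ 2) atTop (𝓝 (∫ x, y x ^ 2)) :=
    tendsto_integral_of_dominated_convergence (fun x => y x ^ 2)
      (fun n => iy.1.mul ((c1 n).1.continuous.pow 2).aestronglyMeasurable) iy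
      (fun n => .of_forall fun x => by
        rw [Real.norm_of_nonneg (by positivity)]
        exact mul_le_of_le_one_right (sq_nonneg _) (pow_le_one₀ (c2 n x).1 (c2 n x).2))
      (.of_forall fun x => tendsto_const_nhds.congr' (by
        filter_upwards [eventually_ge_atTop ⌈‖x‖⌉₊] with n hn
        rw [c3 n x (Nat.ceil_le.1 hn), one_pow, mul_one]))
  have l2 : Tendsto (fun n : ℕ => (C / (n + 1)) ^ 2 * ∫ x, y x ^ 2) atTop (𝓝 0) := by
    have := ((tendsto_one_div_add_atTop_nhds_zero_nat.const_mul C).pow 2).mul_const (∫ x, y x ^ 2)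
    simpa only [mul_one_div, mul_zero, ne_eq, OfNat.ofNat_ne_zero, not_false_eq_true, zero_pow,
      zero_mul] using this
  have l3 := le_of_tendsto_of_tendsto' (l1.const_mul a0) l2 fun n =>
    key (χ n) _ ⟨(c1 n).1.of_le one_le_two, (c1 n).2⟩ (c4 n)
  have l4 : ∫ x, y x ^ 2 = 0 := le_antisymm (nonpos_of_mul_nonpos_right l3 ha0)
    (integral_nonneg fun x => sq_nonneg _)
  filter_upwards [(integral_eq_zero_iff_of_nonneg (fun x => sq_nonneg _) iy).1 l4] with x hx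
  exact pow_eq_zero_iff two_ne_zero |>.1 hx

theorem cmpb_compare {O Kc : Set X} (hO : IsOpen O) (hK : IsClosed Kc) (hKO : Kc ⊆ O) {w : X → ℝ}
    (hw : ContDiffOn ℝ 2 w O) (hf : LH eX f) (h : Sub eX O f a s) (ha : LI O a) (hs : LI O s)
    (hc : ∀ᵐ x : X, x ∈ O → x ∉ Kc → f x ≤ w x) {a0 : ℝ} (ha0 : 0 < a0)
    (hb : ∀ᵐ x : X, x ∈ Kc → w x < f x → a0 * (f x - w x) ≤ a x * f x - s x - R338.lap w x)
    {p : X → ℝ} (hp : MemLp p 2 volume) (hle : ∀ᵐ x : X, x ∈ Kc → f x - w x ≤ p x) :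
    ∀ᵐ x : X, x ∈ O → f x ≤ w x := by
  obtain ⟨y, W, h1, h2, h3, h4, h5⟩ := cmpb_cut hO hK hKO hw hf
  have h6 := cmpb_core hO.measurableSet hf h2 h1 h ha hs ha0 hp h3 (by
    filter_upwards [hc, hb, hle] with x a1 a2 a3 a4
    have a5 : x ∈ Kc := by_contra fun a5 => a4 (h5 x fun a6 => a1 a6 a5)
    have a6 : w x < f x := not_le.1 fun a6 => a4 (h5 x fun _ => a6)
    obtain ⟨b1, b2, b3⟩ := h4 x a5
    rw [max_eq_left (sub_nonneg.2 a6.le)] at b1
    rw [b1, b2, b3]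
    exact ⟨hKO a5, rfl, a2 a5 a6, a3 a5⟩)
  filter_upwards [h6, hc] with x a1 a2 a3
  by_cases a4 : x ∈ Kc
  · rw [(h4 x a4).1] at a1
    exact sub_nonpos.1 (a1 ▸ le_max_left _ _)
  · exact a2 a3 a4

theorem cmpb_half {O Kc : Set X} (hO : IsOpen O) (hK : IsClosed Kc) (hKO : Kc ⊆ O) {w : X → ℝ}
    (hw : ContDiffOn ℝ 2 w O) (hf : LH eX f) (h : Sub eX (Hs ∩ O) f a s) (ha : LI (Hs ∩ O) a)
    (hs : LI (Hs ∩ O) s) (hc : ∀ᵐ x : X, 0 < x 2 → x ∈ O → x ∉ Kc → f x ≤ w x) {a0 : ℝ}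
    (ha0 : 0 < a0) (hb : ∀ᵐ x : X, 0 < x 2 → x ∈ Kc → w x < f x →
      a0 * (f x - w x) ≤ a x * f x - s x - R338.lap w x)
    {p : X → ℝ} (hp : MemLp p 2 volume) (hle : ∀ᵐ x : X, 0 < x 2 → x ∈ Kc → f x - w x ≤ p x)
    {q : X → ℝ} (hq : Strip q) (hq2 : LocL2 q)
    (hle' : ∀ᵐ x : X, 0 < x 2 → x 2 < 1 → x ∈ Kc → f x - w x ≤ q x) :
    ∀ᵐ x : X, 0 < x 2 → x ∈ O → f x ≤ w x := by
  obtain ⟨y, W, h1, h2, h3, h4, h5⟩ := cmpb_cut hO hK hKO hw hf
  have s1 : Strip y := hq.mono hq2 h1.1.1.aesm fun R => ⟨1, 1, one_pos, by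
    filter_upwards [hc, hle'] with x a1 a2 a3 a4 _
    rw [one_mul, abs_of_nonneg (h3 x)]
    by_cases a5 : x ∈ Kc
    · rw [(h4 x a5).1]
      exact max_le ((a2 a3 a4 a5).trans (le_abs_self _)) (abs_nonneg _)
    · rw [h5 x fun a6 => a1 a3 a6 a5]
      exact abs_nonneg _⟩
  have h6 := cmpb_core (measurableSet_Hs.inter hO.measurableSet) hf h2 (h1.indicator_Hs s1) h ha hs
    ha0 hp (fun x => indicator_nonneg (fun z _ => h3 z) x) (by
    filter_upwards [hc, hb, hle] with x a1 a2 a3 a4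
    have a0 : x ∈ Hs := mem_of_indicator_ne_zero a4
    rw [indicator_of_mem a0] at a4 ⊢
    have a5 : x ∈ Kc := by_contra fun a5 => a4 (h5 x fun a6 => a1 a0 a6 a5)
    have a6 : w x < f x := not_le.1 fun a6 => a4 (h5 x fun _ => a6)
    obtain ⟨b1, b2, b3⟩ := h4 x a5
    rw [max_eq_left (sub_nonneg.2 a6.le)] at b1
    rw [b1, b2, b3]
    exact ⟨⟨a0, hKO a5⟩, rfl, a2 a0 a5 a6, a3 a0 a5⟩)
  filter_upwards [h6, hc] with x a1 a2 a0 a3
  by_cases a4 : x ∈ Kc
  · rw [indicator_of_mem (show x ∈ Hs from a0), (h4 x a4).1] at a1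
    exact sub_nonpos.1 (a1 ▸ le_max_left _ _)
  · exact a2 a0 a3 a4

end Crest.Agent.R335
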