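/-
R335/T/Cmp: weak inequalities and the comparison principle
Skeleton by helper48 (row 335); keep the statements unchanged, add any helper lemmas you like.
-/
import Crest.Agent.R335.T.Strip
import Crest.Agent.R335.T.Pot
import Crest.Agent.R335.T.Poin
import Crest.Agent.R335.T.CmpB

set_option autoImplicit false
set_option linter.unusedSectionVars false
set_option linter.unusedVariables false
set_option linter.unusedSimpArgs false

noncomputable section

namespace Crest.Agent.R335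

open MeasureTheory Set Filter Topology Metric
open scoped ENNReal


variable {S S' : Set X} {f g a a' s s' : X → ℝ}

theorem LI.mono (h : LI S a) (hS : S' ⊆ S) : LI S' a := by
  intro R
  exact (h R).mono_set (inter_subset_inter_left _ hS)

theorem LI.add (h : LI S a) (h' : LI S a') : LI S fun x => a x + a' x := by
  intro R
  exact (h R).add (h' R)

theorem LI.const_mul (h : LI S a) (c : ℝ) : LI S fun x => c * a x := by
  intro R
  exact Integrable.const_mul (h R) c

theorem LI.const (c : ℝ) : LI S fun _ => c := by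
  intro R
  refine IntegrableOn.mono_set ?_ inter_subset_right
  exact integrableOn_const (measure_closedBall_lt_top).ne

/-- Measurable and bounded on bounded parts of `S`. -/
theorem LI.of_bdd (hS : MeasurableSet S) (hm : AEStronglyMeasurable a volume)
    (h : ∀ R : ℝ, ∃ M : ℝ, ∀ᵐ x : X, x ∈ S → ‖x‖ ≤ R → |a x| ≤ M) : LI S a := by
  intro R
  obtain ⟨M, hM⟩ := h R
  refine Measure.integrableOn_of_bounded (M := M) ?_ hm ?_
  · exact ((measure_mono inter_subset_right).trans_lt measure_closedBall_lt_top).ne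
  · rw [ae_restrict_iff' (hS.inter measurableSet_closedBall)]
    filter_upwards [hM] with x hx hx'
    exact hx hx'.1 (by simpa using hx'.2)

theorem LI.mul_locBdd (hS : MeasurableSet S) (h : LI S a) (hm : AEStronglyMeasurable f volume)
    (hf : LocBdd f) : LI S fun x => a x * f x := by
  intro R
  obtain ⟨M, hM⟩ := hf R
  refine Integrable.mul_bdd (c := M) (h R) hm.restrict ?_
  rw [ae_restrict_iff' (hS.inter measurableSet_closedBall)]
  filter_upwards [hM] with x hx hx'
  exact hx (by simpa using hx'.2)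

theorem li_aa (D m2 : ℝ) : LI univ (aa D m2) := by
  exact ((li_V D).const_mul 2).add (LI.const m2)

theorem measurableSet_Ext (r : ℝ) : MeasurableSet (Ext r) := by
  exact (isClosed_le continuous_const continuous_norm).measurableSet

theorem li_aS {r : ℝ} (hr : 0 < r) (D m2 l M : ℝ) : LI (Ext r) (aS D m2 l M) := by
  have h1 : LI (Ext r) fun x : X => 4 * l / ‖x‖ - l * M / ‖x‖ ^ 2 := by
    refine LI.of_bdd (measurableSet_Ext r) ?_ fun R => ⟨|4 * l| / r + |l * M| / r ^ 2, ?_⟩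
    · exact (Measurable.aestronglyMeasurable (by fun_prop))
    · refine Eventually.of_forall fun x hx _ => ?_
      have hx' : r ≤ ‖x‖ := hx
      refine (abs_sub _ _).trans (add_le_add ?_ ?_)
      · rw [abs_div, abs_norm]
        exact div_le_div_of_nonneg_left (abs_nonneg _) hr hx'
      · rw [abs_div, abs_of_nonneg (sq_nonneg ‖x‖)]
        exact div_le_div_of_nonneg_left (abs_nonneg _) (by positivity) (by gcongr)
  have h2 := ((li_aa D m2).mono (subset_univ (Ext r))).add h1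
  have h3 : aS D m2 l M = fun x => aa D m2 x + (4 * l / ‖x‖ - l * M / ‖x‖ ^ 2) := by
    funext x
    simp only [aS]
    ring
  rw [h3]
  exact h2

theorem Sub.mono (h : Sub eX S f a s) (hS : S' ⊆ S) : Sub eX S' f a s := by
  intro φ hφ h0 h1
  refine h φ hφ h0 ?_
  filter_upwards [h1] with x hx hx'
  exact hx fun h' => hx' (hS h')

theorem Sub.congr (h : Sub eX S f a s) (he : f =ᵐ[volume] g) : Sub eX S g a s := by
  intro φ hφ h0 h1
  have h2 := h φ hφ h0 h1
  have h3 : ∫ x, a x * f x * φ x = ∫ x, a x * g x * φ x := by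
    refine integral_congr_ae ?_
    filter_upwards [he] with x hx
    rw [hx]
  rw [dir_congr he (EventuallyEq.refl _ φ), h3] at h2
  exact h2

theorem cmpa_int {φ : X → ℝ} (hS : MeasurableSet S) (hs : LI S s) (hφ : LT eX φ)
    (h1 : ∀ᵐ x : X, x ∉ S → φ x = 0) : Integrable fun x => s x * φ x := by
  have := hs.integrable_mul (f := fun _ => (1 : ℝ)) hS aestronglyMeasurable_const
    (LocBdd.const 1) hφ h1
  simpa using this

theorem Sub.change (h : Sub eX S f a s) (hS : MeasurableSet S) (hf : LH eX f) (ha : LI S a)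
    (ha' : LI S a') (hs : LI S s) (hs' : LI S s')
    (hle : ∀ᵐ x : X, x ∈ S → a' x * f x - s' x ≤ a x * f x - s x) : Sub eX S f a' s' := by
  intro φ hφ h0 h1
  have h2 := h φ hφ h0 h1
  have i1 := ha.integrable_mul hS hf.1.1.aesm hf.2 hφ h1
  have i2 := ha'.integrable_mul hS hf.1.1.aesm hf.2 hφ h1
  have i3 := cmpa_int hS hs hφ h1
  have i4 := cmpa_int hS hs' hφ h1
  have h3 : ∫ x, (a' x * f x * φ x - s' x * φ x) ≤ ∫ x, (a x * f x * φ x - s x * φ x) := by
    refine integral_mono_ae (i2.sub i4) (i1.sub i3) ?_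
    filter_upwards [h0, h1, hle] with x hx0 hx1 hx
    by_cases hxS : x ∈ S
    · have := mul_le_mul_of_nonneg_right (hx hxS) hx0
      linarith
    · simp [hx1 hxS]
  rw [integral_sub i2 i4, integral_sub i1 i3] at h3
  linarith

theorem Sub.add (h : Sub eX S f a s) (h' : Sub eX S g a s') (hS : MeasurableSet S) (hf : LH eX f)
    (hg : LH eX g) (ha : LI S a) (hs : LI S s) (hs' : LI S s') :
    Sub eX S (fun x => f x + g x) a fun x => s x + s' x := by
  intro φ hφ h0 h1
  have h2 := h φ hφ h0 h1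
  have h2' := h' φ hφ h0 h1
  have i1 := ha.integrable_mul hS hf.1.1.aesm hf.2 hφ h1
  have i2 := ha.integrable_mul hS hg.1.1.aesm hg.2 hφ h1
  have i3 := cmpa_int hS hs hφ h1
  have i4 := cmpa_int hS hs' hφ h1
  have e1 : ∫ x, a x * (f x + g x) * φ x = (∫ x, a x * f x * φ x) + ∫ x, a x * g x * φ x := by
    rw [← integral_add i1 i2]
    congr 1
    funext x
    ring
  have e2 : ∫ x, (s x + s' x) * φ x = (∫ x, s x * φ x) + ∫ x, s' x * φ x := by
    rw [← integral_add i3 i4]
    congr 1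
    funext x
    ring
  rw [hf.1.dir_add_left hg.1 hφ, e1, e2]
  linarith

theorem Sub.const_mul (h : Sub eX S f a s) (hf : HL eX f) {c : ℝ} (hc : 0 ≤ c) :
    Sub eX S (fun x => c * f x) a fun x => c * s x := by
  intro φ hφ h0 h1
  have h2 := mul_le_mul_of_nonneg_left (h φ hφ h0 h1) hc
  have e1 : ∫ x, a x * (c * f x) * φ x = c * ∫ x, a x * f x * φ x := by
    rw [← integral_const_mul]
    congr 1
    funext x
    ring
  have e2 : ∫ x, c * s x * φ x = c * ∫ x, s x * φ x := by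
    rw [← integral_const_mul]
    congr 1
    funext x
    ring
  rw [hf.dir_const_mul_left c φ, e1, e2]
  linarith

/-- Split the test function with a radial cut-off. -/
theorem Sub.glue {r : ℝ} (hr : 0 ≤ r) (hS : MeasurableSet S) (hf : LH eX f) (ha : LI S a)
    (hs : LI S s) (h1 : Sub eX (S ∩ closedBall 0 (r + 1)) f a s) (h2 : Sub eX (S ∩ Ext r) f a s) :
    Sub eX S f a s := by
  intro φ hφ h0 hz
  obtain ⟨C, -, hC⟩ := exists_radial_cutoff
  obtain ⟨χ, hχ, -, hχ01, hχ1, hχ0, -⟩ := hC 0 r 1 hr one_pos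
  simp only [sub_zero] at hχ1 hχ0
  have hL : LH eX χ := LH.of_contDiff (hχ.of_le (by norm_num))
  have hL' : LH eX fun x => 1 - χ x := (LH.const 1).sub hL
  have t1 : LT eX fun x => χ x * φ x := hL.mul_LT hφ
  have t2 : LT eX fun x => (1 - χ x) * φ x := hL'.mul_LT hφ
  have z1 : ∀ᵐ x : X, x ∉ S → χ x * φ x = 0 := by
    filter_upwards [hz] with x hx hx'
    rw [hx hx', mul_zero]
  have z2 : ∀ᵐ x : X, x ∉ S → (1 - χ x) * φ x = 0 := by
    filter_upwards [hz] with x hx hx'
    rw [hx hx', mul_zero]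
  have k1 := h1 _ t1 (by
    filter_upwards [h0] with x hx
    exact mul_nonneg (hχ01 x).1 hx) (by
    filter_upwards [z1] with x hx hx'
    by_cases hxS : x ∈ S
    · have : ¬ ‖x‖ ≤ r + 1 := fun hh => hx' ⟨hxS, by simpa using hh⟩
      rw [hχ0 x (le_of_lt (not_le.1 this)), zero_mul]
    · exact hx hxS)
  have k2 := h2 _ t2 (by
    filter_upwards [h0] with x hx
    exact mul_nonneg (sub_nonneg.2 (hχ01 x).2) hx) (by
    filter_upwards [z2] with x hx hx'
    by_cases hxS : x ∈ S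
    · have : ¬ r ≤ ‖x‖ := fun hh => hx' ⟨hxS, hh⟩
      rw [hχ1 x (le_of_lt (not_le.1 this)), sub_self, zero_mul]
    · exact hx hxS)
  have i1 := ha.integrable_mul hS hf.1.1.aesm hf.2 t1 z1
  have i2 := ha.integrable_mul hS hf.1.1.aesm hf.2 t2 z2
  have i3 := cmpa_int hS hs t1 z1
  have i4 := cmpa_int hS hs t2 z2
  have e0 : dir eX f φ = dir eX f (fun x => χ x * φ x) + dir eX f fun x => (1 - χ x) * φ x := by
    rw [← hf.1.dir_add_right t1 t2]
    congr 1
    funext x
    ring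
  have e1 : ∫ x, a x * f x * φ x =
      (∫ x, a x * f x * (χ x * φ x)) + ∫ x, a x * f x * ((1 - χ x) * φ x) := by
    rw [← integral_add i1 i2]
    congr 1
    funext x
    ring
  have e2 : ∫ x, s x * φ x = (∫ x, s x * (χ x * φ x)) + ∫ x, s x * ((1 - χ x) * φ x) := by
    rw [← integral_add i3 i4]
    congr 1
    funext x
    ring
  rw [e0, e1, e2]
  linarith

theorem Sub.reflect (h : Sub eX S f a s) (hf : HL eX f) :
    Sub eX (rf ⁻¹' S) (fun x => f (rf x)) (fun x => a (rf x)) fun x => s (rf x) := by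
  intro φ hφ h0 hz
  have t1 : LT eX fun x => φ (rf x) := sym_rf.lt hφ
  have k := h _ t1 (sym_rf.ae h0) (by
    filter_upwards [sym_rf.ae hz] with x hx hx'
    refine hx ?_
    simpa [rf_rf] using hx')
  have e0 := sym_rf.dir hf t1.1.1
  have e1 := sym_rf.integral fun x => a x * f x * φ (rf x)
  have e2 := sym_rf.integral fun x => s x * φ (rf x)
  simp only [rf_rf] at e0 e1 e2
  rw [← e0, ← e1, ← e2] at k
  exact k

theorem sub_of_qf {U : X → ℝ} (hU : Pot eX U) (hf : H1 eX f) {e : ℝ}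
    (he : ∀ φ, H1 eX φ → qf eX U f φ = e * ip f φ) (σ : ℝ) :
    Sub eX univ (fun x => σ * f x) (fun x => 2 * U x - 2 * e) 0 := by
  intro φ hφ h0 hz
  have k := he φ hφ.h1
  have i1 := hU.integrable hf hφ.h1.1
  have i2 : Integrable fun x => f x * φ x := hf.1.integrable_mul hφ.h1.1
  have e1 : ∫ x, (2 * U x - 2 * e) * (σ * f x) * φ x =
      2 * σ * (∫ x, U x * f x * φ x) - 2 * e * σ * ∫ x, f x * φ x := by
    rw [← integral_const_mul, ← integral_const_mul, ← integral_sub (i1.const_mul _) (i2.const_mul _)]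
    congr 1
    funext x
    ring
  rw [hf.hl.dir_const_mul_left σ φ, e1]
  simp only [qf, ip] at k
  have k2 : dir eX f φ = 2 * (e * ∫ x, f x * φ x) - 2 * ∫ x, U x * f x * φ x := by linarith
  rw [k2]
  simp only [Pi.zero_apply, zero_mul, integral_zero]
  apply le_of_eq
  ring

/-- Caccioppoli: test with `f χ²`. -/
theorem Sub.cacc (h : Sub eX S f a s) (hS : MeasurableSet S) (hf : LH eX f) (ha : LI S a)
    (hs : LI S s) (h0 : ∀ᵐ x : X, x ∈ S → 0 ≤ f x) {χ : X → ℝ} (hχ : Tst χ)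
    (hχ0 : ∀ x, x ∉ S → χ x = 0) :
    (∫ x, χ x ^ 2 * dot eX f f x) + 2 * ∫ x, a x * f x ^ 2 * χ x ^ 2 ≤
      4 * (∫ x, f x ^ 2 * ‖fderiv ℝ χ x‖ ^ 2) + 2 * ∫ x, s x * f x * χ x ^ 2 := by
  have hL : LH eX χ := LH.of_contDiff hχ.1
  have t0 : LT eX fun x => χ x * χ x := hL.mul_LT (LT.of_tst hχ)
  have t1 : LT eX fun x => f x * (χ x * χ x) := hf.mul_LT t0
  have k := h _ t1 (by
    filter_upwards [h0] with x hx
    by_cases hxS : x ∈ S
    · exact mul_nonneg (hx hxS) (mul_self_nonneg _)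
    · simp [hχ0 x hxS]) (Eventually.of_forall fun x hx => by simp [hχ0 x hx])
  have e1 : ∫ x, a x * f x * (f x * (χ x * χ x)) = ∫ x, a x * f x ^ 2 * χ x ^ 2 := by
    congr 1
    funext x
    ring
  have e2 : ∫ x, s x * (f x * (χ x * χ x)) = ∫ x, s x * f x * χ x ^ 2 := by
    congr 1
    funext x
    ring
  have i1 : Integrable fun x => χ x ^ 2 * dot eX f f x := by
    refine (hf.1.integrable_dot_mul hf.1 t0).congr (Eventually.of_forall fun x => ?_)
    ring
  have i2 : Integrable fun x => f x ^ 2 * ‖fderiv ℝ χ x‖ ^ 2 := by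
    refine wd_int_mul hf.sq.1.1.1.locallyIntegrable ?_ ?_
    · exact ((hχ.1.continuous_fderiv one_ne_zero).norm).pow 2
    · exact (hχ.2.fderiv ℝ).comp_left (g := fun t => ‖t‖ ^ 2) (by simp)
  have i3 := hf.1.integrable_dot t1
  have h3 : ∫ x, (1 / 2 * (χ x ^ 2 * dot eX f f x) - 2 * (f x ^ 2 * ‖fderiv ℝ χ x‖ ^ 2)) ≤
      dir eX f fun x => f x * (χ x * χ x) := by
    refine integral_mono_ae ((i1.const_mul _).sub (i2.const_mul _)) i3 ?_
    have w1 := ae_all_iff.2 fun i => hf.wd_mul t0.1 i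
    have w2 := ae_all_iff.2 fun i => hL.wd_mul hL i
    have w3 := ae_all_iff.2 fun i : Fin 3 => wd_contDiff hχ.1 (eX i)
    filter_upwards [w1, w2, w3] with x x1 x2 x3
    simp only [dot, ← sum_fderiv_sq, Finset.mul_sum, ← Finset.sum_sub_distrib]
    refine Finset.sum_le_sum fun i _ => ?_
    rw [x1 i, x2 i, x3 i]
    nlinarith [sq_nonneg (wd (eX i) f x * χ x + 2 * f x * fderiv ℝ χ x (eX i))]
  rw [integral_sub (i1.const_mul _) (i2.const_mul _), integral_const_mul, integral_const_mul] at h3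
  rw [e1, e2] at k
  linarith

/-- Comparison principle.  Recipe: take `χ0` smooth, `1` near `Kc`, with topological support in
`O` (smooth Urysohn lemma, twice); `y = (χ0 f - χ0 w)₊` is `LH`, equals `(f - w)₊` on `Kc` and
vanishes a.e. off `Kc`; test with `y χ_n²` (`exists_cutoff`), use `dir_contDiff` for `χ0 w` and
`LH.dot_mul`: `a0 ∫ y² χ_n² ≤ ∫ y² |∇χ_n|² → 0`. -/
theorem compare {O Kc : Set X} (hO : IsOpen O) (hK : IsClosed Kc) (hKO : Kc ⊆ O) {w : X → ℝ}
    (hw : ContDiffOn ℝ 2 w O) (hf : LH eX f) (h : Sub eX O f a s) (ha : LI O a) (hs : LI O s)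
    (hc : ∀ᵐ x : X, x ∈ O → x ∉ Kc → f x ≤ w x) {a0 : ℝ} (ha0 : 0 < a0)
    (hb : ∀ᵐ x : X, x ∈ Kc → w x < f x → a0 * (f x - w x) ≤ a x * f x - s x - R338.lap w x)
    {p : X → ℝ} (hp : MemLp p 2 volume) (hle : ∀ᵐ x : X, x ∈ Kc → f x - w x ≤ p x) :
    ∀ᵐ x : X, x ∈ O → f x ≤ w x := by
  exact cmpb_compare hO hK hKO hw hf h ha hs hc ha0 hb hp hle

/-- The same in the upper half space: `y` is multiplied by the indicator of `Hs`
(`LH.indicator_Hs`). -/
theorem compare_half {O Kc : Set X} (hO : IsOpen O) (hK : IsClosed Kc) (hKO : Kc ⊆ O) {w : X → ℝ}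
    (hw : ContDiffOn ℝ 2 w O) (hf : LH eX f) (h : Sub eX (Hs ∩ O) f a s) (ha : LI (Hs ∩ O) a)
    (hs : LI (Hs ∩ O) s) (hc : ∀ᵐ x : X, 0 < x 2 → x ∈ O → x ∉ Kc → f x ≤ w x) {a0 : ℝ}
    (ha0 : 0 < a0) (hb : ∀ᵐ x : X, 0 < x 2 → x ∈ Kc → w x < f x →
      a0 * (f x - w x) ≤ a x * f x - s x - R338.lap w x)
    {p : X → ℝ} (hp : MemLp p 2 volume) (hle : ∀ᵐ x : X, 0 < x 2 → x ∈ Kc → f x - w x ≤ p x)
    {q : X → ℝ} (hq : Strip q) (hq2 : LocL2 q)
    (hle' : ∀ᵐ x : X, 0 < x 2 → x 2 < 1 → x ∈ Kc → f x - w x ≤ q x) :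
    ∀ᵐ x : X, 0 < x 2 → x ∈ O → f x ≤ w x := by
  exact cmpb_half hO hK hKO hw hf h ha hs hc ha0 hb hp hle hq hq2 hle'

end Crest.Agent.R335
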