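/-
R335/T/DG: De Giorgi: local boundedness
Skeleton by helper48 (row 335); keep the statements unchanged, add any helper lemmas you like.
-/
import Crest.Agent.R335.T.Pot
import Crest.Agent.R335.T.Poin

set_option autoImplicit false
set_option linter.unusedSectionVars false
set_option linter.unusedVariables false
set_option linter.unusedSimpArgs false

noncomputable section

namespace Crest.Agent.R335

open MeasureTheory Set Filter Topology Metric
open scoped ENNReal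


theorem dg_step {S Λ K : ℝ} (hS0 : 0 ≤ S)
    (hS : ∀ f : X → ℝ, H1 eX f → MemLp f 6 volume ∧ ∫ x, f x ^ 6 ≤ S * dir eX f f ^ 3)
    {v χ : X → ℝ} (hv : HL eX v) (hχ : Tst χ) (h01 : ∀ x, 0 ≤ χ x ∧ χ x ≤ 1) {B B' : Set X}
    (hB : MeasurableSet B) (hB' : MeasurableSet B') (h0 : ∀ x, x ∉ B → χ x = 0)
    (h1 : ∀ x ∈ B', χ x = 1) (hK : ∀ x, ‖fderiv ℝ χ x‖ ≤ K) {k l δ a : ℝ} (hδ : 0 < δ) (ha : 0 < a)
    (hl : l = k + δ) (hu : IntegrableOn (fun x => max (v x - k) 0 ^ 2) B)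
    (H : ∫ x, χ x ^ 2 * dot eX (fun y => max (v y - l) 0) (fun y => max (v y - l) 0) x ≤
      Λ * (∫ x, max (v x - l) 0 ^ 2 * ‖fderiv ℝ χ x‖ ^ 2) + Λ * ∫ x, max (v x - l) 0 * χ x ^ 2) :
    ∫ x in B', max (v x - l) 0 ^ 2 ≤
      S * (((2 * |Λ| + 2) * K ^ 2 + 2 * |Λ| / δ) * ∫ x in B, max (v x - k) 0 ^ 2) ^ 3 / a ^ 2 +
        a / δ ^ 2 * ∫ x in B, max (v x - k) 0 ^ 2 := by
  have hw : HL eX fun x => max (v x - l) 0 := (hv.sub (LH.const l).1).posPart.1
  have p1 : ∀ x, 0 ≤ max (v x - l) 0 ∧ max (v x - l) 0 ^ 2 ≤ max (v x - k) 0 ^ 2 ∧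
      (max (v x - l) 0 = 0 ∨ δ ^ 2 ≤ max (v x - k) 0 ^ 2) ∧
      max (v x - l) 0 ≤ δ⁻¹ * max (v x - k) 0 ^ 2 := fun x => by
    have a1 : max (v x - l) 0 ≤ max (v x - k) 0 := max_le_max (by linarith) le_rfl
    rcases le_total (v x - l) 0 with h | h
    · rw [max_eq_right h]
      exact ⟨le_rfl, by rw [zero_pow two_ne_zero]; positivity, Or.inl rfl, by positivity⟩
    · have a2 : δ ≤ max (v x - k) 0 := le_max_of_le_left (by linarith)
      refine ⟨le_max_right _ _, pow_le_pow_left₀ (le_max_right _ _) a1 2,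
        Or.inr (pow_le_pow_left₀ hδ.le a2 2), a1.trans ?_⟩
      rw [← div_eq_inv_mul, le_div_iff₀ hδ, pow_two]
      exact mul_le_mul_of_nonneg_left a2 (le_max_right _ _)
  have iU := (integrable_indicator_iff hB).2 hu
  rw [← integral_indicator hB]
  have U0 : ∀ x, x ∉ B → B.indicator (fun x => max (v x - k) 0 ^ 2) x = 0 :=
    fun x hx => indicator_of_notMem hx _
  have U1 : ∀ x ∈ B, B.indicator (fun x => max (v x - k) 0 ^ 2) x = max (v x - k) 0 ^ 2 :=
    fun x hx => indicator_of_mem hx _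
  generalize B.indicator (fun x => max (v x - k) 0 ^ 2) = U at iU U0 U1
  obtain ⟨w, ew⟩ : ∃ w : X → ℝ, w = fun x => max (v x - l) 0 := ⟨_, rfl⟩
  have ew' : ∀ x, max (v x - l) 0 = w x := fun x => by rw [ew]
  simp only [ew'] at hw p1 H ⊢
  have hg := hw.h1_mul_tst hχ
  have d0 : ∀ x, x ∉ B → fderiv ℝ χ x = 0 := fun x hx =>
    IsLocalMin.fderiv_eq_zero (.of_forall fun y => (h0 x hx).trans_le (h01 y).1)
  have b1 : ∀ x, w x ^ 2 * ‖fderiv ℝ χ x‖ ^ 2 ≤ K ^ 2 * U x := fun x => by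
    by_cases hx : x ∈ B
    · rw [U1 x hx, mul_comm]
      exact mul_le_mul (pow_le_pow_left₀ (norm_nonneg _) (hK x) 2) (p1 x).2.1 (sq_nonneg _) (sq_nonneg _)
    · simp [d0 x hx, U0 x hx]
  have c1 : ∀ x, χ x ^ 2 ≤ 1 := fun x => pow_le_one₀ (h01 x).1 (h01 x).2
  have b2 : ∀ x, w x * χ x ^ 2 ≤ δ⁻¹ * U x := fun x => by
    by_cases hx : x ∈ B
    · rw [U1 x hx]
      exact (mul_le_of_le_one_right (p1 x).1 (c1 x)).trans (p1 x).2.2.2
    · simp [h0 x hx, U0 x hx]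
  have b3 : ∀ x, (χ x * w x) ^ 2 ≤ (χ x * w x) ^ 6 / a ^ 2 + a / δ ^ 2 * U x := fun x => by
    by_cases hx : x ∈ B
    · rw [U1 x hx]
      rcases (p1 x).2.2.1 with h | h
      · rw [h, mul_zero, zero_pow two_ne_zero]
        positivity
      · have a1 : a ≤ a / δ ^ 2 * max (v x - k) 0 ^ 2 := by
          rw [div_mul_eq_mul_div, le_div_iff₀ (by positivity)]
          exact mul_le_mul_of_nonneg_left h ha.le
        rcases le_total ((χ x * w x) ^ 2) a with h' | h'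
        · exact le_add_of_nonneg_of_le (by positivity) (h'.trans a1)
        · refine le_add_of_le_of_nonneg ?_ (ha.le.trans a1)
          rw [le_div_iff₀ (by positivity), show (χ x * w x) ^ 6 =
            (χ x * w x) ^ 2 * ((χ x * w x) ^ 2) ^ 2 by ring]
          exact mul_le_mul_of_nonneg_left (pow_le_pow_left₀ ha.le h' 2) (sq_nonneg _)
    · simp [h0 x hx, U0 x hx]
  have i1 : Integrable fun x => w x ^ 2 * ‖fderiv ℝ χ x‖ ^ 2 :=
    (iU.const_mul (K ^ 2)).mono' ((hw.1.aesm.pow 2).mul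
      ((hχ.1.continuous_fderiv one_ne_zero).norm.pow 2).aestronglyMeasurable)
      (.of_forall fun x => by rw [Real.norm_of_nonneg (by positivity)]; exact b1 x)
  have i2 : Integrable fun x => χ x ^ 2 * dot eX w w x := by
    simpa only [pow_two, mul_comm] using
      hw.integrable_dot_mul hw ((LT.of_tst (b := eX) hχ).1.mul_LT (LT.of_tst hχ))
  have I1 := integral_mono i1 (iU.const_mul _) b1
  have I2 := integral_mono_of_nonneg (.of_forall fun x => mul_nonneg (p1 x).1 (sq_nonneg _))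
    (iU.const_mul _) (.of_forall b2)
  have I3 : dir eX (fun x => χ x * w x) (fun x => χ x * w x) ≤
      ∫ x, (2 * (χ x ^ 2 * dot eX w w x) + 2 * (w x ^ 2 * ‖fderiv ℝ χ x‖ ^ 2)) := by
    refine integral_mono_of_nonneg (.of_forall (dot_self_nonneg _))
      ((i2.const_mul 2).add (i1.const_mul 2)) ?_
    filter_upwards [ae_all_iff.2 (hw.mul_contDiff hχ.1).2] with x hx
    simp only [dot, hx, ← sum_fderiv_sq, Finset.mul_sum, ← Finset.sum_add_distrib]
    exact Finset.sum_le_sum fun i _ => by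
      nlinarith [sq_nonneg (χ x * wd (eX i) w x - fderiv ℝ χ x (eX i) * w x)]
  have i6 : Integrable fun x => (χ x * w x) ^ 6 := by
    simpa only [Real.norm_eq_abs, Even.pow_abs (by decide : Even 6)] using
      (hS _ hg).1.integrable_norm_pow (p := 6) (by norm_num)
  have I4 := integral_mono hg.1.integrable_sq ((i6.div_const _).add (iU.const_mul _)) b3
  rw [integral_add' (i6.div_const _) (iU.const_mul _), integral_div, integral_const_mul] at I4
  rw [integral_add (i2.const_mul 2) (i1.const_mul 2), integral_const_mul, integral_const_mul] at I3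
  rw [integral_const_mul] at I1 I2
  have n1 : 0 ≤ ∫ x, w x ^ 2 * ‖fderiv ℝ χ x‖ ^ 2 := integral_nonneg fun x => by positivity
  have n2 : 0 ≤ ∫ x, w x * χ x ^ 2 := integral_nonneg fun x => mul_nonneg (p1 x).1 (sq_nonneg _)
  refine le_trans ?_ (I4.trans (add_le_add (div_le_div_of_nonneg_right ((hS _ hg).2.trans
    (mul_le_mul_of_nonneg_left (pow_le_pow_left₀ (dir_self_nonneg _) (I3.trans ?_) 3) hS0))
    (sq_nonneg _)) le_rfl))
  · rw [setIntegral_congr_fun hB' (g := fun x => (χ x * w x) ^ 2) fun x hx => by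
      simp only [h1 x hx, one_mul]]
    exact setIntegral_le_integral hg.1.integrable_sq (.of_forall fun x => sq_nonneg _)
  · rw [div_eq_mul_inv]
    nlinarith [mul_le_mul_of_nonneg_right (le_abs_self Λ) n1, mul_le_mul_of_nonneg_right (le_abs_self Λ) n2,
      mul_le_mul_of_nonneg_left I1 (abs_nonneg Λ), mul_le_mul_of_nonneg_left I2 (abs_nonneg Λ)]

/-- Recipe: levels `k n = k (2 - 2^{-n}) / 2 ...`, radii `4 + 2^{1-n}` (`exists_radial_cutoff`),
`Y n = ∫_{B n} (v - k n)₊²`; Sobolev (`sobolev` for `χ (v - k (n+1))₊`), Hoelder and Chebyshev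
(`|{v > k (n+1)} ∩ B n| ≤ 4^{n+1} Y n / k²`, and `(v - k (n+1))₊ ≤ 2^{n+1} (v - k n)₊² / k`)
give `Y (n+1) ≤ C b^n k^{-4/3} Y n ^ (5/3)` for `k ≥ 1`; hence `Y n → 0` when `Y 0 ≤ c k²`. -/
theorem degiorgi (Λ : ℝ) : ∃ C : ℝ, 0 < C ∧ ∀ (v : X → ℝ) (x0 : X), HL eX v →
    (∀ᵐ x : X, 0 ≤ v x) →
    (∀ (k : ℝ) (χ : X → ℝ), 0 ≤ k → Tst χ → (∀ x, 0 ≤ χ x ∧ χ x ≤ 1) →
      (∀ x, 6 ≤ ‖x - x0‖ → χ x = 0) →
      ∫ x, χ x ^ 2 * dot eX (fun y => max (v y - k) 0) (fun y => max (v y - k) 0) x ≤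
        Λ * (∫ x, max (v x - k) 0 ^ 2 * ‖fderiv ℝ χ x‖ ^ 2) +
          Λ * ∫ x, max (v x - k) 0 * χ x ^ 2) →
    ∀ᵐ x : X, x ∈ ball x0 4 → v x ≤ C * (1 + ∫ y in ball x0 6, v y ^ 2) := by
  obtain ⟨S, hS0, hS⟩ := sobolev
  obtain ⟨K, hK1, hK⟩ := exists_radial_cutoff
  obtain ⟨D, hD⟩ : ∃ D, D = (2 * |Λ| + 2) * K ^ 2 + 4 * |Λ| := ⟨_, rfl⟩
  have D0 : 0 ≤ D := by rw [hD]; positivity
  obtain ⟨C, hC⟩ : ∃ C, C = 1 + 2 ^ 22 * S * D ^ 3 := ⟨_, rfl⟩
  have C1 : 1 ≤ C := by rw [hC]; exact le_add_of_nonneg_right (by positivity)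
  refine ⟨C, by linarith, fun v x0 hv h0 H => ?_⟩
  have y0 : 0 ≤ ∫ y in ball x0 6, v y ^ 2 := integral_nonneg fun x => sq_nonneg _
  obtain ⟨k, hk⟩ : ∃ k, k = C * (1 + ∫ y in ball x0 6, v y ^ 2) := ⟨_, rfl⟩
  have k1 : C ≤ k := by rw [hk]; exact le_mul_of_one_le_right (by linarith) (by linarith)
  have k0 : 0 < k := by linarith
  have iu : ∀ l r : ℝ, IntegrableOn (fun x => max (v x - l) 0 ^ 2) (ball x0 r) := fun l r =>
    (poin_memLp (hv.sub (LH.const l).1).posPart.1.1 x0 r).integrable_sq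
  have key : ∀ n : ℕ, C * ∫ x in ball x0 (4 + 2 * (2 ^ n)⁻¹), max (v x - k * (1 - (2 ^ n)⁻¹)) 0 ^ 2 ≤
      k ^ 2 * (2 ^ n)⁻¹ ^ 5 := fun n => by
    induction n with
    | zero =>
      rw [integral_congr_ae (g := fun x => v x ^ 2) (ae_restrict_of_ae (h0.mono fun x hx => by simp [hx]))]
      norm_num
      nlinarith [mul_le_mul k1 (le_mul_of_one_le_left (by linarith) C1 |>.trans hk.ge) (by linarith) k0.le]
    | succ n ih =>
      have t1 : (1 : ℝ) ≤ 2 ^ n := one_le_pow₀ one_le_two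
      rw [pow_succ 2 n]
      generalize (2 : ℝ) ^ n = t at ih t1
      have t0 : 0 < t := by linarith
      have t2 : t⁻¹ ≤ 1 := inv_le_one_of_one_le₀ t1
      have t3 : 0 < t⁻¹ := inv_pos.2 t0
      obtain ⟨χ, c1, c2, c3, c4, c5, c6, -⟩ := hK x0 (4 + t⁻¹) t⁻¹ (by positivity) t3
      have hχ : Tst χ := ⟨c1.of_le one_le_two, c2⟩
      have h1 := dg_step hS0.le hS hv hχ c3 (measurableSet_ball (x := x0) (ε := 4 + 2 * t⁻¹))
        (measurableSet_ball (x := x0) (ε := 4 + 2 * (t * 2)⁻¹))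
        (fun x hx => c5 x (by linarith [not_lt.1 (mt mem_ball_iff_norm.2 hx)]))
        (fun x hx => c4 x (by have := mem_ball_iff_norm.1 hx; rw [mul_inv] at this; linarith)) c6
        (k := k * (1 - t⁻¹)) (l := k * (1 - (t * 2)⁻¹)) (δ := k / (2 * t)) (a := k ^ 2 / (256 * t ^ 2))
        (by positivity) (by positivity) (by field_simp; ring) (iu _ _)
        (H _ χ (mul_nonneg k0.le (by rw [mul_inv]; linarith)) hχ c3 fun x hx => c5 x (by linarith))
      have n1 : 0 ≤ ∫ x in ball x0 (4 + 2 * t⁻¹), max (v x - k * (1 - t⁻¹)) 0 ^ 2 :=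
        integral_nonneg fun x => sq_nonneg _
      generalize ∫ x in ball x0 (4 + 2 * t⁻¹), max (v x - k * (1 - t⁻¹)) 0 ^ 2 = Y at h1 ih n1
      have a1 : (2 * |Λ| + 2) * (K / t⁻¹) ^ 2 + 2 * |Λ| / (k / (2 * t)) ≤ D * t ^ 2 := by
        have : 2 * |Λ| / (k / (2 * t)) ≤ 4 * |Λ| * t ^ 2 := by
          rw [div_le_iff₀ (by positivity), show 4 * |Λ| * t ^ 2 * (k / (2 * t)) = 2 * |Λ| * (t * k) by
            field_simp; ring]
          exact le_mul_of_one_le_right (by positivity) (one_le_mul_of_one_le_of_one_le t1 (C1.trans k1))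
        rw [hD, div_inv_eq_mul]
        nlinarith
      have a2 : C * (t ^ 5 * Y / k ^ 2) ≤ 1 := by
        rw [← mul_div_assoc, div_le_one (by positivity)]
        refine le_trans (le_of_eq ?_) ((mul_le_mul_of_nonneg_left ih (pow_pos t0 5).le).trans_eq ?_)
        · ring
        · field_simp
      have a3 : S * (D * t ^ 2 * Y) ^ 3 / (k ^ 2 / (256 * t ^ 2)) ^ 2 ≤ Y / 64 := by
        have z0 : 0 ≤ t ^ 5 * Y / k ^ 2 := by positivity
        rw [show S * (D * t ^ 2 * Y) ^ 3 / (k ^ 2 / (256 * t ^ 2)) ^ 2 =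
          2 ^ 22 * S * D ^ 3 * (t ^ 5 * Y / k ^ 2) * (t ^ 5 * Y / k ^ 2) * (Y / 64) by field_simp; ring]
        generalize t ^ 5 * Y / k ^ 2 = z at a2 z0
        refine mul_le_of_le_one_left (by positivity) (mul_le_one₀ ?_ z0 ?_) <;> nlinarith
      have a4 : k ^ 2 / (256 * t ^ 2) / (k / (2 * t)) ^ 2 * Y = Y / 64 := by field_simp; ring
      have a5 := h1.trans (add_le_add ((div_le_div_of_nonneg_right (mul_le_mul_of_nonneg_left
        (pow_le_pow_left₀ (by positivity) (mul_le_mul_of_nonneg_right a1 n1) 3) hS0.le)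
        (sq_nonneg _)).trans a3) a4.le)
      rw [mul_inv t, mul_pow]
      rw [mul_inv t] at a5
      nlinarith [mul_le_mul_of_nonneg_left a5 (zero_le_one.trans C1)]
  have h2 : ∫ x in ball x0 4, max (v x - k) 0 ^ 2 ≤ 0 := by
    have l1 : Tendsto (fun n : ℕ => k ^ 2 * ((2 : ℝ) ^ n)⁻¹ ^ 5) atTop (𝓝 0) := by
      simpa using (((tendsto_pow_atTop_atTop_of_one_lt (one_lt_two (α := ℝ))).inv_tendsto_atTop).pow
        5).const_mul (k ^ 2)
    refine ge_of_tendsto' l1 fun n => le_trans ?_ ((le_mul_of_one_le_left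
      (integral_nonneg fun x => sq_nonneg _) C1).trans (key n))
    refine (setIntegral_mono (iu _ _) (iu _ _) fun x => pow_le_pow_left₀ (le_max_right _ _)
      (max_le_max ?_ le_rfl) 2).trans (setIntegral_mono_set (iu _ _) (.of_forall fun x => sq_nonneg _)
        (ball_subset_ball (le_add_of_nonneg_right (by positivity))).eventuallyLE)
    nlinarith [mul_pos k0 (by positivity : (0 : ℝ) < (2 ^ n)⁻¹)]
  have h3 := (integral_eq_zero_iff_of_nonneg (fun x => sq_nonneg _) (iu k 4)).1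
    (h2.antisymm (integral_nonneg fun x => sq_nonneg _))
  filter_upwards [(ae_restrict_iff' measurableSet_ball).1 h3] with x hx hb
  rw [← hk]
  exact sub_nonpos.1 ((le_max_left _ _).trans_eq (pow_eq_zero_iff two_ne_zero |>.1 (hx hb)))

end Crest.Agent.R335
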