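/-
R335/T/Ker: the explicit mean value kernel (helper15, row 335)
-/
import Crest.Agent.R335.T.Pos
import Crest.Agent.R335.T.Cov

set_option autoImplicit false
set_option linter.unusedSectionVars false
set_option linter.unusedVariables false
set_option linter.unusedSimpArgs false

noncomputable section

namespace Crest.Agent.R335

open MeasureTheory Set Filter Topology Metric
open scoped ENNReal

theorem ker_pow (k : ℕ) (u : ℝ) :
    HasDerivAt (fun u : ℝ => max u 0 ^ (k + 2)) ((k + 2) * max u 0 ^ (k + 1)) u := by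
  refine hasDerivAt_of_hasDerivAt_of_ne' (x := 0) (g := fun u => (k + 2) * max u 0 ^ (k + 1))
    (fun y hy => ?_) (by fun_prop) (by fun_prop) u
  rcases hy.lt_or_gt with h | h
  · simp only [max_eq_right h.le, zero_pow k.succ_ne_zero, mul_zero]
    refine (hasDerivAt_const y (0 : ℝ)).congr_of_eventuallyEq ?_
    filter_upwards [Iio_mem_nhds h] with z hz
    rw [max_eq_right (le_of_lt hz), zero_pow (k + 1).succ_ne_zero]
  · simp only [max_eq_left h.le]
    refine HasDerivAt.congr_of_eventuallyEq (by simpa using hasDerivAt_pow (k + 2) y) ?_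
    filter_upwards [Ioi_mem_nhds h] with z hz
    rw [max_eq_left (le_of_lt hz)]

theorem ker_pow_cd (k : ℕ) : ContDiff ℝ 1 fun u : ℝ => max u 0 ^ (k + 2) :=
  contDiff_one_iff_deriv.2 ⟨fun u => (ker_pow k u).differentiableAt, by
    rw [funext fun u => (ker_pow k u).deriv]
    fun_prop⟩

def kerA (n : ℕ) (t u : ℝ) : ℝ := max (1 - u / t ^ 2) 0 ^ 3 * (t ^ n)⁻¹
def kerA' (n : ℕ) (t u : ℝ) : ℝ := -(3 * max (1 - u / t ^ 2) 0 ^ 2 / t ^ 2) * (t ^ n)⁻¹
def kerB (n : ℕ) (t u : ℝ) : ℝ := t / 8 * max (1 - u / t ^ 2) 0 ^ 4 * (t ^ n)⁻¹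
def kerZ (n : ℕ) (t u : ℝ) : ℝ := -(n * kerA n t u + 2 * u * kerA' n t u) / t

theorem kerA_cd (n : ℕ) (t : ℝ) : ContDiff ℝ 1 (kerA n t) :=
  ((ker_pow_cd 1).comp (contDiff_const.sub (contDiff_id.div_const _))).mul contDiff_const

theorem kerB_cd (n : ℕ) (t : ℝ) : ContDiff ℝ 1 (kerB n t) :=
  (contDiff_const.mul ((ker_pow_cd 2).comp (contDiff_const.sub (contDiff_id.div_const _)))).mul
    contDiff_const

theorem kerA_du (n : ℕ) (t u : ℝ) : HasDerivAt (kerA n t) (kerA' n t u) u := by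
  refine (((ker_pow 1 _).comp u (((hasDerivAt_id u).div_const (t ^ 2)).const_sub 1)).mul_const
    (t ^ n)⁻¹).congr_deriv ?_
  simp only [kerA', id]
  ring

theorem kerB_du (n : ℕ) {t : ℝ} (ht : 0 < t) (u : ℝ) :
    HasDerivAt (kerB n t) (-kerA n t u / (2 * t)) u := by
  refine ((((ker_pow 2 _).comp u (((hasDerivAt_id u).div_const (t ^ 2)).const_sub 1)).const_mul
    (t / 8)).mul_const (t ^ n)⁻¹).congr_deriv ?_
  simp only [kerA, id]
  field_simp
  ring

theorem kerA_dt (n : ℕ) {t : ℝ} (ht : 0 < t) (u : ℝ) :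
    HasDerivAt (fun t => kerA n t u) (kerZ n t u) t := by
  refine (((ker_pow 1 _).comp t (((hasDerivAt_const t u).div (hasDerivAt_pow 2 t)
    (by positivity)).const_sub 1)).mul ((hasDerivAt_pow n t).inv (by positivity))).congr_deriv ?_
  simp only [kerZ, kerA, kerA', Function.comp_apply, Pi.inv_apply, Pi.div_apply]
  rcases n with _ | n
  · field_simp
    ring
  · simp only [Nat.add_sub_cancel]
    field_simp
    ring

theorem ker_max {t u : ℝ} (hu : 0 ≤ u) : 0 ≤ max (1 - u / t ^ 2) 0 ∧ max (1 - u / t ^ 2) 0 ≤ 1 :=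
  ⟨le_max_right _ _, max_le (sub_le_self _ (by positivity)) zero_le_one⟩

theorem ker_zero {t u : ℝ} (ht : 0 < t) (h : t ^ 2 ≤ u) : max (1 - u / t ^ 2) 0 = 0 :=
  max_eq_right (sub_nonpos.2 ((one_le_div (by positivity)).2 h))

theorem kerZ_bd (n : ℕ) {s t u : ℝ} (hs : 0 < s) (hst : s ≤ t) (hu : 0 ≤ u) :
    |kerZ n t u| ≤ (n + 6) * (s ^ n)⁻¹ / s := by
  have ht := hs.trans_le hst
  obtain ⟨h0, h1⟩ := ker_max (t := t) hu
  have h2 : u / t ^ 2 * max (1 - u / t ^ 2) 0 ^ 2 ≤ 1 := by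
    rcases le_total (t ^ 2) u with h | h
    · simp [ker_zero ht h]
    · exact mul_le_one₀ ((div_le_one (by positivity)).2 h) (sq_nonneg _) (pow_le_one₀ h0 h1)
  have e : kerZ n t u = (6 * (u / t ^ 2 * max (1 - u / t ^ 2) 0 ^ 2) -
      n * max (1 - u / t ^ 2) 0 ^ 3) * (t ^ n)⁻¹ / t := by
    simp only [kerZ, kerA, kerA']
    ring
  rw [e, abs_div, abs_mul, abs_of_pos ht, abs_of_pos (inv_pos.2 (pow_pos ht n))]
  have h3 : 0 ≤ u / t ^ 2 * max (1 - u / t ^ 2) 0 ^ 2 := by positivity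
  have h4 := mul_le_mul_of_nonneg_left (pow_le_one₀ (n := 3) h0 h1) (n.cast_nonneg (α := ℝ))
  have h5 : 0 ≤ (n : ℝ) * max (1 - u / t ^ 2) 0 ^ 3 := by positivity
  gcongr
  exact abs_le.2 ⟨by linarith, by linarith⟩

variable {E : Type} [NormedAddCommGroup E] [NormedSpace ℝ E] [FiniteDimensional ℝ E]
  [MeasureSpace E] [BorelSpace E] [(volume : Measure E).IsAddHaarMeasure]
  {ι : Type} [Fintype ι] {b : ι → E}

theorem Frame.finrank (Fr : Frame b) : Module.finrank ℝ E = Fintype.card ι := by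
  classical
  refine Module.finrank_eq_card_basis (Module.Basis.mk (v := b)
    (Fintype.linearIndependent_iff.2 fun g hg j => ?_) fun y _ => ?_)
  · have h := congrArg (Fr.co j) hg
    rw [map_sum, map_zero, Finset.sum_eq_single j (fun i _ hi => by
      rw [map_smul, Fr.dual_ne j i hi.symm, smul_zero]) (by simp), map_smul, Fr.dual_eq] at h
    simpa using h
  · rw [← Fr.span y]
    exact Submodule.sum_mem _ fun i _ => Submodule.smul_mem _ _ (Submodule.subset_span ⟨i, rfl⟩)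

/-- The quadratic form of a frame. -/
def Frame.q (Fr : Frame b) (y : E) : ℝ := ∑ i, Fr.co i y ^ 2

theorem Frame.q_nonneg (Fr : Frame b) (y : E) : 0 ≤ Fr.q y := Finset.sum_nonneg fun _ _ => sq_nonneg _

theorem Frame.q_cd (Fr : Frame b) (x : E) : ContDiff ℝ 1 fun y => Fr.q (y - x) :=
  ContDiff.sum fun i _ => ((Fr.co i).contDiff.comp (contDiff_id.sub contDiff_const)).pow 2

theorem Frame.co_d (Fr : Frame b) (i : ι) (x y : E) :
    HasFDerivAt (fun y => Fr.co i (y - x)) (Fr.co i) y :=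
  (Fr.co i).hasFDerivAt.comp y ((hasFDerivAt_id y).sub_const x)

theorem Frame.q_d (Fr : Frame b) (x y : E) : ∃ L : E →L[ℝ] ℝ,
    HasFDerivAt (fun y => Fr.q (y - x)) L y ∧ ∀ i, L (b i) = 2 * Fr.co i (y - x) := by
  classical
  refine ⟨_, HasFDerivAt.fun_sum fun i _ => (Fr.co_d i x y).pow 2, fun i => ?_⟩
  rw [sum_apply, Finset.sum_eq_single i
    (fun j _ hj => by simp [Fr.dual_ne j i hj]) (by simp)]
  simp [Fr.dual_eq]

theorem Frame.out (Fr : Frame b) {t : ℝ} (ht : 0 < t) {y : E} (h : t ≤ ‖y‖) :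
    max (1 - Fr.q y / t ^ 2) 0 = 0 :=
  ker_zero ht ((pow_le_pow_left₀ ht.le h 2).trans (Fr.norm_le y))

theorem Frame.tst (Fr : Frame b) {Φ : ℝ → ℝ} (hΦ : ContDiff ℝ 1 Φ) {t : ℝ}
    (h0 : ∀ y, t ≤ ‖y‖ → Φ (Fr.q y) = 0) (x : E) : Tst fun y => Φ (Fr.q (y - x)) :=
  ⟨hΦ.comp (Fr.q_cd x), HasCompactSupport.intro (isCompact_closedBall x t) fun y hy =>
    h0 _ (not_le.1 fun h => hy (mem_closedBall_iff_norm.2 h)).le⟩

theorem Frame.tstA (Fr : Frame b) (n : ℕ) {t : ℝ} (ht : 0 < t) (x : E) :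
    Tst fun y => kerA n t (Fr.q (y - x)) :=
  Fr.tst (kerA_cd n t) (t := t) (fun y hy => by simp [kerA, Fr.out ht hy]) x

theorem Frame.tstB (Fr : Frame b) (n : ℕ) {t : ℝ} (ht : 0 < t) (x : E) :
    Tst fun y => kerB n t (Fr.q (y - x)) :=
  Fr.tst (kerB_cd n t) (t := t) (fun y hy => by simp [kerB, Fr.out ht hy]) x

theorem Frame.dir_eq (Fr : Frame b) {f : E → ℝ} (hf : HL b f) (x : E) {t : ℝ} (ht : 0 < t) :
    (dir b f fun y => kerB (Fintype.card ι) t (Fr.q (y - x))) =
      -∫ y, f y * kerZ (Fintype.card ι) t (Fr.q (y - x)) := by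
  generalize hn : Fintype.card ι = n
  have hG : ∀ i, Tst fun y => Fr.co i (y - x) * kerA n t (Fr.q (y - x)) := fun i =>
    ⟨((Fr.co i).contDiff.comp (contDiff_id.sub contDiff_const)).mul (Fr.tstA n ht x).1,
      (Fr.tstA n ht x).2.mul_left⟩
  have d1 : ∀ i y, fderiv ℝ (fun y => kerB n t (Fr.q (y - x))) y (b i) =
      -t⁻¹ * (Fr.co i (y - x) * kerA n t (Fr.q (y - x))) := fun i y => by
    obtain ⟨L, h1, h2⟩ := Fr.q_d x y
    have h3 : HasFDerivAt (fun y => kerB n t (Fr.q (y - x))) _ y :=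
      (kerB_du n ht _).comp_hasFDerivAt y h1
    rw [h3.fderiv, smul_apply, h2, smul_eq_mul]
    field_simp
  have d2 : ∀ i y, fderiv ℝ (fun y => Fr.co i (y - x) * kerA n t (Fr.q (y - x))) y (b i) =
      kerA n t (Fr.q (y - x)) + 2 * Fr.co i (y - x) ^ 2 * kerA' n t (Fr.q (y - x)) := fun i y => by
    obtain ⟨L, h1, h2⟩ := Fr.q_d x y
    have h3 : HasFDerivAt (fun y => Fr.co i (y - x) * kerA n t (Fr.q (y - x))) _ y :=
      (Fr.co_d i x y).mul ((kerA_du n t _).comp_hasFDerivAt y h1)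
    rw [h3.fderiv]
    simp only [add_apply, smul_apply, h2, smul_eq_mul, Fr.dual_eq, Function.comp_apply]
    ring
  have e1 : (dir b f fun y => kerB n t (Fr.q (y - x))) =
      ∫ y, -t⁻¹ * ∑ i, wd (b i) f y * (Fr.co i (y - x) * kerA n t (Fr.q (y - x))) := by
    refine integral_congr_ae ?_
    filter_upwards [ae_all_iff.2 fun i => wd_contDiff (Fr.tstB n ht x).1 (b i)] with y hy
    simp only [dot, hy, d1, Finset.mul_sum]
    exact Finset.sum_congr rfl fun i _ => by ring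
  have e2 : ∀ i, ∫ y, wd (b i) f y * (Fr.co i (y - x) * kerA n t (Fr.q (y - x))) =
      -∫ y, f y * fderiv ℝ (fun y => Fr.co i (y - x) * kerA n t (Fr.q (y - x))) y (b i) := fun i => by
    rw [(hf.2 i).1.2.2 _ (hG i), neg_neg]
  rw [e1, integral_const_mul, integral_finsetSum _ fun i _ => (hf.2 i).1.intR (hG i)]
  simp only [e2]
  rw [Finset.sum_neg_distrib, ← integral_finsetSum _ fun i _ => (hf.2 i).1.intL (hG i), ← integral_neg,
    ← integral_const_mul, ← integral_neg]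
  refine integral_congr_ae (.of_forall fun y => ?_)
  simp only [d2, ← Finset.mul_sum, Finset.sum_add_distrib, Finset.sum_const, Finset.card_univ, hn,
    ← Finset.sum_mul, kerZ, nsmul_eq_mul]
  rw [← Frame.q]
  field_simp

theorem Frame.flow (Fr : Frame b) (n : ℕ) {f : E → ℝ} (hf : LocallyIntegrable f volume) (x : E)
    {s t : ℝ} (hs : 0 < s) (hst : s ≤ t) :
    IntervalIntegrable (fun τ => ∫ y, f y * kerZ n τ (Fr.q (y - x))) volume s t ∧
    (∫ y, f y * kerA n t (Fr.q (y - x))) - ∫ y, f y * kerA n s (Fr.q (y - x)) =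
      ∫ τ in s..t, ∫ y, f y * kerZ n τ (Fr.q (y - x)) := by
  have hq : Measurable Fr.q := by simpa using (Fr.q_cd 0).continuous.measurable
  have hi : Integrable (Function.uncurry fun τ y => f y * kerZ n τ (Fr.q (y - x)))
      ((volume.restrict (uIoc s t)).prod volume) := by
    have : IsFiniteMeasure (volume.restrict (uIoc s t)) :=
      isFiniteMeasure_restrict.2 (by rw [uIoc_of_le hst]; exact measure_Ioc_lt_top.ne)
    have i1 : Integrable ((closedBall x t).indicator fun y => |f y| * ((n + 6) * (s ^ n)⁻¹ / s)) :=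
      (integrable_indicator_iff measurableSet_closedBall).2
        ((hf.integrableOn_isCompact (isCompact_closedBall x t)).abs.mul_const _)
    refine (i1.comp_snd _).mono' (hf.aestronglyMeasurable.comp_snd.mul
      (Measurable.aestronglyMeasurable (by unfold kerZ kerA kerA'; fun_prop))) ?_
    filter_upwards [Measure.quasiMeasurePreserving_fst.ae (ae_restrict_mem measurableSet_uIoc)]
      with p hp
    rw [uIoc_of_le hst] at hp
    by_cases hy : p.2 ∈ closedBall x t
    · rw [indicator_of_mem hy, Function.uncurry, norm_mul]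
      exact mul_le_mul_of_nonneg_left (kerZ_bd n hs hp.1.le (Fr.q_nonneg _)) (abs_nonneg _)
    · have := Fr.out (hs.trans hp.1) (hp.2.trans (not_le.1 fun h => hy (mem_closedBall_iff_norm.2 h)).le)
      simp [indicator_of_notMem hy, Function.uncurry, kerZ, kerA, kerA', this]
  refine ⟨intervalIntegrable_iff.2 hi.integral_prod_left, ?_⟩
  rw [intervalIntegral_integral_swap hi, ← integral_sub
    (wd_int_mul hf (Fr.tstA n (hs.trans_le hst) x).cont (Fr.tstA n (hs.trans_le hst) x).2)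
    (wd_int_mul hf (Fr.tstA n hs x).cont (Fr.tstA n hs x).2)]
  refine integral_congr_ae (.of_forall fun y => ?_)
  have hpos : ∀ τ ∈ uIcc s t, 0 < τ := fun τ hτ => by
    rw [uIcc_of_le hst] at hτ
    exact hs.trans_le hτ.1
  simp only [intervalIntegral.integral_const_mul]
  rw [intervalIntegral.integral_eq_sub_of_hasDerivAt (fun τ hτ => kerA_dt n (hpos τ hτ) _), mul_sub]
  refine ContinuousOn.intervalIntegrable fun τ hτ => ContinuousAt.continuousWithinAt ?_
  have := (hpos τ hτ).ne'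
  unfold kerZ kerA kerA'
  fun_prop (disch := positivity)

theorem ker_exists (Fr : Frame b) : ∃ (η ξ : ℝ → E → ℝ) (c0 c1 : ℝ), 0 < c0 ∧ 0 < c1 ∧
    (∀ t, 0 < t → Tst (η t) ∧ Tst (ξ t)) ∧ (Measurable fun p : ℝ × E => ξ p.1 p.2) ∧
    (∀ t y, η t (-y) = η t y ∧ ξ t (-y) = ξ t y) ∧
    (∀ t y, 0 < t → 0 ≤ ξ t y ∧ ξ t y ≤ t * η t y ∧ η t y ≤ (t ^ Fintype.card ι)⁻¹) ∧
    (∀ t y, 0 < t → t ≤ ‖y‖ → η t y = 0) ∧
    (∀ t y, 0 < t → ‖y‖ ≤ t / 2 → c1 * (t ^ Fintype.card ι)⁻¹ ≤ η t y) ∧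
    (∀ f, HL b f → ∀ (x : E) (s t : ℝ), 0 < s → s ≤ t →
      IntervalIntegrable (fun τ => dir b f fun y => ξ τ (y - x)) volume s t ∧
      (∫ y, f y * η t (y - x)) - ∫ y, f y * η s (y - x) =
        -∫ τ in s..t, dir b f fun y => ξ τ (y - x)) ∧
    ∀ f, LocL2 f → ∃ t : ℕ → ℝ, (∀ n, 0 < t n) ∧ Tendsto t atTop (𝓝 0) ∧
      ∀ᵐ x : E, Tendsto (fun n => ∫ y, f y * η (t n) (y - x)) atTop (𝓝 (c0 * f x)) := by
  have h7 : ∀ f, HL b f → ∀ (x : E) (s t : ℝ), 0 < s → s ≤ t → IntervalIntegrable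
      (fun τ => dir b f fun y => kerB (Fintype.card ι) τ (Fr.q (y - x))) volume s t ∧
      (∫ y, f y * kerA (Fintype.card ι) t (Fr.q (y - x))) -
        ∫ y, f y * kerA (Fintype.card ι) s (Fr.q (y - x)) =
        -∫ τ in s..t, dir b f fun y => kerB (Fintype.card ι) τ (Fr.q (y - x)) := by
    intro f hf x s t hs hst
    have hl : LocallyIntegrable f volume := hf.1.locallyIntegrable
    obtain ⟨h1, h2⟩ := Fr.flow (Fintype.card ι) hl x hs hst
    have e : EqOn (fun τ => -∫ y, f y * kerZ (Fintype.card ι) τ (Fr.q (y - x)))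
        (fun τ => dir b f fun y => kerB (Fintype.card ι) τ (Fr.q (y - x))) (uIcc s t) := fun τ hτ => by
      rw [uIcc_of_le hst] at hτ
      exact (Fr.dir_eq hf x (hs.trans_le hτ.1)).symm
    refine ⟨h1.neg.congr fun τ hτ => e (uIoc_subset_uIcc hτ), ?_⟩
    rw [← intervalIntegral.integral_congr e, intervalIntegral.integral_neg, neg_neg, h2]
  have hA : ∀ t y, 0 < t → 0 ≤ kerA (Fintype.card ι) t (Fr.q y) ∧
      kerA (Fintype.card ι) t (Fr.q y) ≤ (t ^ Fintype.card ι)⁻¹ := fun t y ht => by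
    obtain ⟨h0, h1⟩ := ker_max (t := t) (Fr.q_nonneg y)
    exact ⟨mul_nonneg (pow_nonneg h0 3) (by positivity),
      mul_le_of_le_one_left (by positivity) (pow_le_one₀ h0 h1)⟩
  have hq : Measurable Fr.q := by simpa using (Fr.q_cd 0).continuous.measurable
  have hc : ∀ (x : E) (t : ℝ), 0 < t → t ≤ 1 → ∫ y, kerA (Fintype.card ι) t (Fr.q (y - x)) =
      ∫ y, kerA (Fintype.card ι) 1 (Fr.q y) := fun x t ht h1 => by
    have h2 := (h7 _ (LH.const 1).1 x t 1 ht h1).2
    have h3 : ∀ g : E → ℝ, dir b (fun _ => (1 : ℝ)) g = 0 := fun g => integral_eq_zero_of_ae <|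
      (ae_all_iff.2 fun i => wd_const (b i) 1).mono fun y hy => by simp [dot, hy]
    simp only [h3, one_mul, intervalIntegral.integral_zero, neg_zero, sub_eq_zero] at h2
    rw [← h2, integral_sub_right_eq_self (fun y => kerA (Fintype.card ι) 1 (Fr.q y)) x]
  refine ⟨fun t y => kerA (Fintype.card ι) t (Fr.q y), fun t y => kerB (Fintype.card ι) t (Fr.q y),
    ∫ y, kerA (Fintype.card ι) 1 (Fr.q y), 1 / 64, ?_, by norm_num,
    fun t ht => ⟨by simpa using Fr.tstA _ ht 0, by simpa using Fr.tstB _ ht 0⟩,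
    by unfold kerB; fun_prop, fun t y => by simp [Frame.q], fun t y ht => ⟨?_, ?_, (hA t y ht).2⟩,
    fun t y ht h => by simp [kerA, Fr.out ht h], fun t y ht h => ?_, h7, fun f hf => ?_⟩
  · have h1 : Tst fun y => kerA (Fintype.card ι) 1 (Fr.q y) := by simpa using Fr.tstA _ one_pos 0
    exact h1.cont.integral_pos_of_hasCompactSupport_nonneg_nonzero (x := 0) h1.2
      (fun y => (hA 1 y one_pos).1) (by simp [kerA, Frame.q])
  · unfold kerB
    positivity
  · obtain ⟨h0, h1⟩ := ker_max (t := t) (Fr.q_nonneg y)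
    simp only [kerA, kerB, ← mul_assoc]
    refine mul_le_mul_of_nonneg_right (mul_le_mul (by linarith) (pow_le_pow_of_le_one h0 h1
      (by norm_num)) (by positivity) ht.le) (by positivity)
  · refine mul_le_mul_of_nonneg_right ?_ (by positivity)
    have h1 : Fr.q y / t ^ 2 ≤ 3 / 4 := by
      rw [div_le_iff₀ (by positivity)]
      have h2 : Fr.q y ≤ 3 * ‖y‖ ^ 2 := Fr.le_norm y
      nlinarith [pow_le_pow_left₀ (norm_nonneg y) h 2]
    exact le_trans (by norm_num) (pow_le_pow_left₀ (by norm_num : (0 : ℝ) ≤ 1 / 4)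
      (le_max_of_le_left (by linarith)) 3)
  · have hl := hf.locallyIntegrable
    refine ⟨fun n => 1 / (n + 1), pos_eps_pos, pos_eps, ?_⟩
    filter_upwards [IsUnifLocDoublingMeasure.ae_tendsto_average_norm_sub volume hl 1] with x hx
    have h1 := (hx (fun _ : ℕ => x) (fun n => 1 / (n + 1))
      (tendsto_nhdsWithin_iff.2 ⟨pos_eps, .of_forall pos_eps_pos⟩)
      (.of_forall fun n => mem_closedBall_self (by positivity))).const_mul (volume.real (ball (0 : E) 1))
    rw [mul_zero] at h1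
    rw [tendsto_iff_norm_sub_tendsto_zero]
    refine squeeze_zero (fun n => norm_nonneg _) (fun n => ?_) h1
    have ht := pos_eps_pos n
    have h2 := hc x _ ht (pos_eps_le n)
    generalize (1 / (n + 1) : ℝ) = t at *
    have hT := Fr.tstA (Fintype.card ι) ht x
    have hv : 0 < volume.real (ball (0 : E) 1) :=
      ENNReal.toReal_pos (measure_ball_pos _ _ one_pos).ne' measure_ball_lt_top.ne
    have i1 : IntegrableOn (fun y => ‖f y - f x‖) (closedBall x t) :=
      ((hl.sub (locallyIntegrable_const (f x))).integrableOn_isCompact (isCompact_closedBall x t)).norm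
    rw [← h2, mul_comm, ← integral_const_mul, ← integral_sub (wd_int_mul hl hT.cont hT.2)
      (wd_int_mul (locallyIntegrable_const (f x)) hT.cont hT.2), setAverage_eq,
      Measure.addHaar_real_closedBall _ _ ht.le, Fr.finrank, smul_eq_mul, ← mul_assoc, mul_inv,
      mul_left_comm, mul_inv_cancel₀ hv.ne', mul_one, ← integral_const_mul,
      ← integral_indicator measurableSet_closedBall]
    refine norm_integral_le_of_norm_le ((integrable_indicator_iff measurableSet_closedBall).2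
      (i1.const_mul _)) (.of_forall fun y => ?_)
    by_cases hy : y ∈ closedBall x t
    · rw [indicator_of_mem hy, ← sub_mul, norm_mul, mul_comm, Real.norm_of_nonneg (hA _ _ ht).1]
      exact mul_le_mul_of_nonneg_right (hA _ _ ht).2 (norm_nonneg _)
    · simp [indicator_of_notMem hy, kerA,
        Fr.out ht (not_le.1 fun h => hy (mem_closedBall_iff_norm.2 h)).le]

/-- Gronwall's lemma in integral form. -/
theorem ker_gron {m g : ℝ → ℝ} {a c K : ℝ} (hac : a ≤ c) (hK : 0 ≤ K)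
    (hg : IntervalIntegrable g volume a c) (h1 : ∀ t ∈ Icc a c, m t - m a = ∫ τ in a..t, g τ)
    (h2 : ∀ t ∈ Icc a c, g t ≤ K * m t) (h0 : 0 ≤ m a) : m c ≤ 2 * Real.exp (2 * K * (c - a)) * m a := by
  have hc : ContinuousOn (fun t => Real.exp (-(2 * K * (t - a))) * m t) (Icc a c) := by
    refine ContinuousOn.mul (by fun_prop) (ContinuousOn.congr (f := fun t => m a + ∫ τ in a..t, g τ)
      (continuousOn_const.add ?_) fun t ht => by simp only [← h1 t ht, add_sub_cancel])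
    simpa only [uIcc_of_le hac] using
      intervalIntegral.continuousOn_primitive_interval' hg left_mem_uIcc
  obtain ⟨t0, ht0, h3⟩ := isCompact_Icc.exists_isMaxOn (nonempty_Icc.2 hac) hc
  obtain ⟨S, hS⟩ : ∃ S, S = Real.exp (-(2 * K * (t0 - a))) * m t0 := ⟨_, rfl⟩
  have h4 : ∀ t ∈ Icc a c, m t ≤ S * Real.exp (2 * K * (t - a)) := fun t ht => by
    have h5 : Real.exp (-(2 * K * (t - a))) * m t ≤ S := hS ▸ h3 ht
    rwa [Real.exp_neg, inv_mul_le_iff₀' (Real.exp_pos _)] at h5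
  have hS0 : 0 ≤ S := by simpa using h0.trans (h4 a (left_mem_Icc.2 hac))
  have h5 : ∫ τ in a..t0, g τ ≤ ∫ τ in a..t0, K * (S * Real.exp (2 * K * (τ - a))) :=
    intervalIntegral.integral_mono_on ht0.1 (hg.mono_set (by
      rw [uIcc_of_le hac, uIcc_of_le ht0.1]
      exact Icc_subset_Icc_right ht0.2)) (Continuous.intervalIntegrable (by fun_prop) _ _) fun τ hτ =>
        (h2 τ ⟨hτ.1, hτ.2.trans ht0.2⟩).trans
          (mul_le_mul_of_nonneg_left (h4 τ ⟨hτ.1, hτ.2.trans ht0.2⟩) hK)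
  rw [← h1 t0 ht0,
    intervalIntegral.integral_eq_sub_of_hasDerivAt (f := fun τ => S / 2 * Real.exp (2 * K * (τ - a)))
    (fun τ _ => ((((hasDerivAt_id τ).sub_const a).const_mul (2 * K)).exp.const_mul (S / 2)).congr_deriv
      (by simp only [id]; ring)) (Continuous.intervalIntegrable (by fun_prop) _ _)] at h5
  have h6 : 1 ≤ Real.exp (2 * K * (t0 - a)) :=
    Real.one_le_exp (mul_nonneg (by positivity) (sub_nonneg.2 ht0.1))
  have h7 : m t0 = S * Real.exp (2 * K * (t0 - a)) := by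
    rw [hS, Real.exp_neg]
    field_simp
  simp only [sub_self, mul_zero, Real.exp_zero] at h5
  have h8 : S ≤ 2 * m a := by nlinarith [mul_le_mul_of_nonneg_left h6 hS0]
  refine (h4 c (right_mem_Icc.2 hac)).trans ?_
  nlinarith [mul_le_mul_of_nonneg_right h8 (Real.exp_pos (2 * K * (c - a))).le]

theorem ker_gron' {m g : ℝ → ℝ} {a c K : ℝ} (hac : a ≤ c) (hK : 0 ≤ K)
    (hg : IntervalIntegrable g volume a c) (h1 : ∀ t ∈ Icc a c, m t - m c = ∫ τ in t..c, g τ)
    (h2 : ∀ t ∈ Icc a c, g t ≤ K * m t) (h0 : 0 ≤ m c) : m a ≤ 2 * Real.exp (2 * K * (c - a)) * m c := by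
  have h := ker_gron (m := fun t => m (-t)) (g := fun t => g (-t)) (a := -c) (c := -a) (neg_le_neg hac) hK
    ((IntervalIntegrable.iff_comp_neg (f := g)).1 hg.symm)
    (fun t ht => by
      rw [intervalIntegral.integral_comp_neg, neg_neg]
      exact h1 _ ⟨by linarith [ht.2], by linarith [ht.1]⟩)
    (fun t ht => h2 _ ⟨by linarith [ht.2], by linarith [ht.1]⟩) (by simpa using h0)
  simpa only [neg_neg, neg_sub_neg] using h

end Crest.Agent.R335
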