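/-
R335/T/MV: mean value inequalities
Skeleton by helper48 (row 335); keep the statements unchanged, add any helper lemmas you like.
-/
import Crest.Agent.R335.T.Pos
import Crest.Agent.R335.T.Cov
import Crest.Agent.R335.T.Ker

set_option autoImplicit false
set_option linter.unusedSectionVars false
set_option linter.unusedVariables false
set_option linter.unusedSimpArgs false

noncomputable section

namespace Crest.Agent.R335

open MeasureTheory Set Filter Topology Metric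
open scoped ENNReal

variable {E : Type} [NormedAddCommGroup E] [NormedSpace ℝ E] [FiniteDimensional ℝ E]
  [MeasureSpace E] [BorelSpace E] [(volume : Measure E).IsAddHaarMeasure]
  {ι : Type} [Fintype ι] {b : ι → E}

/-- The kernel identity.  With `q y = ∑ (co i y)²`, `n = card ι`, put
`η t y = (1 - q y / t²)₊³ / t^n` and `ξ t y = t (1 - q y / t²)₊⁴ / (8 t^n)`.  Then
`∂_i ξ t = -(co i y / t) η t` and `∂_t η t = ∑ ∂_i ∂_i ξ t`, so
`∂_t ∫ f(x + y) η t y dy = -dir f (ξ t (· - x))` for `f ∈ HL`.  Moreover `∫ η t = c0` and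
`∫ f(x + y) η (t n) y dy → c0 f x` for a.e. `x` along a sequence `t n → 0` (`L²` or `L¹`
convergence of the averages of a cut-off of `f`, or Lebesgue differentiation). -/
theorem exists_kernel (Fr : Frame b) : ∃ (η ξ : ℝ → E → ℝ) (c0 c1 : ℝ), 0 < c0 ∧ 0 < c1 ∧
    (∀ t, 0 < t → Tst (η t) ∧ Tst (ξ t)) ∧ (Measurable fun p : ℝ × E => ξ p.1 p.2) ∧
    (∀ t y, η t (-y) = η t y ∧ ξ t (-y) = ξ t y) ∧
    (∀ t y, 0 < t → 0 ≤ ξ t y ∧ ξ t y ≤ t * η t y ∧ η t y ≤ (t ^ Fintype.card ι)⁻¹) ∧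
    (∀ t y, 0 < t → t ≤ ‖y‖ → η t y = 0) ∧
    (∀ t y, 0 < t → ‖y‖ ≤ t / 2 → c1 * (t ^ Fintype.card ι)⁻¹ ≤ η t y) ∧
    (∀ f, HL b f → ∀ (x : E) (s t : ℝ), 0 < s → s ≤ t →
      IntervalIntegrable (fun τ => dir b f fun y => ξ τ (y - x)) volume s t ∧
      (∫ y, f y * η t (y - x)) - ∫ y, f y * η s (y - x) =
        -∫ τ in s..t, dir b f fun y => ξ τ (y - x)) ∧
    ∀ f, LocL2 f → ∃ t : ℕ → ℝ, (∀ n, 0 < t n) ∧ Tendsto t atTop (𝓝 0) ∧
      ∀ᵐ x : E, Tendsto (fun n => ∫ y, f y * η (t n) (y - x)) atTop (𝓝 (c0 * f x)) := by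
  exact ker_exists Fr

theorem mv_tst {φ : E → ℝ} (h : Tst φ) (x : E) : Tst fun y => φ (y - x) :=
  ⟨h.1.comp (contDiff_id.sub contDiff_const), h.2.comp_homeomorph (Homeomorph.subRight x)⟩

/-- The averages of a non-negative function against the kernel. -/
theorem mv_core : ∃ (c0 c1 : ℝ), 0 < c0 ∧ 0 < c1 ∧ ∀ (f : X → ℝ) (x0 : X) (r ϱ : ℝ), 0 < ϱ →
    HL eX f → (∀ᵐ x : X, x ∈ ball x0 (r + ϱ) → 0 ≤ f x) → ∀ᵐ x : X, x ∈ ball x0 r →
    ∃ (m g : ℝ → ℝ) (t : ℕ → ℝ), (∀ n, 0 < t n ∧ t n ≤ ϱ) ∧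
      Tendsto (fun n => m (t n)) atTop (𝓝 (c0 * f x)) ∧
      (∀ s t, 0 < s → s ≤ t → IntervalIntegrable g volume s t ∧ m t - m s = -∫ τ in s..t, g τ) ∧
      (∀ τ, 0 < τ → τ ≤ ϱ → 0 ≤ m τ ∧ ∃ φ : X → ℝ, LT eX φ ∧ (∀ y, 0 ≤ φ y) ∧
        (∀ y, y ∉ ball x0 (r + ϱ) → φ y = 0) ∧ g τ = dir eX f φ ∧ 0 ≤ ∫ y, f y * φ y ∧
          ∫ y, f y * φ y ≤ ϱ * m τ) ∧
      m ϱ ≤ 1 / ϱ ^ 3 * ∫ y in ball x ϱ, f y ∧ c1 / ϱ ^ 3 * ∫ y in ball x (ϱ / 2), f y ≤ m ϱ := by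
  obtain ⟨η, ξ, c0, c1, hc0, hc1, h1, -, -, h4, h5, h6, h7, h8⟩ := exists_kernel frameX
  simp only [Fintype.card_fin] at h4 h6
  refine ⟨c0, c1, hc0, hc1, fun f x0 r ϱ hϱ hf h0 => ?_⟩
  obtain ⟨t, t0, t1, t2⟩ := h8 f hf.1
  obtain ⟨N, hN⟩ := eventually_atTop.1 (t1.eventually (ge_mem_nhds hϱ))
  have hl := hf.1.locallyIntegrable
  filter_upwards [t2] with x hx hr
  have hb : ball x ϱ ⊆ ball x0 (r + ϱ) := ball_subset_ball' (by linarith [mem_ball.1 hr])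
  have hη : ∀ τ y, 0 < τ → 0 ≤ η τ y := fun τ y hτ =>
    nonneg_of_mul_nonneg_right ((h4 τ y hτ).1.trans (h4 τ y hτ).2.1) hτ |> fun h => h
  have hz : ∀ τ y, 0 < τ → τ ≤ ϱ → y ∉ ball x ϱ → η τ (y - x) = 0 := fun τ y h2 h3 hy =>
    h5 τ _ h2 (h3.trans (not_lt.1 fun h => hy (mem_ball_iff_norm.2 h)))
  have hp : ∀ τ, 0 < τ → τ ≤ ϱ → ∀ᵐ y : X, 0 ≤ f y ∨ η τ (y - x) = 0 := fun τ h2 h3 =>
    h0.mono fun y hy => (em (y ∈ ball x ϱ)).imp (fun h => hy (hb h)) (hz τ y h2 h3)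
  have i1 : ∀ τ, 0 < τ → Integrable fun y => f y * η τ (y - x) := fun τ hτ =>
    wd_int_mul hl (mv_tst (h1 τ hτ).1 x).cont (mv_tst (h1 τ hτ).1 x).2
  have i2 : ∀ ρ, IntegrableOn f (ball x ρ) := fun ρ =>
    (hl.integrableOn_isCompact (isCompact_closedBall x ρ)).mono_set ball_subset_closedBall
  refine ⟨fun τ => ∫ y, f y * η τ (y - x), fun τ => dir eX f fun y => ξ τ (y - x), fun n => t (n + N),
    fun n => ⟨t0 _, hN _ (Nat.le_add_left _ _)⟩, hx.comp (tendsto_add_atTop_nat N), h7 f hf x,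
    fun τ h2 h3 => ⟨integral_nonneg_of_ae ((hp τ h2 h3).mono fun y hy => ?_), _,
      .of_tst (mv_tst (h1 τ h2).2 x), fun y => (h4 τ _ h2).1, fun y hy => ?_, rfl,
      integral_nonneg_of_ae ((hp τ h2 h3).mono fun y hy => ?_), ?_⟩, ?_, ?_⟩
  · exact hy.elim (fun h => mul_nonneg h (hη τ _ h2)) fun h => by simp [h]
  · exact le_antisymm (by simpa [hz τ y h2 h3 fun h => hy (hb h)] using (h4 τ (y - x) h2).2.1)
      (h4 τ _ h2).1
  · refine hy.elim (fun h => mul_nonneg h (h4 τ _ h2).1) fun h => ?_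
    have : ξ τ (y - x) = 0 := le_antisymm (by simpa [h] using (h4 τ (y - x) h2).2.1) (h4 τ _ h2).1
    simp [this]
  · rw [← integral_const_mul]
    refine integral_mono_ae (wd_int_mul hl (mv_tst (h1 τ h2).2 x).cont (mv_tst (h1 τ h2).2 x).2)
      ((i1 τ h2).const_mul _) ((hp τ h2 h3).mono fun y hy => hy.elim (fun h => ?_) fun h => ?_)
    · have := mul_le_mul_of_nonneg_left ((h4 τ (y - x) h2).2.1.trans
        (mul_le_mul_of_nonneg_right h3 (hη τ _ h2))) h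
      linarith
    · have : ξ τ (y - x) = 0 := le_antisymm (by simpa [h] using (h4 τ (y - x) h2).2.1) (h4 τ _ h2).1
      simp [this, h]
  · rw [← integral_const_mul, ← integral_indicator measurableSet_ball]
    refine integral_mono_ae (i1 ϱ hϱ) ((integrable_indicator_iff measurableSet_ball).2
      ((i2 ϱ).const_mul _)) (h0.mono fun y hy => ?_)
    by_cases h : y ∈ ball x ϱ
    · simp only [indicator_of_mem h, one_div, mul_comm (f y)]
      exact mul_le_mul_of_nonneg_right (h4 ϱ _ hϱ).2.2 (hy (hb h))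
    · simp [indicator_of_notMem h, hz ϱ y hϱ le_rfl h]
  · rw [← integral_const_mul, ← integral_indicator measurableSet_ball]
    refine integral_mono_ae ((integrable_indicator_iff measurableSet_ball).2
      ((i2 _).const_mul _)) (i1 ϱ hϱ) ?_
    filter_upwards [h0, hp ϱ hϱ le_rfl] with y a1 a2
    by_cases h : y ∈ ball x (ϱ / 2)
    · simp only [indicator_of_mem h, div_eq_mul_inv c1, mul_comm (f y)]
      exact mul_le_mul_of_nonneg_right (h6 ϱ _ hϱ (mem_ball_iff_norm.1 h).le)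
        (a1 (hb (ball_subset_ball (by linarith) h)))
    · rw [indicator_of_notMem h]
      exact a2.elim (fun h => mul_nonneg h (hη ϱ _ hϱ)) fun h => by simp [h]

theorem mv_exp {k ϱ ϱm s : ℝ} (h0 : 0 < ϱ) (h : ϱ ≤ ϱm) (hs : 0 < s ∧ s ≤ ϱ) :
    2 * Real.exp (2 * (|k| * ϱ) * (ϱ - s)) ≤ 2 * Real.exp (2 * (|k| * ϱm) * ϱm) := by
  have := abs_nonneg k
  have := h0.trans_le h
  gcongr <;> linarith [hs.1, hs.2]

/-- Subsolutions of `Δ + k`: Gronwall for `m t = ∫ f η t (· - x)`, `m' ≥ -k t m`. -/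
theorem mv_sub (k ϱm : ℝ) : ∃ C : ℝ, 0 < C ∧ ∀ (f : X → ℝ) (x0 : X) (r ϱ : ℝ), 0 < ϱ → ϱ ≤ ϱm →
    HL eX f → (∀ᵐ x : X, x ∈ ball x0 (r + ϱ) → 0 ≤ f x) →
    Sub eX (ball x0 (r + ϱ)) f (fun _ => -k) 0 →
    ∀ᵐ x : X, x ∈ ball x0 r → f x ≤ C / ϱ ^ 3 * ∫ y in ball x ϱ, f y := by
  obtain ⟨c0, c1, hc0, hc1, H⟩ := mv_core
  refine ⟨2 * Real.exp (2 * (|k| * ϱm) * ϱm) / c0, by positivity, fun f x0 r ϱ hϱ hm hf h0 hs => ?_⟩
  filter_upwards [H f x0 r ϱ hϱ hf h0] with x hx hr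
  obtain ⟨m, g, t, h1, h2, h3, h4, h5, -⟩ := hx hr
  have h6 : c0 * f x ≤ 2 * Real.exp (2 * (|k| * ϱm) * ϱm) * m ϱ := le_of_tendsto' h2 fun n => by
    refine (ker_gron' (g := g) (K := |k| * ϱ) (h1 n).2 (by positivity) (h3 _ _ (h1 n).1 (h1 n).2).1
      (fun τ hτ => by linarith [(h3 τ ϱ ((h1 n).1.trans_le hτ.1) hτ.2).2]) (fun τ hτ => ?_)
      (h4 ϱ hϱ le_rfl).1).trans (mul_le_mul_of_nonneg_right (mv_exp hϱ hm (h1 n)) (h4 ϱ hϱ le_rfl).1)
    obtain ⟨-, φ, a1, a2, a3, a4, a5, a6⟩ := h4 τ ((h1 n).1.trans_le hτ.1) hτ.2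
    have a7 := hs φ a1 (.of_forall a2) (.of_forall a3)
    simp only [mul_assoc, integral_const_mul, Pi.zero_apply, zero_mul, integral_zero] at a7
    nlinarith [mul_le_mul_of_nonneg_left a6 (abs_nonneg k),
      mul_le_mul_of_nonneg_right (le_abs_self k) a5]
  rw [← le_div_iff₀' hc0] at h6
  refine h6.trans ((div_le_div_of_nonneg_right (mul_le_mul_of_nonneg_left h5 (by positivity))
    hc0.le).trans_eq ?_)
  ring

/-- Supersolutions of `Δ - k`. -/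
theorem mv_super (k ϱm : ℝ) : ∃ c : ℝ, 0 < c ∧ ∀ (f : X → ℝ) (x0 : X) (r ϱ : ℝ), 0 < ϱ → ϱ ≤ ϱm →
    HL eX f → (∀ᵐ x : X, x ∈ ball x0 (r + ϱ) → 0 ≤ f x) →
    Sub eX (ball x0 (r + ϱ)) (fun x => -f x) (fun _ => k) 0 →
    ∀ᵐ x : X, x ∈ ball x0 r → c / ϱ ^ 3 * ∫ y in ball x (ϱ / 2), f y ≤ f x := by
  obtain ⟨c0, c1, hc0, hc1, H⟩ := mv_core
  refine ⟨c1 / (2 * Real.exp (2 * (|k| * ϱm) * ϱm) * c0), by positivity,
    fun f x0 r ϱ hϱ hm hf h0 hs => ?_⟩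
  filter_upwards [H f x0 r ϱ hϱ hf h0] with x hx hr
  obtain ⟨m, g, t, h1, h2, h3, h4, -, h5⟩ := hx hr
  have h6 : m ϱ ≤ 2 * Real.exp (2 * (|k| * ϱm) * ϱm) * (c0 * f x) :=
    ge_of_tendsto' (h2.const_mul _) fun n => by
      refine (ker_gron (g := fun τ => -g τ) (K := |k| * ϱ) (h1 n).2 (by positivity)
        (h3 _ _ (h1 n).1 (h1 n).2).1.neg
        (fun τ hτ => by rw [intervalIntegral.integral_neg, (h3 _ τ (h1 n).1 hτ.1).2]) (fun τ hτ => ?_)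
        (h4 _ (h1 n).1 (h1 n).2).1).trans
        (mul_le_mul_of_nonneg_right (mv_exp hϱ hm (h1 n)) (h4 _ (h1 n).1 (h1 n).2).1)
      obtain ⟨-, φ, a1, a2, a3, a4, a5, a6⟩ := h4 τ ((h1 n).1.trans_le hτ.1) hτ.2
      have a7 := hs φ a1 (.of_forall a2) (.of_forall a3)
      have a8 := hf.dir_const_mul_left (-1) φ
      simp only [neg_mul, one_mul] at a8
      simp only [a8, mul_neg, neg_mul, mul_assoc, integral_neg, integral_const_mul, Pi.zero_apply,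
        zero_mul, integral_zero] at a7
      nlinarith [mul_le_mul_of_nonneg_left a6 (abs_nonneg k),
        mul_le_mul_of_nonneg_right (le_abs_self k) a5]
  have h7 := h5.trans h6
  rw [← mul_assoc, ← div_le_iff₀' (by positivity)] at h7
  refine le_of_eq_of_le ?_ h7
  ring

/-- Harnack: `mv_sub` with radius `r`, `mv_super` with radius `6 r`. -/
theorem harnack (k r : ℝ) (hr : 0 < r) : ∃ C : ℝ, 1 ≤ C ∧ ∀ (f : X → ℝ) (x0 : X), HL eX f →
    (∀ᵐ x : X, x ∈ ball x0 (7 * r) → 0 ≤ f x) → Sub eX (ball x0 (7 * r)) f (fun _ => -k) 0 →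
    Sub eX (ball x0 (7 * r)) (fun x => -f x) (fun _ => k) 0 →
    ∃ m : ℝ, 0 ≤ m ∧ ∀ᵐ x : X, x ∈ ball x0 r → m ≤ f x ∧ f x ≤ C * m := by
  obtain ⟨C, hC, H1⟩ := mv_sub k r
  obtain ⟨c, hc, H2⟩ := mv_super k (6 * r)
  refine ⟨max 1 (216 * C / c), le_max_left _ _, fun f x0 hf h0 hs hs' => ?_⟩
  have e1 : 6 * r + r = 7 * r := by ring
  have e2 : r + 6 * r = 7 * r := by ring
  have i2 : ∀ x ρ, IntegrableOn f (ball x ρ) := fun x ρ =>
    (hf.1.locallyIntegrable.integrableOn_isCompact (isCompact_closedBall x ρ)).mono_set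
      ball_subset_closedBall
  have hn : ∀ x ρ, ball x ρ ⊆ ball x0 (7 * r) → 0 ≤ᵐ[volume.restrict (ball x ρ)] f := fun x ρ h =>
    (ae_restrict_iff' measurableSet_ball).2 (h0.mono fun y hy hb => hy (h hb))
  have h1 : 0 ≤ ∫ y in ball x0 (2 * r), f y :=
    integral_nonneg_of_ae (hn _ _ (ball_subset_ball (by linarith)))
  refine ⟨c / (6 * r) ^ 3 * ∫ y in ball x0 (2 * r), f y, by positivity, ?_⟩
  filter_upwards [H1 f x0 (6 * r) r hr le_rfl hf (e1 ▸ h0) (e1 ▸ hs),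
    H2 f x0 r (6 * r) (by positivity) le_rfl hf (e2 ▸ h0) (e2 ▸ hs')] with x a1 a2 hx
  have hd := mem_ball.1 hx
  refine ⟨le_trans (mul_le_mul_of_nonneg_left (setIntegral_mono_set (i2 _ _)
    (hn _ _ (ball_subset_ball' (by linarith))) (LE.le.eventuallyLE
      (ball_subset_ball' (by rw [dist_comm]; linarith)))) (by positivity)) (a2 hx), ?_⟩
  refine (a1 (ball_subset_ball (by linarith) hx)).trans ((mul_le_mul_of_nonneg_left
    (setIntegral_mono_set (i2 x0 (2 * r)) (hn _ _ (ball_subset_ball (by linarith)))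
      (LE.le.eventuallyLE (ball_subset_ball' (by linarith)))) (by positivity)).trans
    (le_trans (le_of_eq ?_) (mul_le_mul_of_nonneg_right (le_max_right _ _) (by positivity))))
  field_simp
  ring

end Crest.Agent.R335
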