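/-
R335/T/MVG: pointwise bounds for subsolutions with a Kato potential
Skeleton by helper48 (row 335); keep the statements unchanged, add any helper lemmas you like.
-/
import Crest.Agent.R335.T.MV

set_option autoImplicit false
set_option linter.unusedSectionVars false
set_option linter.unusedVariables false
set_option linter.unusedSimpArgs false

noncomputable section

namespace Crest.Agent.R335

open MeasureTheory Set Filter Topology Metric
open scoped ENNReal

variable {E : Type} [NormedAddCommGroup E] [NormedSpace ℝ E] [FiniteDimensional ℝ E]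
  [MeasureSpace E] [BorelSpace E] [(volume : Measure E).IsAddHaarMeasure]
  {ι : Type} [Fintype ι] {b : ι → E}

theorem mvg_ofReal {α : Type} [MeasurableSpace α] (μ : Measure α) (g : α → ℝ) :
    ENNReal.ofReal (∫ x, g x ∂μ) ≤ ∫⁻ x, ENNReal.ofReal (g x) ∂μ := by
  by_cases h : Integrable g μ
  · refine (ENNReal.ofReal_le_ofReal (integral_mono h h.pos_part fun x => le_max_left _ _)).trans ?_
    rw [ofReal_integral_eq_lintegral_ofReal h.pos_part (.of_forall fun x => le_max_right _ _)]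
    exact lintegral_mono fun x => by simp [ENNReal.ofReal_max]
  · simp [integral_undef h]

theorem mvg_amgm (a c : ℝ≥0∞) : 2 * (a * c) ≤ a ^ 2 + c ^ 2 := by
  induction a using ENNReal.recTopCoe
  · simp
  induction c using ENNReal.recTopCoe
  · simp
  norm_cast
  rw [← mul_assoc]
  exact two_mul_le_add_sq _ _

/-- Schur's test. -/
theorem mvg_schur {k : E → E → ℝ≥0∞} (hk : Measurable (Function.uncurry k))
    (hs : ∀ x y, k x y = k y x) {U H : E → ℝ≥0∞} (mU : Measurable U) (mH : Measurable H) {c : ℝ≥0∞}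
    (c0 : c ≠ 0) (c1 : c ≠ ⊤) (h1 : ∀ x, 2 * ∫⁻ y, k x y * U y ≤ c)
    (h2 : ∀ᵐ x : E, c * H x ≤ ∫⁻ y, k x y * (U y * H y)) (hI : ∫⁻ x, U x * H x ^ 2 ≠ ⊤) :
    ∀ᵐ x : E, H x = 0 := by
  have hk1 : ∀ x, Measurable (k x) := fun x => hk.of_uncurry_left
  have h3 : ∀ᵐ x : E, 4 * c * (U x * H x ^ 2) ≤
      c * (U x * H x ^ 2) + 2 * ∫⁻ y, U y * H y ^ 2 * (k y x * U x) := h2.mono fun x hx => by
    calc 4 * c * (U x * H x ^ 2) = 4 * (U x * H x) * (c * H x) := by ring
      _ ≤ 4 * (U x * H x) * ∫⁻ y, k x y * (U y * H y) := by gcongr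
      _ = 2 * ∫⁻ y, k x y * U y * U x * (2 * (H x * H y)) := by
        rw [← lintegral_const_mul _ (by fun_prop), ← lintegral_const_mul _ (by fun_prop)]
        exact lintegral_congr fun y => by ring
      _ ≤ 2 * ∫⁻ y, (U x * H x ^ 2 * (k x y * U y) + U y * H y ^ 2 * (k y x * U x)) := by
        gcongr with y
        refine (mul_le_mul_right (mvg_amgm _ _) _).trans_eq ?_
        rw [hs y x]
        ring
      _ = (2 * ∫⁻ y, k x y * U y) * (U x * H x ^ 2) + 2 * ∫⁻ y, U y * H y ^ 2 * (k y x * U x) := by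
        rw [lintegral_add_left (by fun_prop), lintegral_const_mul _ (by fun_prop)]
        ring
      _ ≤ _ := by gcongr; exact h1 x
  have m1 : Measurable fun p : E × E => U p.2 * H p.2 ^ 2 * (k p.2 p.1 * U p.1) := by
    have : Measurable fun p : E × E => k p.2 p.1 := hk.comp measurable_swap
    fun_prop
  have h4 := lintegral_mono_ae h3
  rw [lintegral_add_left (by fun_prop), lintegral_const_mul _ (by fun_prop),
    lintegral_const_mul _ (by fun_prop), lintegral_const_mul _ m1.lintegral_prod_right',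
    lintegral_lintegral_swap m1.aemeasurable, ← lintegral_const_mul _ m1.lintegral_prod_left'] at h4
  have h5 : ∫⁻ y, 2 * ∫⁻ x, U y * H y ^ 2 * (k y x * U x) ≤ c * ∫⁻ x, U x * H x ^ 2 := by
    rw [← lintegral_const_mul _ (by fun_prop)]
    refine lintegral_mono fun y => ?_
    rw [lintegral_const_mul _ (by fun_prop), mul_left_comm, mul_comm c]
    exact mul_le_mul_right (h1 y) _
  have h6 : ∫⁻ x, U x * H x ^ 2 = 0 := by
    have h7 := h4.trans (add_le_add le_rfl h5)
    lift c to NNReal using c1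
    lift ∫⁻ x, U x * H x ^ 2 to NNReal using hI with I
    have h8 : 0 < c := pos_iff_ne_zero.2 fun h => c0 (by simp [h])
    norm_cast at h7 ⊢
    by_contra h9
    have := mul_pos h8 (pos_iff_ne_zero.2 h9)
    nlinarith
  have h7 := (lintegral_eq_zero_iff (by fun_prop)).1 h6
  filter_upwards [h2] with x hx
  have h8 : ∫⁻ y, k x y * (U y * H y) = 0 := by
    refine (lintegral_eq_zero_iff (by fun_prop)).2 (h7.mono fun y hy => ?_)
    rcases mul_eq_zero.1 hy with h | h
    · simp [h]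
    · simp [pow_eq_zero_iff two_ne_zero |>.1 h]
  exact (mul_eq_zero.1 (nonpos_iff_eq_zero.1 (hx.trans_eq h8))).resolve_left c0

theorem mvg_ball {ξ V : E → ℝ} {x : E} {t a B : ℝ} (ha : 0 ≤ a) (h1 : ∀ y, 0 ≤ ξ y ∧ ξ y ≤ a)
    (h2 : ∀ y, y ∉ ball x t → ξ y = 0) (hV : ∀ y, 0 ≤ V y) (hi : IntegrableOn V (ball x t))
    (hB : a * ∫ y in ball x t, V y ≤ B) :
    ∫⁻ y, ENNReal.ofReal (ξ y) * ENNReal.ofReal (V y) ≤ ENNReal.ofReal B := by
  refine le_trans ?_ (ENNReal.ofReal_le_ofReal hB)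
  rw [← integral_const_mul, ofReal_integral_eq_lintegral_ofReal (hi.const_mul a)
    (.of_forall fun y => mul_nonneg ha (hV y)), ← lintegral_indicator measurableSet_ball]
  refine lintegral_mono fun y => ?_
  by_cases h : y ∈ ball x t
  · rw [indicator_of_mem h, ← ENNReal.ofReal_mul (h1 y).1]
    exact ENNReal.ofReal_le_ofReal (mul_le_mul_of_nonneg_right (h1 y).2 (hV y))
  · simp [h2 y h]

theorem mvg_avg {f : E → ℝ} (hf : MemLp f 2 volume) (x : E) {B : ℝ} (hB : 0 ≤ B)
    (h : ∫ y in ball x 1, f y ^ 2 ≤ B ^ 2) :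
    ∫ y in ball x 1, |f y| ≤ (volume.real (ball (0 : E) 1) + 1) / 2 * B := by
  have i1 : IntegrableOn (fun y => f y ^ 2) (ball x 1) := hf.integrable_sq.integrableOn
  rcases hB.eq_or_lt with rfl | hB
  · have h1 := (integral_eq_zero_iff_of_nonneg (fun y => sq_nonneg (f y)) i1).1
      (le_antisymm (by simpa using h) (integral_nonneg fun y => sq_nonneg _))
    exact (integral_eq_zero_of_ae (h1.mono fun y hy => by simpa using hy)).le.trans (by simp)
  have i2 : IntegrableOn (fun _ => B ^ 2) (ball x 1) := integrableOn_const measure_ball_lt_top.ne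
  have h1 : ∫ y in ball x 1, 2 * B * |f y| ≤ ∫ y in ball x 1, (B ^ 2 + f y ^ 2) :=
    integral_mono_of_nonneg (.of_forall fun y => by positivity) (i2.add i1)
      (.of_forall fun y => by nlinarith [sq_nonneg (B - |f y|), sq_abs (f y)])
  rw [integral_const_mul, integral_add i2 i1, setIntegral_const, smul_eq_mul,
    Measure.addHaar_real_ball_center] at h1
  refine le_of_mul_le_mul_left ?_ (mul_pos two_pos hB)
  linarith

/-- Recipe: by `exists_kernel`, `c0 f ≤ f0 + T f + K s` a.e. with `f0 x = ∫ f η ϱ (· - x)`,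
`(T h)(x) = ∫_0^ϱ ∫ ξ t (y - x) U y h y`; choose `ϱ ≤ 1` so small that the kernel
`K (x - y) = ∫_0^ϱ ξ t (y - x) dt / c0` satisfies `e^{|L|} ∫ K (x - y) U y dy ≤ 1/2` for all `x`.
With `w = C S e^{-ω}` the function `h = (f - w)₊` satisfies `h ≤ T h`; Schur's test on
`L²(U dx)` (symmetric kernel, Cauchy-Schwarz) gives `∫ U h² ≤ (1/4) ∫ U h²`, so `U h = 0`,
`T h = 0`, `h = 0`.  Work with `lintegral`. -/
theorem mv_global (Fr : Frame b) (M L : ℝ) : ∃ C : ℝ, 0 < C ∧
    ∀ (f U s ω : E → ℝ) (S : ℝ), H1 b f → (∀ᵐ x : E, 0 ≤ f x) → Measurable U → (∀ x, 0 ≤ U x) →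
      MemLp (fun x => U x * f x) 2 volume →
      (∀ (x : E) (t : ℝ), 0 < t → t ≤ 1 → IntegrableOn U (ball x t) ∧
        ∫ y in ball x t, U y ≤ M * t ^ Fintype.card ι / t) →
      Measurable s → (∀ x, 0 ≤ s x) → 0 ≤ S →
      (∀ (x : E) (t : ℝ), 0 < t → t ≤ 1 → IntegrableOn s (ball x t) ∧
        ∫ y in ball x t, s y ≤ S * Real.exp (-ω x) * t ^ Fintype.card ι / t) →
      (∀ x y, |ω x - ω y| ≤ L * ‖x - y‖) →
      (∀ x : E, ∫ y in ball x 1, f y ^ 2 ≤ (S * Real.exp (-ω x)) ^ 2) →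
      (∀ φ : E → ℝ, Tst φ → (∀ x, 0 ≤ φ x) → dir b f φ ≤ ∫ x, (U x * f x + s x) * φ x) →
      ∀ᵐ x : E, f x ≤ C * S * Real.exp (-ω x) := by
  obtain ⟨η, ξ, c0, c1, hc0, -, h1, hm, h3, h4, h5, -, h7, h8⟩ := exists_kernel Fr
  obtain ⟨ϱ, hϱ, hϱ1, hϱ2⟩ : ∃ ϱ : ℝ, 0 < ϱ ∧ ϱ ≤ 1 ∧ 2 * (Real.exp |L| * max M 0 * ϱ) ≤ c0 := by
    refine ⟨min 1 (c0 / (2 * (Real.exp |L| * max M 0) + 1)), by positivity, min_le_left _ _, ?_⟩
    have h := (le_div_iff₀ (by positivity)).1
      (min_le_right 1 (c0 / (2 * (Real.exp |L| * max M 0) + 1)))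
    nlinarith [(by positivity : 0 < min 1 (c0 / (2 * (Real.exp |L| * max M 0) + 1)))]
  obtain ⟨A, hA⟩ : ∃ A, A = (ϱ ^ Fintype.card ι)⁻¹ * ((volume.real (ball (0 : E) 1) + 1) / 2) + 1 :=
    ⟨_, rfl⟩
  have hA0 : 0 < A := by rw [hA]; positivity
  refine ⟨2 * A / c0, by positivity, fun f U s ω S hf f0 mU U0 hUf hU ms s0 hS hs hω hf2 hsub => ?_⟩
  obtain ⟨w, hw⟩ : ∃ w : E → ℝ, w = fun x => 2 * A / c0 * S * Real.exp (-ω x) := ⟨_, rfl⟩
  have w0 : ∀ x, 0 ≤ w x := fun x => by rw [hw]; positivity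
  have cω : Continuous ω := (LipschitzWith.of_dist_le' (K := L) fun x y => by
    simpa only [dist_eq_norm, Real.norm_eq_abs] using hω x y).continuous
  have mw : Measurable w := by rw [hw]; fun_prop
  have wle : ∀ x y, y ∈ ball x 1 → w y ≤ Real.exp |L| * w x := fun x y hy => by
    simp only [hw]
    rw [mul_left_comm, ← Real.exp_add]
    gcongr
    have a1 := (abs_le.1 (hω y x)).1
    nlinarith [mul_le_mul (le_abs_self L) (mem_ball_iff_norm.1 hy).le (norm_nonneg _) (abs_nonneg L)]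
  have mf := hf.1.1.stronglyMeasurable_mk.measurable
  have ef := hf.1.1.ae_eq_mk
  generalize hf.1.1.mk f = f' at mf ef
  have hξ : ∀ τ x, 0 < τ → (∀ y, 0 ≤ ξ τ (y - x) ∧ ξ τ (y - x) ≤ τ * (τ ^ Fintype.card ι)⁻¹) ∧
      ∀ y, y ∉ ball x τ → ξ τ (y - x) = 0 := fun τ x hτ =>
    ⟨fun y => ⟨(h4 τ _ hτ).1, (h4 τ _ hτ).2.1.trans (mul_le_mul_of_nonneg_left (h4 τ _ hτ).2.2 hτ.le)⟩,
      fun y hy => le_antisymm (by
        simpa [h5 τ _ hτ (not_lt.1 fun h => hy (mem_ball_iff_norm.2 h))] using (h4 τ (y - x) hτ).2.1)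
        (h4 τ _ hτ).1⟩
  have m1 : Measurable fun p : (E × E) × ℝ => ENNReal.ofReal (ξ p.2 (p.1.2 - p.1.1)) :=
    (hm.comp (measurable_snd.prodMk (by fun_prop))).ennreal_ofReal
  have swap : ∀ {G : E → ℝ≥0∞}, Measurable G → ∀ x,
      ∫⁻ y, (∫⁻ τ in Ioc 0 ϱ, ENNReal.ofReal (ξ τ (y - x))) * G y =
        ∫⁻ τ in Ioc 0 ϱ, ∫⁻ y, ENNReal.ofReal (ξ τ (y - x)) * G y := fun {G} mG x => by
    have m2 : Measurable fun p : E × ℝ => ENNReal.ofReal (ξ p.2 (p.1 - x)) :=
      (hm.comp (measurable_snd.prodMk (by fun_prop))).ennreal_ofReal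
    rw [← lintegral_lintegral_swap (m2.mul (mG.comp measurable_fst)).aemeasurable]
    exact lintegral_congr fun y => (lintegral_mul_const _ (m2.comp measurable_prodMk_left)).symm
  have hball : ∀ (x : E) (a e : ℝ), 0 ≤ a → 0 ≤ e → ∀ τ ∈ Ioc 0 ϱ,
      ∫⁻ y, ENNReal.ofReal (ξ τ (y - x)) * ENNReal.ofReal (a * U y + e * s y) ≤
        ENNReal.ofReal (a * max M 0 + e * (S * Real.exp (-ω x))) := fun x a e ha he τ hτ => by
    obtain ⟨a1, a2⟩ := hU x τ hτ.1 (hτ.2.trans hϱ1)
    obtain ⟨a3, a4⟩ := hs x τ hτ.1 (hτ.2.trans hϱ1)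
    have := hτ.1
    refine mvg_ball (by positivity) (hξ τ x hτ.1).1 (hξ τ x hτ.1).2
      (fun y => add_nonneg (mul_nonneg ha (U0 y)) (mul_nonneg he (s0 y)))
      ((a1.const_mul a).add (a3.const_mul e)) ?_
    rw [integral_add (a1.const_mul a) (a3.const_mul e), integral_const_mul, integral_const_mul]
    refine (mul_le_mul_of_nonneg_left (add_le_add (mul_le_mul_of_nonneg_left (a2.trans
      (div_le_div_of_nonneg_right (mul_le_mul_of_nonneg_right (le_max_left M 0) (by positivity))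
        this.le)) ha) (mul_le_mul_of_nonneg_left a4 he)) (by positivity)).trans_eq ?_
    field_simp
  have mH : Measurable fun y => ENNReal.ofReal (f' y - w y) := (mf.sub mw).ennreal_ofReal
  refine (?_ : (∀ᵐ x : E, ENNReal.ofReal (f' x - w x) = 0) → _) (mvg_schur (k := fun x y => ∫⁻ τ in Ioc 0 ϱ, ENNReal.ofReal (ξ τ (y - x)))
    m1.lintegral_prod_right' (fun x y => by simp only [← (h3 _ (y - x)).2, neg_sub])
    mU.ennreal_ofReal mH (c := ENNReal.ofReal c0) (by simpa using hc0)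
    ENNReal.ofReal_ne_top (fun x => ?_) ?_ ?_)
  · intro key
    filter_upwards [key, ef] with x a1 a2
    rw [hw] at a1
    rw [a2]
    exact sub_nonpos.1 (ENNReal.ofReal_eq_zero.1 a1)
  · rw [swap mU.ennreal_ofReal]
    have a1 := setLIntegral_mono' (μ := volume) measurableSet_Ioc (hball x 1 0 one_pos.le le_rfl)
    simp only [one_mul, zero_mul, add_zero, setLIntegral_const, Real.volume_Ioc, sub_zero] at a1
    refine (mul_le_mul_right a1 _).trans ?_
    rw [← ENNReal.ofReal_mul (le_max_right _ _), ← ENNReal.ofReal_ofNat, ← ENNReal.ofReal_mul zero_le_two]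
    refine ENNReal.ofReal_le_ofReal (le_trans ?_ hϱ2)
    nlinarith [Real.one_le_exp (abs_nonneg L), mul_nonneg (le_max_right M 0) hϱ.le]
  · obtain ⟨t, t0, t1, t2⟩ := h8 f hf.hl.1
    filter_upwards [t2, ef] with x hx e1
    rw [swap (mU.ennreal_ofReal.fun_mul mH)]
    obtain ⟨T, hT⟩ : ∃ T : ℝ → ℝ≥0∞, ∀ τ, T τ = ∫⁻ y, ENNReal.ofReal (ξ τ (y - x)) *
      (ENNReal.ofReal (U y) * ENNReal.ofReal (f' y - w y)) := ⟨_, fun _ => rfl⟩
    obtain ⟨B, hB⟩ : ∃ B, B = Real.exp |L| * w x * max M 0 + 1 * (S * Real.exp (-ω x)) := ⟨_, rfl⟩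
    have B0 : 0 ≤ B := by have := w0 x; rw [hB]; positivity
    have a1 : ∀ τ ∈ Ioc 0 ϱ, ENNReal.ofReal (dir b f fun y => ξ τ (y - x)) ≤
        ENNReal.ofReal B + T τ := fun τ hτ => by
      have m2 : Measurable fun y => ENNReal.ofReal (ξ τ (y - x)) :=
        (mv_tst (h1 τ hτ.1).2 x).cont.measurable.ennreal_ofReal
      refine ((ENNReal.ofReal_le_ofReal (hsub _ (mv_tst (h1 τ hτ.1).2 x)
        fun y => ((hξ τ x hτ.1).1 y).1)).trans (mvg_ofReal _ _)).trans (le_trans ?_ (add_le_add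
          (hB ▸ hball x _ 1 (mul_nonneg (Real.exp_pos _).le (w0 x)) one_pos.le τ hτ) (hT τ).ge))
      rw [← lintegral_add_left (by fun_prop)]
      refine lintegral_mono_ae (ef.mono fun y hy => ?_)
      by_cases h : y ∈ ball x τ
      · rw [mul_comm, ENNReal.ofReal_mul ((hξ τ x hτ.1).1 y).1, ← mul_add, ← ENNReal.ofReal_mul (U0 y)]
        refine mul_le_mul_right (le_trans (ENNReal.ofReal_le_ofReal ?_) ENNReal.ofReal_add_le) _
        rw [hy]
        nlinarith [mul_le_mul_of_nonneg_left (wle x y (ball_subset_ball (hτ.2.trans hϱ1) h)) (U0 y)]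
      · simp [(hξ τ x hτ.1).2 y h]
    have a2 : ∫ y, f y * η ϱ (y - x) ≤ (A - 1) * (S * Real.exp (-ω x)) := by
      have i1 : IntegrableOn (fun y => |f y|) (ball x 1) :=
        ((hf.hl.1.locallyIntegrable.integrableOn_isCompact (isCompact_closedBall x 1)).mono_set
          ball_subset_closedBall).abs
      rw [hA, add_sub_cancel_right, mul_assoc]
      refine le_trans ?_ (mul_le_mul_of_nonneg_left (mvg_avg hf.1 x (by positivity) (hf2 x))
        (by positivity))
      rw [← integral_const_mul, ← integral_indicator measurableSet_ball]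
      refine integral_mono (wd_int_mul hf.hl.1.locallyIntegrable (mv_tst (h1 ϱ hϱ).1 x).cont
        (mv_tst (h1 ϱ hϱ).1 x).2) ((integrable_indicator_iff measurableSet_ball).2 (i1.const_mul _))
        fun y => ?_
      by_cases h : y ∈ ball x 1
      · have a3 : 0 ≤ η ϱ (y - x) :=
          nonneg_of_mul_nonneg_right (((h4 ϱ _ hϱ).1).trans (h4 ϱ _ hϱ).2.1) hϱ
        simp only [indicator_of_mem h, mul_comm (f y)]
        exact (mul_le_mul_of_nonneg_left (le_abs_self _) a3).trans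
          (mul_le_mul_of_nonneg_right (h4 ϱ _ hϱ).2.2 (abs_nonneg _))
      · simp [indicator_of_notMem h,
          h5 ϱ _ hϱ (hϱ1.trans (not_lt.1 fun h' => h (mem_ball_iff_norm.2 h')))]
    have a3 : ENNReal.ofReal (c0 * f x) ≤ ENNReal.ofReal (c0 * w x) + ∫⁻ τ in Ioc 0 ϱ, T τ := by
      refine le_of_tendsto (ENNReal.tendsto_ofReal hx)
        ((t1.eventually (ge_mem_nhds hϱ)).mono fun n hn => ?_)
      have a4 := (h7 f hf.hl x _ _ (t0 n) hn).2
      rw [intervalIntegral.integral_of_le hn] at a4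
      have a5 := (mvg_ofReal _ _).trans ((lintegral_mono_set (Ioc_subset_Ioc_left (t0 n).le)).trans
        (setLIntegral_mono' (μ := volume) measurableSet_Ioc a1))
      rw [lintegral_add_left measurable_const, setLIntegral_const, Real.volume_Ioc, sub_zero,
        ← ENNReal.ofReal_mul B0] at a5
      rw [show ∫ y, f y * η (t n) (y - x) = (∫ y, f y * η ϱ (y - x)) +
        ∫ τ in Ioc (t n) ϱ, dir b f fun y => ξ τ (y - x) by linarith]
      refine ENNReal.ofReal_add_le.trans ((add_le_add (ENNReal.ofReal_le_ofReal a2) a5).trans ?_)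
      have a6 : 0 ≤ S * Real.exp (-ω x) := by positivity
      rw [← add_assoc, ← ENNReal.ofReal_add (mul_nonneg (by rw [hA]; simp; positivity) a6)
        (mul_nonneg B0 hϱ.le)]
      refine add_le_add (ENNReal.ofReal_le_ofReal ?_) le_rfl
      have a7 : c0 * w x = 2 * A * (S * Real.exp (-ω x)) := by rw [hw]; field_simp
      nlinarith [mul_le_mul_of_nonneg_right hϱ2 (w0 x), mul_le_mul_of_nonneg_left hϱ1 a6]
    simp only [← hT]
    rw [← ENNReal.ofReal_mul hc0.le, mul_sub, ENNReal.ofReal_sub _ (mul_nonneg hc0.le (w0 x)), ← e1]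
    exact tsub_le_iff_left.2 a3
  · refine ne_top_of_le_ne_top (hUf.integrable_mul hf.1).lintegral_lt_top.ne (lintegral_mono_ae ?_)
    filter_upwards [ef, f0] with x a1 a2
    rw [← a1, Pi.mul_apply, mul_assoc, ENNReal.ofReal_mul (U0 x), ENNReal.ofReal_mul a2, pow_two]
    gcongr <;> exact sub_le_self _ (w0 x)

end Crest.Agent.R335
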