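/-
R335/T/Min: existence of a ground state from a gap, without compactness
Skeleton by helper48 (row 335); keep the statements unchanged, add any helper lemmas you like.
-/
import Crest.Agent.R335.T.Pot
import Crest.Agent.R335.T.Lsc
import Crest.Agent.R335.T.Slab
import Crest.Agent.R335.KS.Var

set_option autoImplicit false
set_option linter.unusedSectionVars false
set_option linter.unusedVariables false
set_option linter.unusedSimpArgs false

noncomputable section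

namespace Crest.Agent.R335

open MeasureTheory Set Filter Topology Metric
open scoped ENNReal

variable {E : Type} [NormedAddCommGroup E] [NormedSpace ℝ E] [FiniteDimensional ℝ E]
  [MeasureSpace E] [BorelSpace E] [(volume : Measure E).IsAddHaarMeasure]
  {ι : Type} [Fintype ι] {b : ι → E}

theorem min_ip_smul (c : ℝ) (f g : E → ℝ) : ip f (fun x => c * g x) = c * ip f g := by
  rw [ip, ip, ← integral_const_mul]
  exact integral_congr_ae (.of_forall fun x => by ring)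

theorem min_ip_congr {f f' g g' : E → ℝ} (h : f =ᵐ[volume] f') (h' : g =ᵐ[volume] g') :
    ip f g = ip f' g' := by
  refine integral_congr_ae ?_
  filter_upwards [h, h'] with x h1 h2
  rw [h1, h2]

theorem min_ip_nonneg (f : E → ℝ) : 0 ≤ ip f f := integral_nonneg fun x => mul_self_nonneg _

theorem min_sq_sub {f g : E → ℝ} :
    ∫ x, (f x - g x) ^ 2 = ip (fun x => 1 * f x + -1 * g x) fun x => 1 * f x + -1 * g x :=
  integral_congr_ae (.of_forall fun x => by ring)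

/-- An approximate minimiser on the hyperplane `ip ψ u = 1`. -/
theorem min_seq {U : E → ℝ} (hU : Pot b U) {K : (E → ℝ) → Prop} (hK : ∀ f, K f → H1 b f)
    (Klin : ∀ f g, K f → K g → ∀ s t : ℝ, K fun x => s * f x + t * g x) {ψ φ : E → ℝ}
    (hψ : MemLp ψ 2 volume) {e E' : ℝ} (hlt : e < E') (hφ : K φ) (hc : ip ψ φ ≠ 0)
    (hA : ∀ g, K g → e * ip g g ≤ qf b U g g)
    (hB : ∀ η : ℝ, 0 < η → ∃ g, K g ∧ ip g g = 1 ∧ qf b U g g < e + η)
    (hgap : ∀ g, K g → ip ψ g = 0 → E' * ip g g ≤ qf b U g g) {ε : ℝ} (hε : 0 < ε) :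
    ∃ u, K u ∧ ip ψ u = 1 ∧ qf b U u u - e * ip u u ≤ ε := by
  obtain ⟨γ, hγ⟩ : ∃ γ, γ = E' - e := ⟨_, rfl⟩
  obtain ⟨D, hD⟩ : ∃ D, D = 2 * (qf b U φ φ - e * ip φ φ) + γ * ip φ φ := ⟨_, rfl⟩
  have hγ0 : 0 < γ := by linarith
  have hD0 : 0 ≤ D := by
    have := mul_nonneg hγ0.le (min_ip_nonneg φ)
    linarith [hA φ hφ]
  have hc2 : 0 < ip ψ φ ^ 2 := by positivity
  obtain ⟨α, hα⟩ : ∃ α, α = γ * ip ψ φ ^ 2 / (4 * (D + 1)) := ⟨_, rfl⟩
  have hα0 : 0 < α := by rw [hα]; positivity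
  obtain ⟨f, hf, h1, h2⟩ := hB (min (γ / 8) (ε * α)) (lt_min (by positivity) (by positivity))
  have h3 : qf b U f f - e ≤ γ / 8 := by linarith [min_le_left (γ / 8) (ε * α)]
  have h4 : qf b U f f - e ≤ ε * α := by linarith [min_le_right (γ / 8) (ε * α)]
  have a1 := hgap _ (Klin f φ hf hφ (ip ψ φ) (-ip ψ f)) (by
    rw [ks_ip_comm, ks_ip_lin_left (hK f hf).1 (hK φ hφ).1 hψ, ks_ip_comm f, ks_ip_comm φ]
    ring)
  have a2 := hA _ (Klin f φ hf hφ (ip ψ φ) (ip ψ f))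
  have a3 := min_ip_nonneg fun x => ip ψ φ * f x + -(2 * ip ψ f) * φ x
  rw [hU.qf_lin (hK f hf) (hK φ hφ), ip_lin (hK f hf).1 (hK φ hφ).1, h1] at a1 a2
  rw [ip_lin (hK f hf).1 (hK φ hφ).1, h1] at a3
  have a4 := mul_nonneg hγ0.le a3
  have a5 := mul_le_mul_of_nonneg_left h3 hc2.le
  have a6 : γ * ip ψ φ ^ 2 ≤ 4 * (D * ip ψ f ^ 2) := by
    have : E' = γ + e := by linarith
    rw [this] at a1
    rw [hD]
    linarith
  have a7 : α ≤ ip ψ f ^ 2 := by
    rw [hα, div_le_iff₀ (by positivity)]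
    linarith [sq_nonneg (ip ψ f)]
  have a8 : ip ψ f ≠ 0 := fun h => by
    rw [h] at a7
    linarith
  refine ⟨_, Klin f f hf hf (ip ψ f)⁻¹ 0, ?_, ?_⟩
  · rw [ks_ip_comm, ks_ip_lin_left (hK f hf).1 (hK f hf).1 hψ, ks_ip_comm f, inv_mul_cancel₀ a8]
    ring
  · rw [hU.qf_lin (hK f hf) (hK f hf), ip_lin (hK f hf).1 (hK f hf).1, h1]
    have a9 : (ip ψ f)⁻¹ ^ 2 * (qf b U f f - e) ≤ ε := by
      rw [inv_pow, inv_mul_le_iff₀ (hα0.trans_le a7)]
      nlinarith
    linarith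

/-- Recipe: `e` = infimum of `qf g g` over normalised symmetric `g` (finite by `Pot.coercive`),
`q̃ = qf - e ip ≥ 0` on symmetric functions, `q̃ ≥ γ ip` on those orthogonal to `ψ`, `γ = E' - e`.
For a minimising sequence `f n` with `a n = ip ψ (f n) ≥ 0`: `a n` stays away from `0` (else
`f n - a n φ / ip ψ φ` contradicts the gap), a subsequence of `a n` converges, and
`a m f n - a n f m ⊥ ψ` gives the Cauchy property in `L²`, then in `H¹` (`q̃` satisfies the
Cauchy-Schwarz inequality; coercivity); `H1.complete`; symmetrise the limit pointwise.  The weak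
equation: first for symmetric `g` (Cauchy-Schwarz for `q̃`), then split a general `g`.  The gap:
`g - t f ⊥ ψ` for `t = ip ψ g / ip ψ f`. -/
theorem exists_min {U : E → ℝ} (hU : Pot b U) {T : E → E} (hT : Sym b b T) (hTT : ∀ x, T (T x) = x)
    (hUT : ∀ x, U (T x) = U x) {σ : ℝ} (hσ : σ = 1 ∨ σ = -1) {ψ φ : E → ℝ}
    (hψ : MemLp ψ 2 volume) {E' : ℝ}
    (hgap : ∀ g, H1 b g → (∀ x, g (T x) = σ * g x) → ip ψ g = 0 → E' * ip g g ≤ qf b U g g)
    (hφ : H1 b φ) (hφT : ∀ x, φ (T x) = σ * φ x) (hlt : qf b U φ φ < E' * ip φ φ) :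
    ∃ (f : E → ℝ) (e : ℝ), Measurable f ∧ H1 b f ∧ (∀ x, f (T x) = σ * f x) ∧ ip f f = 1 ∧
      0 < ip ψ f ∧ qf b U f f = e ∧ e * ip φ φ ≤ qf b U φ φ ∧ e < E' ∧
      (∀ g, H1 b g → qf b U f g = e * ip f g) ∧
      ∀ g, H1 b g → (∀ᵐ x : E, g (T x) = σ * g x) →
        e * ip g g + (E' - e) * (ip g g - ip f g ^ 2) ≤ qf b U g g := by
  have hI : ∀ f g, H1 b f → H1 b g → Integrable fun x => U x * f x * g x :=
    fun f g hf hg => hU.integrable hf hg.1
  obtain ⟨C, hC0, hC⟩ := hU.coercive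
  have hσ2 : σ * σ = 1 := by rcases hσ with rfl | rfl <;> norm_num
  let K : (E → ℝ) → Prop := fun g => H1 b g ∧ ∀ x, g (T x) = σ * g x
  have Klin : ∀ f g, K f → K g → ∀ s t : ℝ, K fun x => s * f x + t * g x := fun f g hf hg s t =>
    ⟨(hf.1.const_mul s).add (hg.1.const_mul t), fun x => by simp only [hf.2, hg.2]; ring⟩
  have Ksmul : ∀ f, K f → ∀ s : ℝ, K fun x => s * f x := fun f hf s =>
    ⟨hf.1.const_mul s, fun x => by simp only [hf.2]; ring⟩
  have Ksym : ∀ g, H1 b g → K fun x => 1 / 2 * g x + σ / 2 * g (T x) := fun g hg =>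
    ⟨(hg.const_mul _).add ((hT.h1 hg).const_mul _), fun x => by
      simp only [hTT]
      linear_combination (-(1 / 2) * g (T x)) * hσ2⟩
  have Kae : ∀ g : E → ℝ, (∀ᵐ x : E, g (T x) = σ * g x) →
      g =ᵐ[volume] fun x => 1 / 2 * g x + σ / 2 * g (T x) := fun g hg => hg.mono fun x hx => by
    simp only [hx]
    linear_combination (-(1 / 2) * g x) * hσ2
  let S : Set ℝ := {r | ∃ g, K g ∧ ip g g = 1 ∧ qf b U g g = r}
  have hbd : BddBelow S := ⟨-C, by
    rintro r ⟨g, h1, h2, rfl⟩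
    have h3 := hC g h1.1
    rw [h2] at h3
    linarith [dir_self_nonneg (b := b) g]⟩
  obtain ⟨c, hc1, hc2⟩ : ∃ c : ℝ, ip (fun x => c * φ x) (fun x => c * φ x) = 1 ∧
      qf b U (fun x => c * φ x) (fun x => c * φ x) < E' := by
    by_contra h
    push Not at h
    exact (ks_hom hφ h).not_gt hlt
  have hne : S.Nonempty := ⟨_, _, Ksmul φ ⟨hφ, hφT⟩ c, hc1, rfl⟩
  obtain ⟨e, he⟩ : ∃ e, e = sInf S := ⟨_, rfl⟩
  have hA : ∀ g, K g → e * ip g g ≤ qf b U g g := fun g hg =>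
    ks_hom hg.1 fun c hc => he ▸ csInf_le hbd ⟨_, Ksmul g hg c, hc, rfl⟩
  have hE : e < E' := lt_of_le_of_lt (he ▸ csInf_le hbd ⟨_, Ksmul φ ⟨hφ, hφT⟩ c, hc1, rfl⟩) hc2
  have hB : ∀ η : ℝ, 0 < η → ∃ g, K g ∧ ip g g = 1 ∧ qf b U g g < e + η := fun η hη => by
    obtain ⟨r, ⟨g, h1, h2, rfl⟩, h3⟩ := exists_lt_of_csInf_lt hne (lt_add_of_pos_right _ hη)
    exact ⟨g, h1, h2, he ▸ h3⟩
  have hγ : 0 < E' - e := sub_pos.2 hE
  choose u u1 u2 u3 using fun n : ℕ => min_seq hU (K := K) (fun f hf => hf.1) Klin hψ hE ⟨hφ, hφT⟩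
    (fun h => (hgap φ hφ hφT h).not_gt hlt) hA hB (fun g hg => hgap g hg.1 hg.2)
    (Nat.one_div_pos_of_nat (α := ℝ) (n := n))
  -- the Cauchy property
  have hcau : ∀ (η : ℝ) (m n : ℕ), 1 / ((m : ℝ) + 1) ≤ η → 1 / ((n : ℝ) + 1) ≤ η →
      (E' - e) * ∫ x, (u m x - u n x) ^ 2 ≤ 4 * η ∧
      dir b (fun x => u m x - u n x) (fun x => u m x - u n x) ≤
        16 * η + 4 * (|e| + C) * ∫ x, (u m x - u n x) ^ 2 := fun η m n hm hn => by
    have k1 := Klin _ _ (u1 m) (u1 n) 1 (-1)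
    have a1 := hgap _ k1.1 k1.2 (by
      rw [ks_ip_comm, ks_ip_lin_left (u1 m).1.1 (u1 n).1.1 hψ, ks_ip_comm (u m), ks_ip_comm (u n),
        u2, u2]
      ring)
    have a2 := hA _ (Klin _ _ (u1 m) (u1 n) 1 1)
    have a3 := hC _ k1.1
    have a4 : qf b U (fun x => 1 * u m x + -1 * u n x) (fun x => 1 * u m x + -1 * u n x) -
        e * ip (fun x => 1 * u m x + -1 * u n x) (fun x => 1 * u m x + -1 * u n x) ≤ 4 * η := by
      rw [hU.qf_lin (u1 m).1 (u1 n).1, ip_lin (u1 m).1.1 (u1 n).1.1] at a2 ⊢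
      linarith [u3 m, u3 n]
    have a5 : (fun x => u m x - u n x) = fun x => 1 * u m x + -1 * u n x := funext fun x => by ring
    have a6 := mul_le_mul_of_nonneg_right (le_abs_self e)
      (min_ip_nonneg fun x => 1 * u m x + -1 * u n x)
    rw [min_sq_sub, a5]
    exact ⟨by linarith, by linarith⟩
  obtain ⟨v, mv, hv, l1, l2⟩ := H1.complete (F := u) (fun n => (u1 n).1) fun ε hε => by
    obtain ⟨B, hB⟩ : ∃ B, B = 16 + (4 * (|e| + C) + 1) * (4 / (E' - e)) := ⟨_, rfl⟩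
    have hB0 : 0 < B := by rw [hB]; positivity
    obtain ⟨N, hN⟩ := exists_nat_one_div_lt (div_pos hε hB0)
    refine ⟨N, fun m hm n hn => ?_⟩
    obtain ⟨a1, a2⟩ := hcau (ε / B) m n ((Nat.one_div_le_one_div hm).trans hN.le)
      ((Nat.one_div_le_one_div hn).trans hN.le)
    have a3 : ∫ x, (u m x - u n x) ^ 2 ≤ 4 / (E' - e) * (ε / B) := by
      rw [div_mul_eq_mul_div, le_div_iff₀' hγ]
      exact a1
    have a4 : 0 ≤ ∫ x, (u m x - u n x) ^ 2 := integral_nonneg fun x => sq_nonneg _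
    have a5 := mul_le_mul_of_nonneg_left a3 (show 0 ≤ 4 * (|e| + C) by positivity)
    have a6 : ε = 16 * (ε / B) + 4 * (|e| + C) * (4 / (E' - e) * (ε / B)) +
        4 / (E' - e) * (ε / B) := by
      rw [← mul_div_cancel₀ ε hB0.ne', mul_div_cancel_left₀ _ hB0.ne']
      nth_rewrite 1 [hB]
      ring
    have a7 : 0 ≤ ε / B := by positivity
    have a8 : 0 ≤ 4 * (|e| + C) * (4 / (E' - e) * (ε / B)) := by positivity
    have a9 : 0 ≤ 4 / (E' - e) * (ε / B) := by positivity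
    exact ⟨by linarith, by linarith⟩
  have um : ∀ n, MemLp (u n) 2 volume := fun n => (u1 n).1.1
  have v1 : ip ψ v = 1 := by
    have a1 := tendsto_ip (fun _ => hψ) um hψ hv.1 (wd_L2to_const ψ) l1
    simp only [u2] at a1
    exact tendsto_nhds_unique a1 tendsto_const_nhds
  have v2 : qf b U v v - e * ip v v ≤ 0 := le_of_tendsto_of_tendsto'
    ((hU.tendsto_qf (fun n => (u1 n).1) (fun n => (u1 n).1) hv hv l1 l1 l2 l2).sub
      ((tendsto_ip um um hv.1 hv.1 l1 l1).const_mul e)) tendsto_one_div_add_atTop_nhds_zero_nat u3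
  have v3 : ∀ᵐ x : E, v (T x) = σ * v x := by
    obtain ⟨ns, -, a1⟩ := exists_subseq_ae (κ := Unit) (F := fun _ => u) (f := fun _ => v)
      (fun _ => um) (fun _ => hv.1) fun _ => l1
    filter_upwards [a1, hT.ae a1] with x a2 a3
    refine tendsto_nhds_unique (a3 ()) ?_
    simp only [fun n => (u1 n).2 x]
    exact (a2 ()).const_mul σ
  have w0 := Kae v v3
  have w1 := Ksym v hv
  have mw : Measurable fun x => 1 / 2 * v x + σ / 2 * v (T x) :=
    (mv.const_mul _).add ((mv.comp hT.mp.measurable).const_mul _)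
  rw [min_ip_congr (.refl _ _) w0] at v1
  rw [min_ip_congr w0 w0, qf_congr w0 w0] at v2
  generalize (fun x => 1 / 2 * v x + σ / 2 * v (T x)) = w at v1 v2 w1 mw
  have w2 : 0 < ip w w := by
    have a1 := ip_sq_le hψ w1.1.1
    rw [v1] at a1
    refine (min_ip_nonneg w).lt_of_ne fun h => ?_
    rw [← h] at a1
    norm_num at a1
  have hs : (√(ip w w))⁻¹ * ((√(ip w w))⁻¹ * ip w w) = 1 := by
    rw [← mul_assoc, ← mul_inv, Real.mul_self_sqrt w2.le, inv_mul_cancel₀ w2.ne']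
  have hr : 0 < (√(ip w w))⁻¹ := inv_pos.2 (Real.sqrt_pos.2 w2)
  generalize (√(ip w w))⁻¹ = r at hs hr
  have f1 := Ksmul w w1 r
  have f2 : ip (fun x => r * w x) (fun x => r * w x) = 1 := by
    rw [min_ip_smul, ks_ip_comm, min_ip_smul, hs]
  have f3 : 0 < ip ψ fun x => r * w x := by
    rw [min_ip_smul, v1, mul_one]
    exact hr
  have f4 : qf b U (fun x => r * w x) (fun x => r * w x) = e := by
    rw [qf_const_mul_left w1.1, qf_comm, qf_const_mul_left w1.1,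
      le_antisymm (sub_nonpos.1 v2) (hA w w1)]
    linear_combination e * hs
  have mf := mw.const_mul r
  generalize (fun x => r * w x) = f at f1 f2 f3 f4 mf
  have e1 : ∀ g, K g → qf b U f g = e * ip f g := fun g hg =>
    ks_first hI f1.1 hg.1 (by rw [f2, f4, mul_one]) fun t => hA _ (Klin f g f1 hg 1 t)
  have e2 : ∀ g, H1 b g → qf b U f g = e * ip f g := fun g hg => by
    have a1 := e1 _ (Ksym g hg)
    have a2 := hT.qf U f1.1.hl hg.hl
    have a3 := hT.ip f g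
    simp only [hUT, f1.2] at a2 a3
    rw [qf_const_mul_left f1.1] at a2
    rw [ks_ip_comm, min_ip_smul] at a3
    rw [qf_comm, ks_qf_lin_left hI hg (hT.h1 hg) f1.1, ks_ip_comm,
      ks_ip_lin_left hg.1 (hT.h1 hg).1 f1.1.1, qf_comm U g, qf_comm U _ f, ks_ip_comm g] at a1
    linear_combination a1 - 1 / 2 * a2 + e / 2 * a3
  refine ⟨f, e, mf, f1.1, f1.2, f2, f3, f4, hA φ ⟨hφ, hφT⟩, hE, e2, fun g hg hs => ?_⟩
  have g0 := Kae g hs
  have g1 := Ksym g hg
  rw [min_ip_congr g0 g0, qf_congr g0 g0, min_ip_congr (.refl _ f) g0]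
  generalize (fun x => 1 / 2 * g x + σ / 2 * g (T x)) = g at g1
  have k1 := Klin f g f1 g1 (-(ip ψ g / ip ψ f)) 1
  have a1 := hgap _ k1.1 k1.2 (by
    rw [ks_ip_comm, ks_ip_lin_left f1.1.1 g1.1.1 hψ, ks_ip_comm f, ks_ip_comm g]
    field_simp
    ring)
  rw [hU.qf_lin f1.1 g1.1, ip_lin f1.1.1 g1.1.1, f2, f4, e1 g g1] at a1
  have a2 := mul_nonneg hγ.le (sq_nonneg (ip ψ g / ip ψ f - ip f g))
  linarith

theorem sym_id : Sym b b fun x => x := by
  exact ⟨.refl ℝ E, .refl ι, fun _ => 1, fun _ => rfl, .id _, fun _ => .inl rfl,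
    fun i => (one_smul _ _).symm⟩

/-- Equality in Cauchy-Schwarz. -/
theorem eq_of_ip_sq {f g : E → ℝ} (hf : MemLp f 2 volume) (hg : MemLp g 2 volume)
    (h1 : ip f f = 1) (h2 : ip g g = 1) (h : 1 ≤ ip f g ^ 2) :
    g =ᵐ[volume] f ∨ g =ᵐ[volume] fun x => -f x := by
  have key : ∀ s : ℝ, s ^ 2 = 1 → 1 ≤ s * ip f g → g =ᵐ[volume] fun x => s * f x := fun s a1 a2 => by
    have a3 := min_ip_nonneg fun x => -s * f x + 1 * g x
    have a4 : ip (fun x => -s * f x + 1 * g x) (fun x => -s * f x + 1 * g x) = 0 := by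
      refine le_antisymm ?_ a3
      rw [ip_lin hf hg, h1, h2]
      linarith
    have a5 := (hf.const_mul (-s)).add (hg.const_mul 1)
    filter_upwards [(integral_eq_zero_iff_of_nonneg (fun x => mul_self_nonneg _)
      (a5.integrable_mul a5)).1 a4] with x hx
    have a6 : -s * f x + 1 * g x = 0 := mul_self_eq_zero.1 hx
    linarith
  rcases le_total 0 (ip f g) with a1 | a1
  · exact .inl (by simpa only [one_mul] using key 1 (by norm_num) (by nlinarith))
  · exact .inr (by simpa only [neg_mul, one_mul] using key (-1) (by norm_num) (by nlinarith))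

theorem dist_sq_of_ip {f g : E → ℝ} (hf : MemLp f 2 volume) (hg : MemLp g 2 volume)
    (h1 : ip f f = 1) (h2 : ip g g = 1) (h : 0 ≤ ip f g) :
    ∫ x, (f x - g x) ^ 2 ≤ 2 * (1 - ip f g ^ 2) := by
  have a1 := ip_sq_le hf hg
  rw [h1, h2] at a1
  rw [min_sq_sub, ip_lin hf hg, h1, h2]
  nlinarith

end Crest.Agent.R335
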