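/-
R335/T/SNormB: multipliers in the first variable, scalar channels, zero trace (helper77)
-/
import Crest.Agent.R335.T.Slice
import Crest.Agent.R335.T.Cov
import Crest.Agent.R335.T.Slab

set_option autoImplicit false
set_option linter.unusedSectionVars false
set_option linter.unusedVariables false
set_option linter.unusedSimpArgs false

noncomputable section

namespace Crest.Agent.R335

open MeasureTheory Set Filter Topology Metric
open scoped ENNReal

variable {E : Type} [NormedAddCommGroup E] [NormedSpace ℝ E] [FiniteDimensional ℝ E]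
  [MeasureSpace E] [BorelSpace E] [(volume : Measure E).IsAddHaarMeasure]
  {ι : Type} [Fintype ι] {b : ι → E}
  {E' : Type} [NormedAddCommGroup E'] [NormedSpace ℝ E'] [FiniteDimensional ℝ E']
  [MeasureSpace E'] [BorelSpace E'] [(volume : Measure E').IsAddHaarMeasure]
  {ι' : Type} [Fintype ι'] {b' : ι' → E'}

theorem snb_ae_fst {p : E → Prop} (h : ∀ᵐ x : E, p x) : ∀ᵐ z : E × E', p z.1 :=
  (Measure.quasiMeasurePreserving_fst (μ := (volume : Measure E))
    (ν := (volume : Measure E'))).ae h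

theorem snb_aesm_fst {g : E → ℝ} (h : AEStronglyMeasurable g volume) :
    AEStronglyMeasurable (fun z : E × E' => g z.1) volume :=
  h.comp_quasiMeasurePreserving (Measure.quasiMeasurePreserving_fst (μ := (volume : Measure E))
    (ν := (volume : Measure E')))

/-- An `L²` function of the first variable times a function with bounded slices. -/
theorem snb_mul {F : E × E' → ℝ} (hF : MemLp F 2 volume) {M : ℝ}
    (hM : ∀ᵐ x : E, ∫ y, F (x, y) ^ 2 ≤ M) {g : E → ℝ} (hg : MemLp g 2 volume) :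
    MemLp (fun p : E × E' => g p.1 * F p) 2 volume ∧
      ∫ p : E × E', (g p.1 * F p) ^ 2 ≤ M * ∫ x, g x ^ 2 := by
  have m1 : AEStronglyMeasurable (fun p : E × E' => g p.1 * F p) volume :=
    (snb_aesm_fst hg.1).mul hF.1
  have m2 : AEStronglyMeasurable (fun p : E × E' => (g p.1 * F p) ^ 2)
      ((volume : Measure E).prod (volume : Measure E')) := m1.pow 2
  have e1 : ∀ x, ∫ y, (g x * F (x, y)) ^ 2 = g x ^ 2 * ∫ y, F (x, y) ^ 2 := fun x => by
    simp only [mul_pow]
    exact integral_const_mul _ _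
  have hle : ∀ᵐ x : E, ∫ y, (g x * F (x, y)) ^ 2 ≤ M * g x ^ 2 := hM.mono fun x hx => by
    rw [e1, mul_comm]
    exact mul_le_mul_of_nonneg_right hx (sq_nonneg _)
  have i1 : Integrable (fun p : E × E' => (g p.1 * F p) ^ 2)
      ((volume : Measure E).prod (volume : Measure E')) := by
    refine (integrable_prod_iff m2).2 ⟨?_, ?_⟩
    · filter_upwards [memLp_slice hF] with x hx
      exact (hx.const_mul (g x)).integrable_sq
    · refine (hg.integrable_sq.const_mul M).mono' m2.norm.integral_prod_right' ?_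
      filter_upwards [hle] with x hx
      rw [Real.norm_of_nonneg (integral_nonneg fun y => norm_nonneg _)]
      simpa only [Real.norm_eq_abs, abs_pow, sq_abs] using hx
  refine ⟨(memLp_two_iff_integrable_sq m1).2 i1, ?_⟩
  have e2 : ∫ p : E × E', (g p.1 * F p) ^ 2 = ∫ x, ∫ y, (g x * F (x, y)) ^ 2 := integral_prod _ i1
  rw [e2, ← integral_const_mul]
  exact integral_mono_ae i1.integral_prod_left (hg.integrable_sq.const_mul M) hle

theorem snb_L2to_mul {F : E × E' → ℝ} (hF : MemLp F 2 volume) {M : ℝ}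
    (hM : ∀ᵐ x : E, ∫ y, F (x, y) ^ 2 ≤ M) {g : E → ℝ} {G : ℕ → E → ℝ} (hg : MemLp g 2 volume)
    (hG : ∀ n, MemLp (G n) 2 volume) (h : L2to G g) :
    L2to (fun n (p : E × E') => G n p.1 * F p) fun p => g p.1 * F p := by
  have h1 := Tendsto.const_mul M h
  rw [mul_zero] at h1
  refine squeeze_zero (fun n => integral_nonneg fun x => sq_nonneg _) (fun n => ?_) h1
  simpa only [Pi.sub_apply, sub_mul] using (snb_mul hF hM ((hG n).sub hg)).2

theorem snb_L2to_bdd {f ψ : E → ℝ} (hf : MemLp f 2 volume) {φ : ℕ → E → ℝ} {K : ℝ}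
    (hm : ∀ n, AEStronglyMeasurable (φ n) volume) (hm' : AEStronglyMeasurable ψ volume)
    (hK : ∀ n x, |φ n x| ≤ K) (hK' : ∀ᵐ x : E, |ψ x| ≤ K)
    (h : ∀ᵐ x : E, Tendsto (fun n => φ n x) atTop (𝓝 (ψ x))) :
    L2to (fun n x => φ n x * f x) fun x => ψ x * f x := by
  have h1 := tendsto_integral_of_dominated_convergence (μ := (volume : Measure E))
    (F := fun n x => (φ n x * f x - ψ x * f x) ^ 2) (f := fun _ => 0)
    (fun x => (2 * K) ^ 2 * f x ^ 2) (fun n => (((hm n).mul hf.1).sub (hm'.mul hf.1)).pow 2)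
    (hf.integrable_sq.const_mul _) (fun n => hK'.mono fun x hx => by
      rw [Real.norm_of_nonneg (sq_nonneg _), ← sub_mul, mul_pow]
      refine mul_le_mul_of_nonneg_right (sq_le_sq' ?_ ?_) (sq_nonneg _)
      · linarith [abs_le.1 (hK n x), abs_le.1 hx]
      · linarith [abs_le.1 (hK n x), abs_le.1 hx])
    (h.mono fun x hx => by
      simpa using ((hx.mul_const (f x)).sub_const (ψ x * f x)).pow 2)
  simpa only [L2to, integral_zero] using h1

theorem snb_mul_fst {F : E × E' → ℝ} (h : H1 (pb b b') F) {M : ℝ}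
    (hM : ∀ᵐ x : E, ∫ y, F (x, y) ^ 2 ≤ M) {ψ : E → ℝ} (hψ : LT b ψ) :
    H1 (pb b b') (fun p => ψ p.1 * F p) ∧
    (∀ i, wd (pb b b' (.inl i)) (fun p => ψ p.1 * F p) =ᵐ[volume]
      fun p => wd (b i) ψ p.1 * F p + ψ p.1 * wd (pb b b' (.inl i)) F p) ∧
    ∀ j, wd (pb b b' (.inr j)) (fun p => ψ p.1 * F p) =ᵐ[volume]
      fun p => ψ p.1 * wd (pb b b' (.inr j)) F p := by
  obtain ⟨K, hK⟩ := hψ.bdd
  have h1 := hψ.h1
  obtain ⟨φ, t1, t2, t3, t4, t5, -⟩ := h1.approx
  have hK' := t5 K hK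
  have mφ : ∀ n, AEStronglyMeasurable (fun p : E × E' => φ n p.1) volume := fun n =>
    ((t1 n).cont.comp continuous_fst).aestronglyMeasurable
  have mψ : AEStronglyMeasurable (fun p : E × E' => ψ p.1) volume := snb_aesm_fst h1.1.1
  have l1 : ∀ {G : E × E' → ℝ}, MemLp G 2 volume → MemLp (fun p => ψ p.1 * G p) 2 volume :=
    fun hG => apx_memLp_mul hG mψ (snb_ae_fst hK)
  have l2 : ∀ {G : E × E' → ℝ}, MemLp G 2 volume → ∀ n, MemLp (fun p => φ n p.1 * G p) 2 volume :=
    fun hG n => apx_memLp_mul hG (mφ n) (.of_forall fun p => hK' n p.1)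
  have l3 : ∀ {G : E × E' → ℝ}, MemLp G 2 volume →
      L2to (fun n p => φ n p.1 * G p) fun p => ψ p.1 * G p := fun hG =>
    snb_L2to_bdd hG mφ mψ (fun n p => hK' n p.1) (snb_ae_fst hK) (snb_ae_fst t4)
  have cd : ∀ n, ContDiff ℝ 1 fun p : E × E' => φ n p.1 := fun n => (t1 n).1.comp contDiff_fst
  have fd : ∀ n (p v : E × E'),
      fderiv ℝ (fun p : E × E' => φ n p.1) p v = fderiv ℝ (φ n) p.1 v.1 := fun n p v => by
    have a1 : HasFDerivAt (fun p : E × E' => φ n p.1) _ p :=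
      ((t1 n).1.differentiable one_ne_zero p.1).hasFDerivAt.comp p hasFDerivAt_fst
    rw [a1.fderiv]
    rfl
  have w1 : ∀ i, WD (pb b b' (.inl i)) (fun p => ψ p.1 * F p)
      fun p => ψ p.1 * wd (pb b b' (.inl i)) F p + wd (b i) ψ p.1 * F p := fun i => by
    refine WD.of_L2to (F := fun n p => φ n p.1 * F p)
      (G := fun n p => φ n p.1 * wd (pb b b' (.inl i)) F p + fderiv ℝ (φ n) p.1 (b i) * F p)
      (fun n => ?_) (l2 h.1)
      (fun n => (l2 (h.2 _).2 n).add (snb_mul h.1 hM ((t1 n).memLp_d _)).1) (l1 h.1)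
      ((l1 (h.2 _).2).add (snb_mul h.1 hM (h1.2 i).2).1) (l3 h.1)
      (L2to.add (l2 (h.2 _).2) (fun n => (snb_mul h.1 hM ((t1 n).memLp_d _)).1) (l1 (h.2 _).2)
        (snb_mul h.1 hM (h1.2 i).2).1 (l3 (h.2 _).2)
        (snb_L2to_mul h.1 hM (h1.2 i).2 (fun n => (t1 n).memLp_d _) (t3 i)))
    simpa only [fd, pb, Sum.elim_inl] using (h.2 (.inl i)).1.mul_contDiff (cd n)
  have w2 : ∀ j, WD (pb b b' (.inr j)) (fun p => ψ p.1 * F p)
      fun p => ψ p.1 * wd (pb b b' (.inr j)) F p := fun j => by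
    refine WD.of_L2to (F := fun n p => φ n p.1 * F p)
      (G := fun n p => φ n p.1 * wd (pb b b' (.inr j)) F p) (fun n => ?_) (l2 h.1)
      (l2 (h.2 _).2) (l1 h.1) (l1 (h.2 _).2) (l3 h.1) (l3 (h.2 _).2)
    simpa only [fd, pb, Sum.elim_inr, map_zero, zero_mul, add_zero]
      using (h.2 (.inr j)).1.mul_contDiff (cd n)
  refine ⟨⟨l1 h.1, fun k => ?_⟩, fun i => (w1 i).wd_ae.trans (.of_forall fun p => add_comm _ _),
    fun j => (w2 j).wd_ae⟩
  rcases k with i | j
  · exact ⟨(w1 i).wd,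
      (memLp_congr_ae (w1 i).wd_ae).2 ((l1 (h.2 _).2).add (snb_mul h.1 hM (h1.2 i).2).1)⟩
  · exact ⟨(w2 j).wd, (memLp_congr_ae (w2 j).wd_ae).2 (l1 (h.2 _).2)⟩

/-- The form tested with a tensor product. -/
theorem snb_qf_tensor {F U : E × E' → ℝ} {Ψ : E' → ℝ} (hF : H1 (pb b b') F) (hΨ : H1 b' Ψ)
    (hU : Pot (pb b b') U) {φ : E → ℝ} (hφ : H1 b φ) :
    (Integrable fun x => φ x * qf b' (fun y => U (x, y)) (fun y => F (x, y)) Ψ) ∧
    qf (pb b b') U F (fun p => φ p.1 * Ψ p.2) = dir b (fun x => ∫ y, Ψ y * F (x, y)) φ / 2 +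
      ∫ x, φ x * qf b' (fun y => U (x, y)) (fun y => F (x, y)) Ψ := by
  obtain ⟨hT, d1, -⟩ := hφ.tensor hΨ
  obtain ⟨i1, e1⟩ := hF.dir_pb hT
  obtain ⟨hd, d2⟩ := H1.partial hΨ.1 hF
  have e2 : ∀ x, dir b' (fun y => F (x, y)) (fun y => φ x * Ψ y) =
      φ x * dir b' (fun y => F (x, y)) Ψ := fun x => by
    rw [dir_comm, hΨ.hl.dir_const_mul_left, dir_comm]
  obtain ⟨C, hC⟩ := hU.2
  have i2 : Integrable (fun p : E × E' => U p * F p * (φ p.1 * Ψ p.2))
      ((volume : Measure E).prod (volume : Measure E')) := (hC F hF).1.integrable_mul hT.1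
  have e3 : ∀ x, ∫ y, U (x, y) * F (x, y) * (φ x * Ψ y) =
      φ x * ∫ y, U (x, y) * F (x, y) * Ψ y := fun x => by
    rw [← integral_const_mul]
    exact integral_congr_ae (.of_forall fun y => by ring)
  have i3 : Integrable fun x => φ x * ∫ y, U (x, y) * F (x, y) * Ψ y :=
    i2.integral_prod_left.congr (.of_forall e3)
  have e4 : ∫ p : E × E', U p * F p * (φ p.1 * Ψ p.2) =
      ∫ x, ∫ y, U (x, y) * F (x, y) * (φ x * Ψ y) := integral_prod _ i2
  have e5 : dirx b b' F (fun p => φ p.1 * Ψ p.2) = dir b (fun x => ∫ y, Ψ y * F (x, y)) φ := by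
    rw [hd.dir_eq_sum hφ, dirx]
    refine Finset.sum_congr rfl fun i _ => ?_
    have a1 := (memLp_partial hΨ.1 (hF.2 (.inl i)).2).2.1 _ (hφ.2 i).2
    calc _ = ip (fun p : E × E' => wd (b i) φ p.1 * Ψ p.2) (wd (pb b b' (.inl i)) F) :=
          integral_congr_ae ((d1 i).mono fun p hp => by
            simp only [hp]
            exact mul_comm _ _)
      _ = _ := a1.symm.trans
          (integral_congr_ae ((d2 i).mono fun x hx => by simp only [hx, mul_comm]))
  simp only [e2] at i1 e1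
  simp only [qf, mul_add, ← mul_div_assoc]
  refine ⟨(i1.div_const 2).add i3, ?_⟩
  rw [integral_add (i1.div_const 2) i3, integral_div, e1, e4, e5]
  simp only [e3]
  ring

theorem snb_chan_eq {κ : Type} [Fintype κ] {F : κ → E × E' → ℝ} {Ψ : κ → E' → ℝ}
    {U : E × E' → ℝ} (hF : ∀ j, H1 (pb b b') (F j)) (hΨ : ∀ j, H1 b' (Ψ j))
    (hU : Pot (pb b b') U) {lam : ℝ}
    (heq : ∀ j φ, H1 (pb b b') φ → qf (pb b b') U (F j) φ = lam * ip (F j) φ) {a s : E → ℝ}
    {S : Set E} (hS : MeasurableSet S) (ha : LI S a) (hs : LI S s) {M : ℝ}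
    (hM : ∀ᵐ x : E, |∑ j, ∫ y, Ψ j y * F j (x, y)| ≤ M)
    (hlow : ∀ᵐ x : E, x ∈ S → (a x + 2 * lam) * (∑ j, ∫ y, Ψ j y * F j (x, y)) - s x ≤
      2 * ∑ j, qf b' (fun y => U (x, y)) (fun y => F j (x, y)) (Ψ j)) :
    Sub b S (fun x => ∑ j, ∫ y, Ψ j y * F j (x, y)) a s := by
  intro φ hφ h0 hS0
  have h1 := hφ.h1
  have hd : ∀ j, H1 b fun x => ∫ y, Ψ j y * F j (x, y) := fun j => (H1.partial (hΨ j).1 (hF j)).1
  have hD := H1.sum Finset.univ fun j _ => hd j
  have q := fun j => snb_qf_tensor (hF j) (hΨ j) hU h1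
  have e1 : ∀ j, dir b (fun x => ∫ y, Ψ j y * F j (x, y)) φ / 2 +
      ∫ x, φ x * qf b' (fun y => U (x, y)) (fun y => F j (x, y)) (Ψ j) =
      lam * ip φ fun x => ∫ y, Ψ j y * F j (x, y) := fun j => by
    rw [← (q j).2, heq j _ (h1.tensor (hΨ j)).1, (memLp_partial (hΨ j).1 (hF j).1).2.1 φ h1.1]
    simp only [ip, mul_comm]
  have e2 : dir b (fun x => ∑ j, ∫ y, Ψ j y * F j (x, y)) φ =
      ∑ j, dir b (fun x => ∫ y, Ψ j y * F j (x, y)) φ := by
    simp only [dir]
    rw [← integral_finsetSum _ fun j _ => (hd j).integrable_dot h1]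
    refine integral_congr_ae ?_
    filter_upwards [ae_all_iff.2 fun i => HL.wd_sum Finset.univ (fun j _ => (hd j).hl) i] with x hx
    simp only [dot, hx, Finset.sum_mul]
    exact Finset.sum_comm
  have i0 : ∀ j, Integrable fun x => φ x * ∫ y, Ψ j y * F j (x, y) := fun j =>
    h1.1.integrable_mul (hd j).1
  have e3 := Finset.sum_congr (s₁ := Finset.univ) rfl fun j _ => e1 j
  simp only [ip] at e3
  rw [Finset.sum_add_distrib, ← Finset.sum_div, ← e2, ← Finset.mul_sum,
    ← integral_finsetSum _ fun j _ => (q j).1, ← integral_finsetSum _ fun j _ => i0 j] at e3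
  have i1 := ha.integrable_mul hS hD.1.1 (fun R => ⟨M, hM.mono fun x hx _ => hx⟩) hφ hS0
  have i2 : Integrable fun x => s x * φ x := by
    simpa only [mul_one] using
      hs.integrable_mul hS (f := fun _ => 1) aestronglyMeasurable_const (.const 1) hφ hS0
  have i3 := (integrable_finsetSum Finset.univ fun j _ => i0 j).const_mul (2 * lam)
  have i4 := (integrable_finsetSum Finset.univ fun j _ => (q j).1).const_mul 2
  have i5 : Integrable fun x => a x * (∑ j, ∫ y, Ψ j y * F j (x, y)) * φ x +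
      2 * lam * ∑ j, φ x * ∫ y, Ψ j y * F j (x, y) := i1.add i3
  have k := integral_mono_ae (i5.sub i2) i4 (by
    filter_upwards [hlow, h0, hS0] with x a1 a2 a3
    simp only [Pi.sub_apply, ← Finset.mul_sum]
    by_cases hx : x ∈ S
    · have a4 := mul_le_mul_of_nonneg_left (a1 hx) a2
      linarith
    · simp only [a3 hx, mul_zero, zero_mul, add_zero, sub_zero, le_refl])
  simp only [Pi.sub_apply] at k
  rw [integral_sub i5 i2, integral_add i1 i3, integral_const_mul, integral_const_mul] at k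
  linarith

theorem snb_strip {κ : Type} [Fintype κ] {F : κ → X × E' → ℝ} (h : ∀ j, H1 (pb eX b') (F j))
    (ho : ∀ j, ∀ᵐ p : X × E', F j (rf p.1, p.2) = -F j p) :
    Strip fun x => √(∑ j, ∫ y, F j (x, y) ^ 2) := by
  obtain ⟨L, σ, s, hL, hmp, -⟩ := sym_rf.ex
  let T : (X × E') ≃L[ℝ] X × E' := L.prodCongr (ContinuousLinearEquiv.refl ℝ E')
  have hT : ∀ p : X × E', (T : X × E' →L[ℝ] X × E') p = (rf p.1, p.2) := fun p => by
    rw [← hL]
    rfl
  have hTm : MeasurePreserving (T : X × E' →L[ℝ] X × E') volume volume :=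
    hmp.prod (MeasurePreserving.id (volume : Measure E'))
  let ℓ : X × E' →L[ℝ] ℝ := (EuclideanSpace.proj (2 : Fin 3) : X →L[ℝ] ℝ).comp (.fst ℝ X E')
  have hℓ : ∀ p : X × E', ℓ p = p.1 2 := fun p => rfl
  have key := fun j (t : ℝ) (ht : 0 < t) => (h j).slab_odd (ℓ := ℓ) (i := .inl 2)
    (by simp [hℓ, pb, eX]) hTm (by
      rw [hT]
      refine Prod.ext ?_ neg_zero.symm
      ext c
      fin_cases c <;> simp [rf, pb, eX])
    (fun p hp => by
      rw [hT]
      refine Prod.ext ?_ rfl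
      ext c
      rw [hℓ] at hp
      fin_cases c <;> simp [rf, hp])
    (fun φ hφ => hφ.comp_homeomorph T.toHomeomorph)
    ((ho j).mono fun p hp => by rw [hT, hp]) ht
  have lim := tendsto_finsetSum Finset.univ fun j _ => slab_tendsto_zero ℓ
    (((h j).2 (.inl 2)).2.add (((h j).2 (.inl 2)).2.comp_measurePreserving hTm)).integrable_sq
  rw [Finset.sum_const_zero] at lim
  intro R ε hε
  obtain ⟨t0, ht0, h1⟩ := mem_nhdsGT_iff_exists_Ioc_subset.1 (lim.eventually (ge_mem_nhds hε))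
  refine ⟨t0, ht0, fun t ht ht' => ?_⟩
  have h2 : ∑ j, ∫ p in slab ℓ t, (wd (pb eX b' (.inl 2)) (F j) p +
      wd (pb eX b' (.inl 2)) (F j) ((T : X × E' →L[ℝ] X × E') p)) ^ 2 ≤ ε := h1 ⟨ht, ht'⟩
  have i1 : ∀ j, Integrable (fun p => F j p ^ 2)
      ((volume : Measure X).prod (volume : Measure E')) := fun j => (h j).1.integrable_sq
  have e1 : ∀ j, ∫ p in slab ℓ t, F j p ^ 2 =
      ∫ x in {x : X | 0 < x 2 ∧ x 2 < t}, ∫ y, F j (x, y) ^ 2 := fun j => by
    have a1 : slab ℓ t = {x : X | 0 < x 2 ∧ x 2 < t} ×ˢ (univ : Set E') := by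
      ext p
      simp [slab, hℓ]
    have a2 := setIntegral_prod (s := {x : X | 0 < x 2 ∧ x 2 < t}) (t := univ) _
      (i1 j).integrableOn
    rw [Measure.restrict_univ] at a2
    rw [a1]
    exact a2
  have p1 : ∀ x : X, 0 ≤ ∑ j, ∫ y, F j (x, y) ^ 2 := fun x =>
    Finset.sum_nonneg fun j _ => integral_nonneg fun y => sq_nonneg _
  simp only [Real.sq_sqrt (p1 _)]
  calc _ ≤ ∫ x in {x : X | 0 < x 2 ∧ x 2 < t}, ∑ j, ∫ y, F j (x, y) ^ 2 :=
        setIntegral_mono_set
          (integrable_finsetSum _ fun j _ => (i1 j).integral_prod_left).integrableOn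
          (.of_forall p1) (LE.le.eventuallyLE fun x hx => ⟨hx.1, hx.2.1⟩)
    _ = ∑ j, ∫ p in slab ℓ t, F j p ^ 2 := by
        simp only [e1]
        exact integral_finsetSum _ fun j _ => (i1 j).integral_prod_left.integrableOn
    _ ≤ _ := by
        refine (Finset.sum_le_sum fun j _ => key j t ht).trans ?_
        rw [← Finset.mul_sum, mul_comm]
        exact mul_le_mul_of_nonneg_right h2 (sq_nonneg _)

end Crest.Agent.R335
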