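/-
R335/T/SNorm: the norm of the slices; multipliers that depend on the first variable
Skeleton by helper48 (row 335); keep the statements unchanged, add any helper lemmas you like.
-/
import Crest.Agent.R335.T.Slice
import Crest.Agent.R335.T.Pos
import Crest.Agent.R335.T.Cov
import Crest.Agent.R335.T.SNormB

set_option autoImplicit false
set_option linter.unusedSectionVars false
set_option linter.unusedVariables false
set_option linter.unusedSimpArgs false

noncomputable section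

namespace Crest.Agent.R335

open MeasureTheory Set Filter Topology Metric
open scoped ENNReal

variable {E : Type} [NormedAddCommGroup E] [NormedSpace ℝ E] [FiniteDimensional ℝ E]
  [MeasureSpace E] [BorelSpace E] [(volume : Measure E).IsAddHaarMeasure]
  {ι : Type} [Fintype ι] {b : ι → E}
  {E' : Type} [NormedAddCommGroup E'] [NormedSpace ℝ E'] [FiniteDimensional ℝ E']
  [MeasureSpace E'] [BorelSpace E'] [(volume : Measure E').IsAddHaarMeasure]
  {ι' : Type} [Fintype ι'] {b' : ι' → E'}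

/-- The norm of the slices of a finite family. -/
def snm {κ : Type} [Fintype κ] (F : κ → E × E' → ℝ) (x : E) : ℝ := √(∑ j, ∫ y, F j (x, y) ^ 2)

/-- `L¹` convergence of the mollified function (Scheffé). -/
theorem snorm_a_L1 {g : E → ℝ} (hg : Integrable g) : (∀ n, Integrable (mol n g)) ∧
    Tendsto (fun n => ∫ x, |mol n g x - g x|) atTop (𝓝 0) := by
  have i0 : ∀ n, Integrable ((molB E n).normed volume) volume := fun n => (molB E n).integrable_normed
  have i1 : ∀ n, Integrable (mol n g) := fun n => (i0 n).integrable_convolution (ContinuousLinearMap.lsmul ℝ ℝ) hg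
  have hle : ∀ n, ∫ x, |mol n g x| ≤ ∫ x, |g x| := fun n => by
    have hI := integral_convolution (ContinuousLinearMap.lsmul ℝ ℝ) (i0 n) hg.abs
    rw [(molB E n).integral_normed] at hI
    simp only [ContinuousLinearMap.lsmul_apply, one_smul] at hI
    refine (integral_mono (i1 n).abs ((i0 n).integrable_convolution (ContinuousLinearMap.lsmul ℝ ℝ) hg.abs)
      fun x => ?_).trans hI.le
    show |mol n g x| ≤ mol n (fun x => |g x|) x
    rw [mol_eq, mol_eq]
    refine abs_integral_le_integral_abs.trans (le_of_eq ?_)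
    simp only [abs_mul, abs_of_nonneg ((molB E n).nonneg_normed _)]
  have i2 : ∀ n, Integrable fun x => |mol n g x - g x| := fun n => ((i1 n).sub hg).abs
  have h1 : Tendsto (fun n => ∫ x, (|mol n g x - g x| - |mol n g x| + |g x|)) atTop (𝓝 (∫ x : E, (0 : ℝ))) := by
    refine tendsto_integral_of_dominated_convergence (fun x => 2 * |g x|)
      (fun n => (((i2 n).sub (i1 n).abs).add hg.abs).1) (hg.abs.const_mul 2) (fun n => .of_forall fun x => ?_)
      ((mol_tendsto hg.locallyIntegrable).mono fun x hx => ?_)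
    · have a1 := abs_sub (mol n g x) (g x)
      have a2 := abs_sub_abs_le_abs_sub (mol n g x) (g x)
      rw [Real.norm_of_nonneg (by linarith)]
      linarith
    · simpa using ((hx.sub_const (g x)).abs.sub hx.abs).add_const |g x|
  rw [integral_zero] at h1
  refine ⟨i1, squeeze_zero (fun n => integral_nonneg fun x => abs_nonneg _) (fun n => ?_) h1⟩
  have i3 : Integrable fun x => |mol n g x - g x| - |mol n g x| := (i2 n).sub (i1 n).abs
  rw [integral_add i3 hg.abs, integral_sub (i2 n) (i1 n).abs]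
  linarith [hle n]

theorem snorm_a_lim {g a' : E → ℝ} (hg : Integrable g) {a : ℕ → E → ℝ} {C : ℝ} (ha : ∀ n, Continuous (a n))
    (h1 : ∀ n x, |a n x| ≤ C) (h2 : ∀ᵐ x : E, Tendsto (fun n => a n x) atTop (𝓝 (a' x))) :
    LocallyIntegrable (fun x => a' x * g x) volume ∧ ∀ R : ℝ,
      Tendsto (fun n => ∫ x in closedBall (0 : E) R, |a n x * mol n g x - a' x * g x|) atTop (𝓝 0) := by
  obtain ⟨i1, t1⟩ := snorm_a_L1 hg
  have hm : AEStronglyMeasurable a' volume :=
    aestronglyMeasurable_of_tendsto_ae atTop (fun n => (ha n).aestronglyMeasurable) h2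
  have hb : ∀ᵐ x : E, |a' x| ≤ C := h2.mono fun x hx => le_of_tendsto' hx.abs fun n => h1 n x
  have i2 : Integrable fun x => a' x * g x := hg.bdd_mul hm hb
  have i3 : ∀ n, Integrable fun x => a n x * g x := fun n =>
    hg.bdd_mul (ha n).aestronglyMeasurable (.of_forall (h1 n))
  have i4 : ∀ n, Integrable fun x => |a n x * g x - a' x * g x| := fun n => ((i3 n).sub i2).abs
  have i5 : ∀ n, Integrable fun x => |a n x * mol n g x - a' x * g x| := fun n =>
    (((i1 n).bdd_mul (ha n).aestronglyMeasurable (.of_forall (h1 n))).sub i2).abs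
  have i6 : ∀ n, Integrable fun x => C * |mol n g x - g x| := fun n => ((i1 n).sub hg).abs.const_mul C
  have t2 : Tendsto (fun n => ∫ x, |a n x * g x - a' x * g x|) atTop (𝓝 (∫ x : E, (0 : ℝ))) := by
    refine tendsto_integral_of_dominated_convergence (fun x => 2 * C * |g x|) (fun n => (i4 n).1)
      (hg.abs.const_mul _) (fun n => hb.mono fun x hx => ?_) (h2.mono fun x hx => ?_)
    · rw [Real.norm_of_nonneg (abs_nonneg _), ← sub_mul, abs_mul]
      exact mul_le_mul_of_nonneg_right ((abs_sub _ _).trans (by linarith [h1 n x])) (abs_nonneg _)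
    · simpa using ((hx.mul_const (g x)).sub_const (a' x * g x)).abs
  have t3 := (t1.const_mul C).add t2
  rw [integral_zero, mul_zero, add_zero] at t3
  refine ⟨i2.locallyIntegrable, fun R => squeeze_zero (fun n => integral_nonneg fun x => abs_nonneg _)
    (fun n => (setIntegral_le_integral (i5 n) (.of_forall fun x => abs_nonneg _)).trans ?_) t3⟩
  rw [← integral_const_mul, ← integral_add (i6 n) (i4 n)]
  refine integral_mono (i5 n) ((i6 n).add (i4 n)) fun x => ?_
  have e : a n x * mol n g x - a' x * g x = a n x * (mol n g x - g x) + (a n x * g x - a' x * g x) := by ring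
  show |_| ≤ C * _ + _
  rw [e]
  refine (abs_add_le _ _).trans (add_le_add ?_ le_rfl)
  rw [abs_mul]
  exact mul_le_mul_of_nonneg_right (h1 n x) (abs_nonneg _)

/-- The chain rule in `W^{1,1}` for the regularised square root. -/
theorem snorm_a_chain {v : E} {S A : E → ℝ} (h : WD v S fun x => 2 * A x) (hS : Integrable S) (hA : Integrable A)
    (h0 : ∀ x, 0 ≤ S x) {ε : ℝ} (hε : 0 < ε) :
    WD v (fun x => √(S x + ε ^ 2) - ε) fun x => A x / √(S x + ε ^ 2) := by
  have hc : ∀ n, ContDiff ℝ 1 (mol n S) := fun n => (mol_contDiff h.1 n).of_le one_le_two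
  have m0 : ∀ n x, 0 ≤ mol n S x := mol_nonneg (.of_forall h0)
  have hs : ∀ s : ℝ, 0 ≤ s → ε ≤ √(s + ε ^ 2) := fun s hs => Real.le_sqrt_of_sq_le (by linarith)
  have e1 : ∀ s : ℝ, 0 ≤ s → √(s + ε ^ 2) - ε = (√(s + ε ^ 2) + ε)⁻¹ * s := fun s h => by
    have := Real.mul_self_sqrt (by positivity : 0 ≤ s + ε ^ 2)
    rw [eq_inv_mul_iff_mul_eq₀ (by positivity)]
    linarith
  have t := mol_tendsto h.1
  have c : ∀ n, Continuous fun x => √(mol n S x + ε ^ 2) := fun n => ((hc n).continuous.add continuous_const).sqrt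
  obtain ⟨l1, t1⟩ := snorm_a_lim hS (a := fun n x => (√(mol n S x + ε ^ 2) + ε)⁻¹)
    (a' := fun x => (√(S x + ε ^ 2) + ε)⁻¹) (C := ε⁻¹)
    (fun n => ((c n).add continuous_const).inv₀ fun x => (add_pos_of_nonneg_of_pos (Real.sqrt_nonneg _) hε).ne')
    (fun n x => by
      rw [abs_of_nonneg (by positivity)]
      exact inv_anti₀ hε (by linarith [hs _ (m0 n x)]))
    (t.mono fun x hx => ((hx.add_const _).sqrt.add_const _).inv₀ (by positivity))
  obtain ⟨l2, t2⟩ := snorm_a_lim (hA.const_mul 2) (a := fun n x => 1 / (2 * √(mol n S x + ε ^ 2)))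
    (a' := fun x => 1 / (2 * √(S x + ε ^ 2))) (C := 1 / ε)
    (fun n => continuous_const.div (continuous_const.mul (c n)) fun x => by linarith [hs _ (m0 n x)])
    (fun n x => by
      rw [abs_of_nonneg (by positivity)]
      exact one_div_le_one_div_of_le hε (by linarith [hs _ (m0 n x)]))
    (t.mono fun x hx => tendsto_const_nhds.div ((hx.add_const _).sqrt.const_mul _) (by linarith [hs _ (h0 x)]))
  refine (WD.of_tendsto (fun n => ?_) l1 l2 t1 t2).congr (.of_forall fun x => (e1 _ (h0 x)).symm)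
    (.of_forall fun x => by ring)
  have hp : ∀ x, mol n S x + ε ^ 2 ≠ 0 := fun x => by have := m0 n x; positivity
  refine (WD.of_contDiff v ((((hc n).add contDiff_const).sqrt hp).sub (contDiff_const (c := ε)))).congr
    (.of_forall fun x => e1 _ (m0 n x)) (.of_forall fun x => ?_)
  have d := (((((hc n).differentiable one_ne_zero) x).hasFDerivAt.add_const (ε ^ 2)).sqrt (hp x)).sub_const ε
  simp only [d.fderiv, smul_apply, smul_eq_mul, h.fderiv_mol]

theorem snorm_a_nn {κ : Type} [Fintype κ] (F : κ → E × E' → ℝ) (x : E) : 0 ≤ ∑ j, ∫ y, F j (x, y) ^ 2 :=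
  Finset.sum_nonneg fun j _ => integral_nonneg fun y => sq_nonneg _

theorem snorm_a_int {κ : Type} [Fintype κ] {F G : κ → E × E' → ℝ} (h : ∀ j, MemLp (F j) 2 volume)
    (h' : ∀ j, MemLp (G j) 2 volume) : Integrable fun x => ∑ j, ∫ y, F j (x, y) * G j (x, y) :=
  integrable_finsetSum _ fun j _ => (ip_prod (h j) (h' j)).1

theorem snorm_a_ip {κ : Type} [Fintype κ] {F : κ → E × E' → ℝ} (h : ∀ j, MemLp (F j) 2 volume) :
    MemLp (snm F) 2 volume ∧ ip (snm F) (snm F) = ∑ j, ip (F j) (F j) := by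
  have i1 := snorm_a_int h h
  simp only [← sq] at i1
  refine ⟨(memLp_two_iff_integrable_sq (Real.continuous_sqrt.comp_aestronglyMeasurable i1.1)).2 ?_, ?_⟩
  · simpa only [Real.sq_sqrt (snorm_a_nn F _)] using i1
  · simp only [fun j => (ip_prod (h j) (h j)).2]
    rw [← integral_finsetSum _ fun j _ => (ip_prod (h j) (h j)).1]
    simp only [ip, snm, Real.mul_self_sqrt (snorm_a_nn F _), ← sq]

theorem snorm_a_cs {κ : Type} [Fintype κ] {F G : κ → E × E' → ℝ} (h : ∀ j, MemLp (F j) 2 volume)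
    (h' : ∀ j, MemLp (G j) 2 volume) : ∀ᵐ x : E, |∑ j, ∫ y, F j (x, y) * G j (x, y)| ≤ snm F x * snm G x := by
  filter_upwards [ae_all_iff.2 fun j => memLp_slice (h j), ae_all_iff.2 fun j => memLp_slice (h' j)] with x h1 h2
  refine (Finset.abs_sum_le_sum_abs _ _).trans (le_trans (Finset.sum_le_sum fun j _ => ?_)
    (Real.sum_sqrt_mul_sqrt_le _ (fun j => integral_nonneg fun y => sq_nonneg (F j (x, y)))
      fun j => integral_nonneg fun y => sq_nonneg (G j (x, y))))
  have := ip_sq_le (h1 j) (h2 j)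
  simp only [ip, ← sq] at this
  rw [← Real.sqrt_mul (integral_nonneg fun y => sq_nonneg _)]
  exact Real.abs_le_sqrt this

/-- Recipe: `H1.approx_fam`; `√(∑ ∫ φ n² + ε²) - ε` is `C¹` of compact support and converges in
`H¹` (pass to a subsequence along which the slices converge for a.e. `x`); then `ε → 0`. -/
theorem H1.snm {κ : Type} [Fintype κ] {F : κ → E × E' → ℝ} (h : ∀ j, H1 (pb b b') (F j)) :
    H1 b (snm F) ∧ (∀ i, wd (b i) (R335.snm F) =ᵐ[volume] fun x =>
      (∑ j, ∫ y, F j (x, y) * wd (pb b b' (.inl i)) (F j) (x, y)) / R335.snm F x) ∧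
    dir b (R335.snm F) (R335.snm F) ≤ ∑ j, dirx b b' (F j) (F j) := by
  have hF := fun j => (h j).1
  have hG := fun i j => ((h j).2 (.inl i)).2
  have quo : ∀ {A N G M : ℝ}, |A| ≤ N * G → 0 ≤ N → 0 ≤ G → N ≤ M → |A / M| ≤ G := fun {A N G M} h1 h2 h3 h4 => by
    rw [abs_div, abs_of_nonneg (h2.trans h4)]
    exact div_le_of_le_mul₀ (h2.trans h4) h3 (h1.trans (by rw [mul_comm]; gcongr))
  have key : ∀ i, WD (b i) (R335.snm F) fun x =>
      (∑ j, ∫ y, F j (x, y) * wd (pb b b' (.inl i)) (F j) (x, y)) / R335.snm F x := fun i => by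
    have cs := snorm_a_cs hF (hG i)
    have i1 := snorm_a_int hF hF
    simp only [← sq] at i1
    have w := WD.sum Finset.univ fun j _ => (h j).wd_bracket (h j) i
    simp only [← sq, mul_comm (wd _ _ _), ← two_mul, integral_const_mul, ← Finset.mul_sum] at w
    refine WD.of_dominated (fun n => snorm_a_chain w i1 (snorm_a_int hF (hG i)) (snorm_a_nn F) (pos_eps_pos n))
      ((snorm_a_ip hF).1.locallyIntegrable one_le_two) ((snorm_a_ip (hG i)).1.locallyIntegrable one_le_two)
      (fun n => .of_forall fun x => ?_) (fun n => cs.mono fun x hx => ?_) (.of_forall fun x => ?_)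
      (cs.mono fun x hx => ?_)
    · have h0 := snorm_a_nn F x
      have hε := pos_eps_pos n
      rw [abs_of_nonneg (sub_nonneg.2 (Real.le_sqrt_of_sq_le (by linarith))), sub_le_iff_le_add, Real.sqrt_le_iff]
      have h1 : 0 ≤ R335.snm F x := Real.sqrt_nonneg _
      have h2 : R335.snm F x ^ 2 = _ := Real.sq_sqrt h0
      exact ⟨by positivity, by nlinarith⟩
    · exact quo hx (Real.sqrt_nonneg _) (Real.sqrt_nonneg _)
        (Real.sqrt_le_sqrt (le_add_of_nonneg_right (sq_nonneg _)))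
    · have hc : Continuous fun ε : ℝ => √((∑ j, ∫ y, F j (x, y) ^ 2) + ε ^ 2) - ε := by fun_prop
      have := (hc.tendsto 0).comp pos_eps
      simpa [Function.comp_def, R335.snm] using this
    · rcases (show 0 ≤ R335.snm F x from Real.sqrt_nonneg _).eq_or_lt with h0 | h0
      · rw [← h0, zero_mul, abs_nonpos_iff] at hx
        simp [hx]
      · have hc : ContinuousAt (fun ε : ℝ => (∑ j, ∫ y, F j (x, y) * wd (pb b b' (.inl i)) (F j) (x, y)) /
            √((∑ j, ∫ y, F j (x, y) ^ 2) + ε ^ 2)) 0 :=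
          ContinuousAt.div (by fun_prop) (by fun_prop) (by simpa [R335.snm] using h0.ne')
        have := hc.tendsto.comp pos_eps
        simpa [Function.comp_def, R335.snm] using this
  have bd : ∀ i, ∀ᵐ x : E, |(∑ j, ∫ y, F j (x, y) * wd (pb b b' (.inl i)) (F j) (x, y)) / R335.snm F x| ≤
      R335.snm (fun j => wd (pb b b' (.inl i)) (F j)) x := fun i => (snorm_a_cs hF (hG i)).mono fun x hx =>
    quo hx (Real.sqrt_nonneg _) (Real.sqrt_nonneg _) le_rfl
  have H : H1 b (R335.snm F) := H1.of_wd (snorm_a_ip hF).1 fun i => ⟨key i, (snorm_a_ip (hG i)).1.of_le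
    (key i).2.1.aestronglyMeasurable ((bd i).mono fun x hx => hx.trans (le_abs_self _))⟩
  refine ⟨H, fun i => (key i).wd_ae, ?_⟩
  rw [H.dir_eq_sum H]
  simp only [dirx]
  rw [Finset.sum_comm]
  refine Finset.sum_le_sum fun i _ => ?_
  rw [← (snorm_a_ip (hG i)).2]
  refine integral_mono_ae ((H.2 i).2.integrable_mul (H.2 i).2)
    ((snorm_a_ip (hG i)).1.integrable_mul (snorm_a_ip (hG i)).1) ?_
  filter_upwards [bd i, (key i).wd_ae] with x h1 h2
  rw [← h2] at h1
  exact (abs_mul_abs_self _).symm.trans_le (mul_self_le_mul_self (abs_nonneg _) h1)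

theorem ip_snm {κ : Type} [Fintype κ] {F : κ → E × E' → ℝ} (h : ∀ j, MemLp (F j) 2 volume) :
    MemLp (snm F) 2 volume ∧ ip (snm F) (snm F) = ∑ j, ip (F j) (F j) := by
  exact snorm_a_ip h

/-- Recipe: approximate `ψ` by bounded test functions (`H1.approx`). -/
theorem H1.mul_fst {F : E × E' → ℝ} (h : H1 (pb b b') F) {M : ℝ}
    (hM : ∀ᵐ x : E, ∫ y, F (x, y) ^ 2 ≤ M) {ψ : E → ℝ} (hψ : LT b ψ) :
    H1 (pb b b') (fun p => ψ p.1 * F p) ∧
    (∀ i, wd (pb b b' (.inl i)) (fun p => ψ p.1 * F p) =ᵐ[volume]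
      fun p => wd (b i) ψ p.1 * F p + ψ p.1 * wd (pb b b' (.inl i)) F p) ∧
    ∀ j, wd (pb b b' (.inr j)) (fun p => ψ p.1 * F p) =ᵐ[volume]
      fun p => ψ p.1 * wd (pb b b' (.inr j)) F p := by
  exact snb_mul_fst h hM hψ

/-- The form of the equation, slice by slice. -/
def snormK (b : ι → E) (b' : ι' → E') (U F G : E × E' → ℝ) (lam : ℝ) (x : E) : ℝ :=
  (∑ i, ∫ y, wd (pb b b' (.inl i)) F (x, y) * wd (pb b b' (.inl i)) G (x, y)) +
    2 * qf b' (fun y => U (x, y)) (fun y => F (x, y)) (fun y => G (x, y)) -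
      2 * lam * ∫ y, F (x, y) * G (x, y)

theorem snormK_int {U F G : E × E' → ℝ} (hF : H1 (pb b b') F) (hG : H1 (pb b b') G)
    (hU : Pot (pb b b') U) {lam : ℝ} (heq : qf (pb b b') U F G = lam * ip F G) :
    Integrable (snormK b b' U F G lam) ∧ ∫ x, snormK b b' U F G lam x = 0 := by
  obtain ⟨-, C, hC⟩ := hU
  have e1 := fun i => ip_prod (hF.2 (.inl i)).2 (hG.2 (.inl i)).2
  have e2 := hF.dir_pb hG
  have e3 := ip_prod (hC F hF).1 hG.1
  have e4 := ip_prod hF.1 hG.1
  have i1 := integrable_finsetSum Finset.univ fun i _ => (e1 i).1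
  have i2 := ((e2.1.div_const 2).add e3.1).const_mul 2
  refine ⟨(i1.add i2).sub (e4.1.const_mul (2 * lam)), ?_⟩
  have e5 : ∫ x, snormK b b' U F G lam x = _ :=
    integral_sub (i1.add i2) (e4.1.const_mul (2 * lam))
  have e6 := integral_add i1 i2
  have e7 := integral_add (e2.1.div_const 2) e3.1
  have e8 := integral_finsetSum Finset.univ fun i _ => (e1 i).1
  have e9 : dirx b b' F G = _ := Finset.sum_congr rfl fun i _ => (e1 i).2
  have e10 : qf (pb b b') U F G = dir (pb b b') F G / 2 + ip (fun p => U p * F p) G := rfl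
  simp only [Pi.add_apply, integral_const_mul, integral_div, qf] at e5 e6 e7
  linarith [e2.2, e3.2, congrArg (lam * ·) e4.2]

theorem snormK_mul {U F Q : E × E' → ℝ} (hF : H1 (pb b b') F) (hQ : H1 (pb b b') Q) {M : ℝ}
    (hM : ∀ᵐ x : E, ∫ y, Q (x, y) ^ 2 ≤ M) {ψ : E → ℝ} (hψ : LT b ψ) (lam : ℝ) :
    ∀ᵐ x : E, snormK b b' U F (fun p => ψ p.1 * Q p) lam x =
      (∑ i, (wd (b i) ψ x * (∫ y, wd (pb b b' (.inl i)) F (x, y) * Q (x, y)) +
        ψ x * ∫ y, wd (pb b b' (.inl i)) F (x, y) * wd (pb b b' (.inl i)) Q (x, y))) +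
      ψ x * (2 * qf b' (fun y => U (x, y)) (fun y => F (x, y)) (fun y => Q (x, y)) -
        2 * lam * ∫ y, F (x, y) * Q (x, y)) := by
  have h := hQ.mul_fst hM hψ
  filter_upwards [ae_all_iff.2 fun i => Measure.ae_ae_of_ae_prod (h.2.1 i), hQ.slice_right,
    ae_all_iff.2 fun i => memLp_slice (hF.2 (.inl i)).2,
    ae_all_iff.2 fun i => memLp_slice (hQ.2 (.inl i)).2] with x k1 k2 k3 k4
  have e1 : ∀ i, ∫ y, wd (pb b b' (.inl i)) F (x, y) *
      wd (pb b b' (.inl i)) (fun p => ψ p.1 * Q p) (x, y) =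
      wd (b i) ψ x * (∫ y, wd (pb b b' (.inl i)) F (x, y) * Q (x, y)) +
        ψ x * ∫ y, wd (pb b b' (.inl i)) F (x, y) * wd (pb b b' (.inl i)) Q (x, y) := fun i => by
    rw [← integral_const_mul, ← integral_const_mul]
    refine (integral_congr_ae ?_).trans (integral_add
      (((k3 i).integrable_mul k2.1.1).const_mul _) (((k3 i).integrable_mul (k4 i)).const_mul _))
    filter_upwards [k1 i] with y hy
    simp only [hy, Pi.mul_apply]
    ring
  have e2 : dir b' (fun y => F (x, y)) (fun y => ψ x * Q (x, y)) =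
      ψ x * dir b' (fun y => F (x, y)) fun y => Q (x, y) := by
    rw [dir_comm, k2.1.hl.dir_const_mul_left, dir_comm]
  have e3 : ∫ y, U (x, y) * F (x, y) * (ψ x * Q (x, y)) =
      ψ x * ∫ y, U (x, y) * F (x, y) * Q (x, y) := by
    rw [← integral_const_mul]; congr 1; funext y; ring
  have e4 : ∫ y, F (x, y) * (ψ x * Q (x, y)) = ψ x * ∫ y, F (x, y) * Q (x, y) := by
    rw [← integral_const_mul]; congr 1; funext y; ring
  simp only [snormK, qf, e1, e2, e3, e4]
  ring

theorem snorm_sq {κ : Type} [Fintype κ] (Q : κ → E × E' → ℝ) (x : E) :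
    snm Q x ^ 2 = ∑ j, ∫ y, Q j (x, y) ^ 2 :=
  Real.sq_sqrt (Finset.sum_nonneg fun j _ => integral_nonneg fun y => sq_nonneg _)

theorem snorm_cs {κ : Type} [Fintype κ] {Q D : κ → E × E' → ℝ} {x : E}
    (hQ : ∀ j, MemLp (fun y => Q j (x, y)) 2 volume)
    (hD : ∀ j, MemLp (fun y => D j (x, y)) 2 volume) :
    (∑ j, ∫ y, Q j (x, y) * D j (x, y)) ^ 2 ≤ snm Q x ^ 2 * ∑ j, ∫ y, D j (x, y) ^ 2 := by
  rw [snorm_sq]
  refine Finset.sum_sq_le_sum_mul_sum_of_sq_le_mul _
    (fun j _ => integral_nonneg fun y => sq_nonneg _)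
    (fun j _ => integral_nonneg fun y => sq_nonneg _) fun j _ => ?_
  simpa only [ip, sq] using ip_sq_le (hQ j) (hD j)

theorem snorm_alg {N A B r p : ℝ} (hB : 0 ≤ B) (h : A ^ 2 ≤ N ^ 2 * B) (hr : 0 < r)
    (hN : N ^ 2 ≤ r ^ 2) (hp : 0 ≤ p) (d : ℝ) :
    N / r * (A / N * d) ≤ (-(N / r) / r ^ 2 * (A / N) * p + r⁻¹ * d) * A + r⁻¹ * p * B := by
  rcases eq_or_ne N 0 with rfl | h0
  · obtain rfl : A = 0 := by simpa using h
    simpa using mul_nonneg (mul_nonneg (inv_nonneg.2 hr.le) hp) hB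
  · have e : (-(N / r) / r ^ 2 * (A / N) * p + r⁻¹ * d) * A + r⁻¹ * p * B - N / r * (A / N * d) =
        p * (r ^ 2 * B - A ^ 2) / r ^ 3 := by field_simp; ring
    have : 0 ≤ p * (r ^ 2 * B - A ^ 2) / r ^ 3 :=
      div_nonneg (mul_nonneg hp (by nlinarith)) (by positivity)
    linarith

/-- Kato's inequality for the norm of slices.  `F j` solves a weak equation whose part in the
second variable is `B j` (`hB`: for every test function), `Q j` is an orthogonal projection of
`F j` slice by slice (`h0`, `h1`, `h2`), and `hlow` bounds the form in the second variable.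
Recipe: test with `ψ(x) Q j`, `ψ = φ / √(N² + ε²)`, `N = snm Q` (`H1.mul_fst`, `LH.comp`);
`∑ ⟨∇Q, ∇Q⟩ ≥ |∇N|²`; let `ε → 0`; `wd N = 0` where `N = 0`. -/
theorem kato_snm {κ : Type} [Fintype κ] {F Q : κ → E × E' → ℝ} {U : E × E' → ℝ} {a s : E → ℝ}
    {S : Set E} (hS : MeasurableSet S) (hF : ∀ j, H1 (pb b b') (F j))
    (hQ : ∀ j, H1 (pb b b') (Q j)) (hU : Pot (pb b b') U) {lam : ℝ}
    (heq : ∀ j φ, H1 (pb b b') φ → qf (pb b b') U (F j) φ = lam * ip (F j) φ) {M : ℝ}
    (hM : ∀ᵐ x : E, snm Q x ≤ M)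
    (h0 : ∀ᵐ x : E, ∑ j, ∫ y, F j (x, y) * Q j (x, y) = snm Q x ^ 2)
    (h1 : ∀ i, ∀ᵐ x : E, ∑ j, ∫ y, wd (pb b b' (.inl i)) (F j) (x, y) * Q j (x, y) =
      ∑ j, ∫ y, Q j (x, y) * wd (pb b b' (.inl i)) (Q j) (x, y))
    (h2 : ∀ i, ∀ᵐ x : E, ∑ j, ∫ y, wd (pb b b' (.inl i)) (F j) (x, y) *
        wd (pb b b' (.inl i)) (Q j) (x, y) = ∑ j, ∫ y, wd (pb b b' (.inl i)) (Q j) (x, y) ^ 2)
    (ha : LI S a) (hs : LI S s) (hs0 : ∀ᵐ x : E, x ∈ S → 0 ≤ s x)
    (hlow : ∀ᵐ x : E, x ∈ S → (a x + 2 * lam) * snm Q x ^ 2 - s x * snm Q x ≤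
      2 * ∑ j, qf b' (fun y => U (x, y)) (fun y => F j (x, y)) fun y => Q j (x, y)) :
    Sub b S (snm Q) a s := by
  intro φ hφ hφ0 hφS
  obtain ⟨hN, hd, -⟩ := H1.snm hQ
  have hn : ∀ x, 0 ≤ snm Q x := fun x => Real.sqrt_nonneg _
  have hL : LH b (snm Q) := hN.lh (M := M) (hM.mono fun x hx => (abs_of_nonneg (hn x)).trans_le hx)
  have hM' : ∀ j, ∀ᵐ x : E, ∫ y, Q j (x, y) ^ 2 ≤ M ^ 2 := fun j => hM.mono fun x hx =>
    (Finset.single_le_sum (f := fun j => ∫ y, Q j (x, y) ^ 2)
      (fun j _ => integral_nonneg fun y => sq_nonneg _) (Finset.mem_univ j)).trans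
      ((snorm_sq Q x).symm.trans_le (pow_le_pow_left₀ (hn x) hx 2))
  have i1 := hN.hl.integrable_dot hφ
  have i2 := ha.integrable_mul hS hN.1.1 hL.2 hφ hφS
  have i3 : Integrable fun x => s x * φ x := by
    simpa only [mul_one] using hs.integrable_mul hS (f := fun _ => 1) aestronglyMeasurable_const
      (LH.const (b := b) 1).2 hφ hφS
  have hw : Integrable fun x => dot b (snm Q) φ x + a x * snm Q x * φ x - s x * φ x :=
    (i1.add i2).sub i3
  have hθ : ∀ {ε : ℝ}, 0 < ε → Integrable fun x => snm Q x / √(snm Q x ^ 2 + ε ^ 2) *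
      (dot b (snm Q) φ x + a x * snm Q x * φ x - s x * φ x) := fun {ε} hε =>
    hw.bdd_mul (c := 1) ((Continuous.div (f := fun t : ℝ => t) (g := fun t => √(t ^ 2 + ε ^ 2))
      (by fun_prop) (by fun_prop)
      fun t => Real.sqrt_ne_zero'.2 (by positivity)).comp_aestronglyMeasurable hN.1.1)
      (Eventually.of_forall fun x => pos_div_le hε)
  have key : ∫ x, SignType.sign (snm Q x) *
      (dot b (snm Q) φ x + a x * snm Q x * φ x - s x * φ x) ≤ 0 := by
    refine le_of_tendsto' (pos_dct hN.1.1 hw) fun n => ?_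
    have hε := pos_eps_pos n
    generalize (1 : ℝ) / (n + 1) = ε at hε
    have hr : ∀ t : ℝ, 0 < √(t ^ 2 + ε ^ 2) := fun t => Real.sqrt_pos.2 (by positivity)
    have hc : ContDiff ℝ 1 fun t : ℝ => (√(t ^ 2 + ε ^ 2))⁻¹ :=
      ContDiff.inv (ContDiff.sqrt (by fun_prop) fun t => by positivity) fun t => (hr t).ne'
    have hc' : ∀ t : ℝ, deriv (fun t : ℝ => (√(t ^ 2 + ε ^ 2))⁻¹) t =
        -(t / √(t ^ 2 + ε ^ 2)) / √(t ^ 2 + ε ^ 2) ^ 2 := fun t => by
      have := pos_der 0 hε t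
      simp only [sub_zero] at this
      exact (this.fun_inv (hr t).ne').deriv
    obtain ⟨c1, c2⟩ := hL.comp hc
    have hψ := c1.mul_LT hφ
    have k := fun j => snormK_int (hF j) ((hQ j).mul_fst (hM' j) hψ).1 hU
      (heq j _ ((hQ j).mul_fst (hM' j) hψ).1)
    refine (integral_mono_ae (hθ hε) (integrable_finsetSum Finset.univ fun j _ => (k j).1)
      ?_).trans_eq ((integral_finsetSum _ fun j _ => (k j).1).trans
        (Finset.sum_eq_zero fun j _ => (k j).2))
    filter_upwards [ae_all_iff.2 fun j => snormK_mul (U := U) (hF j) (hQ j) (hM' j) hψ lam,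
      ae_all_iff.2 c2, ae_all_iff.2 (c1.wd_mul hφ.1), ae_all_iff.2 hd, h0, ae_all_iff.2 h1,
      ae_all_iff.2 h2, hlow, hφ0, hφS, ae_all_iff.2 fun j => memLp_slice (hQ j).1,
      ae_all_iff.2 fun i => ae_all_iff.2 fun j => memLp_slice ((hQ j).2 (.inl i)).2]
      with x k1 k2 k3 k4 k5 k6 k7 k8 k9 k10 k11 k12
    simp only [k1]
    rw [Finset.sum_add_distrib, Finset.sum_comm, ← Finset.mul_sum, Finset.sum_sub_distrib,
      ← Finset.mul_sum, ← Finset.mul_sum, k5, add_sub_assoc, mul_add]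
    refine add_le_add ?_ ?_
    · rw [dot, Finset.mul_sum]
      refine Finset.sum_le_sum fun i _ => ?_
      rw [Finset.sum_add_distrib, ← Finset.mul_sum, ← Finset.mul_sum, k6, k7, k3, k2, hc', k4]
      exact snorm_alg (Finset.sum_nonneg fun j _ => integral_nonneg fun y => sq_nonneg _)
        (snorm_cs k11 (k12 i)) (hr _) (by rw [Real.sq_sqrt (by positivity)]; nlinarith) k9 _
    · by_cases hx : x ∈ S
      · have := mul_le_mul_of_nonneg_left (k8 hx) (mul_nonneg (inv_nonneg.2 (hr (snm Q x)).le) k9)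
        rw [div_eq_mul_inv]
        linarith
      · simp [k10 hx]
  have e : ∫ x, (dot b (snm Q) φ x + a x * snm Q x * φ x - s x * φ x) =
      dir b (snm Q) φ + (∫ x, a x * snm Q x * φ x) - ∫ x, s x * φ x :=
    (integral_sub (i1.add i2) i3).trans (congrArg (· - _) (integral_add i1 i2))
  rw [← sub_nonpos, ← e]
  refine le_trans (integral_mono_ae hw (hw.bdd_mul (c := 1) ?_
    (Eventually.of_forall fun x => pos_abs_sign _)) ?_) key
  · have := hN.1.1.aemeasurable
    simp only [← pos_sign]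
    exact AEMeasurable.aestronglyMeasurable (by fun_prop)
  · filter_upwards [ae_all_iff.2 hd, hs0, hφ0, hφS] with x k1 k2 k3 k4
    rcases (hn x).eq_or_lt with h | h
    · have : 0 ≤ s x * φ x := by
        by_cases hx : x ∈ S
        · exact mul_nonneg (k2 hx) k3
        · simp [k4 hx]
      simpa [dot, k1, ← h] using this
    · simp [h]

/-- The equation of a scalar channel: test with `φ ⊗ Ψ j`. -/
theorem chan_eq {κ : Type} [Fintype κ] {F : κ → E × E' → ℝ} {Ψ : κ → E' → ℝ} {U : E × E' → ℝ}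
    (hF : ∀ j, H1 (pb b b') (F j)) (hΨ : ∀ j, H1 b' (Ψ j)) (hU : Pot (pb b b') U) {lam : ℝ}
    (heq : ∀ j φ, H1 (pb b b') φ → qf (pb b b') U (F j) φ = lam * ip (F j) φ) {a s : E → ℝ}
    {S : Set E} (hS : MeasurableSet S) (ha : LI S a) (hs : LI S s) {M : ℝ}
    (hM : ∀ᵐ x : E, |∑ j, ∫ y, Ψ j y * F j (x, y)| ≤ M)
    (hlow : ∀ᵐ x : E, x ∈ S → (a x + 2 * lam) * (∑ j, ∫ y, Ψ j y * F j (x, y)) - s x ≤
      2 * ∑ j, qf b' (fun y => U (x, y)) (fun y => F j (x, y)) (Ψ j)) :
    Sub b S (fun x => ∑ j, ∫ y, Ψ j y * F j (x, y)) a s := by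
  exact snb_chan_eq hF hΨ hU heq hS ha hs hM hlow

/-- The norm of slices that are odd in the first variable has zero trace (as `Strip.of_odd`, with
an extra integral over the second variable). -/
theorem strip_snm {κ : Type} [Fintype κ] {F : κ → X × E' → ℝ} (h : ∀ j, H1 (pb eX b') (F j))
    (ho : ∀ j, ∀ᵐ p : X × E', F j (rf p.1, p.2) = -F j p) : Strip (snm F) := by
  exact snb_strip h ho

end Crest.Agent.R335
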